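import Mathlib

/-! Auxiliary counting lemmas for subspaces over a finite field. -/

namespace Vale.Agent.P050

open scoped BigOperators
open Finset Module

theorem dcount {α β : Type*} [Finite α] [Finite β] (s : Set α) (t : Set β) (r : α → β → Prop)
    (m n w : ℕ) (h1 : ∀ a ∈ s, m ≤ {b | b ∈ t ∧ r a b}.ncard)
    (h2 : ∀ b ∈ t, {a | a ∈ s ∧ r a b}.ncard * w ≤ n) : s.ncard * m * w ≤ t.ncard * n := by
  classical
  have := Fintype.ofFinite α
  have := Fintype.ofFinite β
  have e := Finset.sum_card_bipartiteAbove_eq_sum_card_bipartiteBelow r (s := s.toFinset)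
    (t := t.toFinset)
  have e1 : s.toFinset.card • m ≤ ∑ a ∈ s.toFinset, (Finset.bipartiteAbove r t.toFinset a).card :=
    Finset.card_nsmul_le_sum _ _ _ fun a ha => by
      have := h1 a (Set.mem_toFinset.1 ha)
      rw [Set.ncard_eq_toFinset_card'] at this
      refine this.trans (Finset.card_le_card fun b hb => ?_)
      simpa [Finset.bipartiteAbove] using hb
  have e2 : ∑ b ∈ t.toFinset, (Finset.bipartiteBelow r s.toFinset b).card * w ≤
      t.toFinset.card • n :=
    Finset.sum_le_card_nsmul _ _ _ fun b hb => by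
      have := h2 b (Set.mem_toFinset.1 hb)
      rw [Set.ncard_eq_toFinset_card'] at this
      refine le_trans (Nat.mul_le_mul_right _ (Finset.card_le_card fun a ha => ?_)) this
      simpa [Finset.bipartiteBelow] using ha
  rw [← Finset.sum_mul, ← e] at e2
  rw [Set.ncard_eq_toFinset_card', Set.ncard_eq_toFinset_card']
  rw [smul_eq_mul] at e1 e2
  exact (Nat.mul_le_mul_right _ e1).trans e2

variable {F : Type} [Field F] [Fintype F]
variable {V : Type} [AddCommGroup V] [Module F V] [FiniteDimensional F V]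

theorem ncard_submodule (M : Submodule F V) :
    (M : Set V).ncard = Fintype.card F ^ finrank F M := by
  rw [← Nat.card_coe_set_eq, ← Nat.card_eq_fintype_card, ← Module.natCard_eq_pow_finrank]
  rfl

include F in
theorem finite_V : Finite V := Module.finite_of_finite F

theorem finite_sub : Finite (Submodule F V) :=
  have := finite_V (F := F) (V := V)
  Finite.of_injective (fun M : Submodule F V => (M : Set V)) SetLike.coe_injective

theorem chain (P : Submodule F V → Prop) (m : ℕ) (c : ℕ → ℕ)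
    (hc : ∀ S, P S → finrank F S < m →
      {p | p ∉ S ∧ P (S ⊔ F ∙ p)}.ncard ≤ c (finrank F S)) (e : ℕ) :
    ∀ S : Submodule F V, finrank F S + e = m →
      {M : Submodule F V | S ≤ M ∧ finrank F M = m ∧ ∀ S', S ≤ S' → S' ≤ M → P S'}.ncard *
        (Fintype.card F ^ m - Fintype.card F ^ (m - 1)) ^ e ≤
        ∏ t ∈ range e, c (finrank F S + t) := by
  have := finite_V (F := F) (V := V)
  have := finite_sub (F := F) (V := V)
  induction e with
  | zero =>
    intro S hS
    rw [pow_zero, mul_one, Finset.prod_range_zero, Set.ncard_le_one_iff]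
    intro a b ha hb
    rw [← Submodule.eq_of_le_of_finrank_eq ha.1 (by rw [ha.2.1]; omega),
      ← Submodule.eq_of_le_of_finrank_eq hb.1 (by rw [hb.2.1]; omega)]
  | succ e ih =>
    intro S hS
    by_cases hP : P S
    swap
    · have : {M : Submodule F V | S ≤ M ∧ finrank F M = m ∧ ∀ S', S ≤ S' → S' ≤ M → P S'} = ∅ :=
        Set.eq_empty_of_forall_notMem fun M hM => hP (hM.2.2 S le_rfl hM.1)
      rw [this]; simp
    have key := dcount
      {M : Submodule F V | S ≤ M ∧ finrank F M = m ∧ ∀ S', S ≤ S' → S' ≤ M → P S'}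
      {p | p ∉ S ∧ P (S ⊔ F ∙ p)} (fun M p => p ∈ M)
      (Fintype.card F ^ m - Fintype.card F ^ (m - 1))
      (∏ t ∈ range e, c (finrank F S + 1 + t))
      ((Fintype.card F ^ m - Fintype.card F ^ (m - 1)) ^ e) ?_ ?_
    · rw [pow_succ', ← mul_assoc, Finset.prod_range_succ', mul_comm _ (c _)]
      refine key.trans (Nat.mul_le_mul (hc S hP (by omega)) (le_of_eq ?_))
      exact Finset.prod_congr rfl fun t _ => by rw [add_assoc, add_comm 1]
    · rintro M ⟨h1, h2, h3⟩
      have h4 : (M : Set V) \ S ⊆ {b | b ∈ {p | p ∉ S ∧ P (S ⊔ F ∙ p)} ∧ b ∈ M} := by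
        rintro p ⟨hp, hp'⟩
        exact ⟨⟨hp', h3 _ le_sup_left
          (sup_le h1 ((Submodule.span_singleton_le_iff_mem _ _).2 hp))⟩, hp⟩
      refine le_trans ?_ (Set.ncard_le_ncard h4)
      rw [Set.ncard_sdiff h1, ncard_submodule, ncard_submodule, h2]
      have : Fintype.card F ^ finrank F S ≤ Fintype.card F ^ (m - 1) :=
        Nat.pow_le_pow_right Fintype.card_pos (by omega)
      omega
    · rintro p ⟨hp, -⟩
      have h4 := Submodule.finrank_sup_span_singleton hp
      have h5 := ih (S ⊔ F ∙ p) (by omega)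
      rw [h4] at h5
      refine le_trans (Nat.mul_le_mul_right _ (Set.ncard_le_ncard ?_)) h5
      rintro M ⟨⟨h1, h2, h3⟩, hM⟩
      exact ⟨sup_le h1 ((Submodule.span_singleton_le_iff_mem _ _).2 hM), h2,
        fun S' k1 k2 => h3 S' (le_sup_left.trans k1) k2⟩

omit [Field F] in
theorem two_mul_diff [Nontrivial F] {m : ℕ} (hm : 0 < m) :
    Fintype.card F ^ m ≤ 2 * (Fintype.card F ^ m - Fintype.card F ^ (m - 1)) := by
  obtain ⟨k, rfl⟩ : ∃ k, m = k + 1 := ⟨m - 1, by omega⟩
  have h : 2 ≤ Fintype.card F := Fintype.one_lt_card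
  have : Fintype.card F ^ k * 2 ≤ Fintype.card F ^ (k + 1) := by
    rw [pow_succ]; exact Nat.mul_le_mul_left _ h
  simp only [Nat.add_sub_cancel]
  omega

/-- A set meeting every line in a fixed direction in few points is small. -/
theorem line_count (U : Submodule F V) (v : V) (hv : v ∈ U) (Z : Set V) (hZ : Z ⊆ U) (k : ℕ)
    (h : ∀ y, {t : F | y + t • v ∈ Z}.ncard ≤ k) :
    Z.ncard * Fintype.card F ≤ Fintype.card F ^ finrank F U * k := by
  have := finite_V (F := F) (V := V)
  by_cases hv0 : v = 0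
  · subst hv0
    rcases Z.eq_empty_or_nonempty with rfl | ⟨y, hy⟩
    · simp
    · have h1 := h y
      have h2 : {t : F | y + t • (0 : V) ∈ Z} = Set.univ := by ext t; simp [hy]
      rw [h2, Set.ncard_univ, Nat.card_eq_fintype_card] at h1
      rw [← ncard_submodule]
      exact Nat.mul_le_mul (Set.ncard_le_ncard hZ) h1
  have key := dcount Z (U : Set V) (fun z y => ∃ t : F, z = y + t • v) (Fintype.card F) k 1 ?_ ?_
  · rwa [mul_one, ncard_submodule] at key
  · intro z hz
    rw [← Nat.card_eq_fintype_card, ← Set.ncard_univ]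
    refine Set.ncard_le_ncard_of_injOn (fun t => z - t • v) ?_ ?_
    · intro t _
      exact ⟨U.sub_mem (hZ hz) (U.smul_mem _ hv), t, by simp⟩
    · intro t _ t' _ h'
      exact smul_left_injective F hv0 (sub_right_injective h')
  · intro y _
    rw [mul_one]
    refine le_trans ?_ (h y)
    refine le_trans (Set.ncard_le_ncard ?_) (Set.ncard_image_le (f := fun t => y + t • v))
    rintro z ⟨hz, t, rfl⟩
    exact ⟨t, hz, rfl⟩

omit [Fintype F] in
theorem finrank_inf_orth (B : LinearMap.BilinForm F V) (hB : B.IsSymm) {S T : Submodule F V}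
    (h : S ≤ T) : finrank F S + finrank F ↥(T ⊓ B.orthogonal S) =
      finrank F T + finrank F ↥(S ⊓ B.orthogonal T) := by
  have h1 := LinearMap.BilinForm.finrank_add_finrank_orthogonal (B := B.restrict T)
    (hB.restrict T).isRefl (S.comap T.subtype)
  rw [(Submodule.comapSubtypeEquivOfLe h).finrank_eq, ← Submodule.finrank_map_subtype_eq,
    ← Submodule.finrank_map_subtype_eq T (_ ⊓ _)] at h1
  have e1 : Submodule.map T.subtype ((B.restrict T).orthogonal (S.comap T.subtype)) =
      T ⊓ B.orthogonal S := by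
    ext v
    simp only [Submodule.mem_map, LinearMap.BilinForm.mem_orthogonal_iff, Submodule.mem_inf]
    constructor
    · rintro ⟨w, hw, rfl⟩
      exact ⟨w.2, fun n hn => hw ⟨n, h hn⟩ hn⟩
    · rintro ⟨hv, hw⟩
      exact ⟨⟨v, hv⟩, fun n hn => hw n hn, rfl⟩
  have e2 : Submodule.map T.subtype (S.comap T.subtype ⊓ (B.restrict T).orthogonal ⊤) =
      S ⊓ B.orthogonal T := by
    ext v
    simp only [Submodule.mem_map, LinearMap.BilinForm.mem_orthogonal_iff, Submodule.mem_inf]
    constructor
    · rintro ⟨w, ⟨hw, hw'⟩, rfl⟩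
      exact ⟨hw, fun n hn => hw' ⟨n, hn⟩ trivial⟩
    · rintro ⟨hv, hw⟩
      exact ⟨⟨v, h hv⟩, ⟨hv, fun n _ => hw n n.2⟩, rfl⟩
  rwa [e1, e2] at h1

/-- Zeros of a nonzero quadratic form. -/
theorem zeros_le (B : LinearMap.BilinForm F V) (hB : B.IsSymm) (U : Submodule F V) {v : V}
    (hv : v ∈ U) (hv0 : B v v ≠ 0) :
    {p | p ∈ U ∧ B p p = 0}.ncard * Fintype.card F ≤ Fintype.card F ^ finrank F U * 2 := by
  classical
  refine line_count U v hv _ (fun p hp => hp.1) 2 fun y => ?_
  set f : Polynomial F := Polynomial.C (B v v) * Polynomial.X ^ 2 +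
    Polynomial.C (2 * B y v) * Polynomial.X + Polynomial.C (B y y) with hf
  have h1 : f.natDegree = 2 := Polynomial.natDegree_quadratic hv0
  have h2 : f ≠ 0 := by rintro h; rw [h] at h1; simp at h1
  rw [Set.ncard_eq_toFinset_card', ← h1]
  refine Polynomial.card_le_degree_of_subset_roots fun t ht => ?_
  have h3 : B (y + t • v) (y + t • v) = 0 := by
    have := Set.mem_toFinset.1 ht
    exact this.2
  rw [Polynomial.mem_roots h2, Polynomial.IsRoot.def, hf]
  simp only [map_add, map_smul, LinearMap.add_apply, LinearMap.smul_apply, smul_eq_mul,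
    hB.eq v y] at h3
  simp only [Polynomial.eval_add, Polynomial.eval_mul, Polynomial.eval_C, Polynomial.eval_pow,
    Polynomial.eval_X]
  linear_combination h3

omit [Fintype F] [FiniteDimensional F V] in
theorem iso_of_diag (hF : ringChar F ≠ 2) (B : LinearMap.BilinForm F V) (hB : B.IsSymm)
    (U : Submodule F V) (h : ∀ v ∈ U, B v v = 0) : ∀ u ∈ U, ∀ v ∈ U, B u v = 0 := by
  intro u hu v hv
  have h1 := h (u + v) (U.add_mem hu hv)
  simp only [map_add, LinearMap.add_apply, h u hu, h v hv, hB.eq v u] at h1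
  have h2 : (2 : F) * B u v = 0 := by linear_combination h1
  exact (mul_eq_zero.1 h2).resolve_left (Ring.two_ne_zero hF)

omit [Fintype F] in
/-- The double orthogonal inside `T`. -/
theorem orth_orth_eq (B : LinearMap.BilinForm F V) (hB : B.IsSymm) {S T : Submodule F V}
    (h : S ≤ T) :
    S ⊔ (T ⊓ B.orthogonal T) = T ⊓ B.orthogonal (T ⊓ B.orthogonal S) := by
  have h1 := finrank_inf_orth B hB h
  have h2 := finrank_inf_orth B hB (inf_le_left : T ⊓ B.orthogonal S ≤ T)
  have h3 := Submodule.finrank_sup_add_finrank_inf_eq S (T ⊓ B.orthogonal T)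
  have e1 : T ⊓ B.orthogonal S ⊓ B.orthogonal T = T ⊓ B.orthogonal T := by
    rw [inf_assoc, inf_eq_right.2 (LinearMap.BilinForm.orthogonal_le h)]
  have e2 : S ⊓ (T ⊓ B.orthogonal T) = S ⊓ B.orthogonal T := by
    rw [← inf_assoc, inf_eq_left.2 h]
  rw [e1] at h2
  rw [e2] at h3
  refine Submodule.eq_of_le_of_finrank_eq (sup_le (le_inf h ?_) (le_inf inf_le_left ?_))
    (by omega)
  · intro s hs n hn
    rw [hB.eq]
    exact hn.2 s hs
  · intro s hs n hn
    exact hs.2 n hn.1

end Vale.Agent.P050
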