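import Vale.Agent.P050.Defs
import Vale.Agent.P050.ChainAux

/-! Counting subspaces over a finite field. -/

namespace Vale.Agent.P050

open scoped BigOperators
open Finset Module

set_option linter.unusedSectionVars false

variable {F : Type} [Field F] [Fintype F] [DecidableEq F]
variable {V : Type} [AddCommGroup V] [Module F V] [FiniteDimensional F V]

theorem cancel_pow {N w c m e d : ℕ} (hmd : m ≤ d)
    (h : N * (Fintype.card F ^ m - Fintype.card F ^ (m - 1)) ^ e * w ≤
      c * Fintype.card F ^ (e * d)) (hem : e ≤ m) :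
    N * w ≤ 2 ^ e * c * Fintype.card F ^ (e * (d - m)) := by
  rcases Nat.eq_zero_or_pos e with rfl | he
  · simpa using h
  have h1 := Nat.pow_le_pow_left (two_mul_diff (F := F) (m := m) (by omega)) e
  have h2 : Fintype.card F ^ (e * d) =
      Fintype.card F ^ (e * (d - m)) * (Fintype.card F ^ m) ^ e := by
    rw [← pow_mul, ← pow_add]
    congr 1
    obtain ⟨k, rfl⟩ := Nat.exists_eq_add_of_le hmd
    rw [Nat.add_sub_cancel_left]; ring
  refine Nat.le_of_mul_le_mul_right ?_ (show 0 < (Fintype.card F ^ m) ^ e by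
    have := Fintype.card_pos (α := F); positivity)
  calc N * w * (Fintype.card F ^ m) ^ e
      ≤ N * w * (2 * (Fintype.card F ^ m - Fintype.card F ^ (m - 1))) ^ e :=
        Nat.mul_le_mul_left _ h1
    _ = 2 ^ e * (N * (Fintype.card F ^ m - Fintype.card F ^ (m - 1)) ^ e * w) := by
        rw [mul_pow]; ring
    _ ≤ 2 ^ e * (c * Fintype.card F ^ (e * d)) := Nat.mul_le_mul_left _ h
    _ = _ := by rw [h2]; ring

/-- TASK B1. -/
theorem grass_le (S T : Submodule F V) (m : ℕ) :
    {M : Submodule F V | S ≤ M ∧ M ≤ T ∧ finrank F M = m}.ncard ≤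
      2 ^ m * Fintype.card F ^ ((m - finrank F S) * (finrank F T - m)) := by
  have := finite_V (F := F) (V := V)
  have := finite_sub (F := F) (V := V)
  rcases Set.eq_empty_or_nonempty {M : Submodule F V | S ≤ M ∧ M ≤ T ∧ finrank F M = m} with
    h | ⟨M, h1, h2, h3⟩
  · rw [h]; simp
  have h4 := Submodule.finrank_mono h1
  have h5 := Submodule.finrank_mono h2
  have key := chain (fun S' : Submodule F V => S' ≤ T) m
    (fun _ => Fintype.card F ^ finrank F T) (by
      intro S' _ _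
      rw [← ncard_submodule]
      exact Set.ncard_le_ncard fun p hp => hp.2
        (Submodule.mem_sup_right (Submodule.mem_span_singleton_self p)))
    (m - finrank F S) S (by omega)
  rw [Finset.prod_const, Finset.card_range, ← pow_mul, mul_comm (finrank F T)] at key
  have h6 := cancel_pow (F := F) (N := {M : Submodule F V | S ≤ M ∧ finrank F M = m ∧
      ∀ S', S ≤ S' → S' ≤ M → S' ≤ T}.ncard) (w := 1) (c := 1) (m := m)
    (e := m - finrank F S) (d := finrank F T) (by omega) (by simpa using key) (by omega)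
  rw [mul_one, mul_one] at h6
  refine le_trans (Set.ncard_le_ncard ?_) (h6.trans (Nat.mul_le_mul_right _
    (Nat.pow_le_pow_right (by norm_num) (by omega))))
  rintro M ⟨k1, k2, k3⟩
  exact ⟨k1, k3, fun S' _ h => h.trans k2⟩

theorem prod_iso (q d e : ℕ) (h : e ≤ d) :
    (∏ t ∈ range e, q ^ (d - t - 1) * 2) * q ^ (e * (e + 1) / 2) = 2 ^ e * q ^ (e * d) := by
  induction e with
  | zero => simp
  | succ e ih =>
    have h1 : (e + 1) * (e + 1 + 1) / 2 = e * (e + 1) / 2 + (e + 1) := by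
      rw [show (e + 1) * (e + 1 + 1) = e * (e + 1) + (e + 1) * 2 by ring,
        Nat.add_mul_div_right _ _ (by norm_num)]
    have h2 : q ^ (d - e - 1) * q ^ (e + 1) = q ^ d := by
      rw [← pow_add]; congr 1; omega
    rw [Finset.prod_range_succ, h1, pow_add, add_mul, one_mul, pow_add q (e * d), ← h2]
    calc _ = (∏ t ∈ range e, q ^ (d - t - 1) * 2) * q ^ (e * (e + 1) / 2) *
          (q ^ (d - e - 1) * 2 * q ^ (e + 1)) := by ring
      _ = _ := by rw [ih (by omega)]; ring

theorem zeros_le' (B : LinearMap.BilinForm F V) (hB : B.IsSymm) (U : Submodule F V) {v : V}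
    (hv : v ∈ U) (hv0 : B v v ≠ 0) :
    {p | p ∈ U ∧ B p p = 0}.ncard ≤ Fintype.card F ^ (finrank F U - 1) * 2 := by
  have h1 := zeros_le B hB U hv hv0
  have h2 : finrank F U ≠ 0 := by
    intro h
    rw [Submodule.finrank_eq_zero] at h
    subst h
    rw [Submodule.mem_bot] at hv
    simp [hv] at hv0
  obtain ⟨k, hk⟩ := Nat.exists_eq_succ_of_ne_zero h2
  rw [hk] at h1 ⊢
  refine Nat.le_of_mul_le_mul_right ?_ (Fintype.card_pos (α := F))
  refine h1.trans (le_of_eq ?_)
  simp only [Nat.succ_eq_add_one, Nat.add_sub_cancel]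
  ring

/-- TASK B2. -/
theorem iso_le (hF : ringChar F ≠ 2) (B : LinearMap.BilinForm F V) (hB : B.IsSymm)
    (S T : Submodule F V) (m : ℕ) :
    {M : Submodule F V | M ≤ T ∧ finrank F M = m ∧ (∀ u ∈ M, ∀ v ∈ M, B u v = 0) ∧
        M ⊓ B.orthogonal T = S}.ncard *
        Fintype.card F ^ ((m - finrank F S) * (m - finrank F S + 1) / 2) ≤
      4 ^ m * Fintype.card F ^ ((m - finrank F S) * (finrank F T - m)) := by
  have := finite_V (F := F) (V := V)
  have := finite_sub (F := F) (V := V)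
  rcases Set.eq_empty_or_nonempty {M : Submodule F V | M ≤ T ∧ finrank F M = m ∧
      (∀ u ∈ M, ∀ v ∈ M, B u v = 0) ∧ M ⊓ B.orthogonal T = S} with h | ⟨M, h1, h2, h3, h4⟩
  · rw [h]; simp
  have hSM : S ≤ M := h4 ▸ inf_le_left
  have hSo : S ≤ B.orthogonal T := h4 ▸ inf_le_right
  have h5 := Submodule.finrank_mono hSM
  have h6 := Submodule.finrank_mono h1
  have key := chain (fun S' : Submodule F V => S' ≤ T ∧ (∀ u ∈ S', ∀ v ∈ S', B u v = 0) ∧
      S' ⊓ B.orthogonal T = S) m
    (fun s => Fintype.card F ^ (finrank F T - (s - finrank F S) - 1) * 2) (by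
      rintro S' ⟨k1, k2, k3⟩ _
      rcases Set.eq_empty_or_nonempty {p | p ∉ S' ∧ (S' ⊔ F ∙ p ≤ T ∧
        (∀ u ∈ S' ⊔ F ∙ p, ∀ v ∈ S' ⊔ F ∙ p, B u v = 0) ∧ (S' ⊔ F ∙ p) ⊓ B.orthogonal T = S)}
        with h | ⟨p, hp, hp1, hp2, hp3⟩
      · rw [h]; simp
      have hmem : ∀ x : V, x ∈ S' ⊔ F ∙ x := fun x =>
        Submodule.mem_sup_right (Submodule.mem_span_singleton_self x)
      have k4 := finrank_inf_orth B hB k1
      rw [k3] at k4
      have k5 : finrank F S ≤ finrank F S' := Submodule.finrank_mono (k3 ▸ inf_le_left)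
      have k6 : ∃ v ∈ T ⊓ B.orthogonal S', B v v ≠ 0 := by
        by_contra hcon
        push Not at hcon
        have k7 := iso_of_diag hF B hB _ hcon
        have k8 : p ∈ T ⊓ B.orthogonal S' :=
          ⟨hp1 (hmem p), fun n hn => hp2 n (Submodule.mem_sup_left hn) p (hmem p)⟩
        have k9 : p ∈ T ⊓ B.orthogonal (T ⊓ B.orthogonal S') :=
          ⟨k8.1, fun n hn => k7 n hn p k8⟩
        rw [← orth_orth_eq B hB k1] at k9
        obtain ⟨s, hs, r, hr, rfl⟩ := Submodule.mem_sup.1 k9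
        have k10 : r ∈ (S' ⊔ F ∙ (s + r)) ⊓ B.orthogonal T := by
          refine ⟨?_, hr.2⟩
          have := Submodule.sub_mem _ (hmem (s + r)) (Submodule.mem_sup_left hs)
          simpa using this
        rw [hp3, ← k3] at k10
        exact hp (S'.add_mem hs k10.1)
      obtain ⟨v, hv, hv0⟩ := k6
      have k7 := zeros_le' B hB _ hv hv0
      have k8 : finrank F ↥(T ⊓ B.orthogonal S') = finrank F T - (finrank F S' - finrank F S) := by
        omega
      rw [k8] at k7
      refine le_trans (Set.ncard_le_ncard ?_) k7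
      rintro x ⟨-, hx1, hx2, -⟩
      exact ⟨⟨hx1 (hmem x), fun n hn => hx2 n (Submodule.mem_sup_left hn) x (hmem x)⟩,
        hx2 x (hmem x) x (hmem x)⟩)
    (m - finrank F S) S (by omega)
  simp only [Nat.add_sub_cancel_left] at key
  have h7 := cancel_pow (F := F) (m := m) (e := m - finrank F S) (d := finrank F T) (by omega)
    ((Nat.mul_le_mul_right _ key).trans
      (prod_iso (Fintype.card F) (finrank F T) (m - finrank F S) (by omega)).le) (by omega)
  refine le_trans (Nat.mul_le_mul_right _ (Set.ncard_le_ncard ?_)) (h7.trans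
    (Nat.mul_le_mul_right _ ?_))
  · rintro M ⟨k1, k2, k3, k4⟩
    refine ⟨k4 ▸ inf_le_left, k2, fun S' l1 l2 => ⟨l2.trans k1,
      fun u hu v hv => k3 u (l2 hu) v (l2 hv), le_antisymm ?_ (le_inf l1 hSo)⟩⟩
    exact k4 ▸ inf_le_inf_right _ l2
  · rw [← mul_pow]
    exact Nat.pow_le_pow_right (by norm_num) (by omega)

theorem cast_diff4 : ((Fintype.card F ^ 4 - Fintype.card F ^ (4 - 1) : ℕ) : ℝ) =
    (Fintype.card F : ℝ) ^ 3 * ((Fintype.card F : ℝ) - 1) := by
  rw [Nat.cast_sub (Nat.pow_le_pow_right Fintype.card_pos (by norm_num))]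
  push_cast
  ring

/-- TASK B3. -/
theorem grass48 (hV : finrank F V = 8) :
    ({M : Submodule F V | finrank F M = 4}.ncard : ℝ) * ((Fintype.card F : ℝ) - 1) ^ 4 ≤
      (Fintype.card F : ℝ) ^ 20 := by
  have := finite_V (F := F) (V := V)
  have key := chain (fun _ : Submodule F V => True) 4 (fun _ => Fintype.card F ^ 8) (by
      intro S' _ _
      rw [← hV, ← finrank_top, ← ncard_submodule]
      exact Set.ncard_le_ncard fun p _ => Submodule.mem_top) 4 ⊥ (by simp)
  simp only [bot_le, true_and, implies_true, and_true, Finset.prod_const, Finset.card_range]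
    at key
  have h1 := (Nat.cast_le (α := ℝ)).2 key
  rw [Nat.cast_mul, Nat.cast_pow, cast_diff4] at h1
  push_cast at h1
  have hq : (0 : ℝ) < (Fintype.card F : ℝ) ^ 12 := by
    have := Fintype.card_pos (α := F); positivity
  refine le_of_mul_le_mul_right ?_ hq
  calc _ = _ := by ring
    _ ≤ _ := h1
    _ = _ := by ring

theorem iso48_step (hF : ringChar F ≠ 2) (B : LinearMap.BilinForm F V) (hB : B.IsSymm)
    (T : Submodule F V) (hT : finrank F T = 8) (hnd : T ⊓ B.orthogonal T = ⊥)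
    (S : Submodule F V) (hS : S ≤ T) (h4 : finrank F S < 4) :
    finrank F ↥(T ⊓ B.orthogonal S) = 8 - finrank F S ∧
      {p | p ∈ T ⊓ B.orthogonal S ∧ B p p = 0}.ncard ≤ Fintype.card F ^ (7 - finrank F S) * 2 := by
  have k4 := finrank_inf_orth B hB hS
  have k3 : S ⊓ B.orthogonal T = ⊥ := le_bot_iff.1 (hnd ▸ inf_le_inf_right _ hS)
  rw [k3, finrank_bot, hT] at k4
  have k6 : ∃ v ∈ T ⊓ B.orthogonal S, B v v ≠ 0 := by
    by_contra hcon
    push Not at hcon
    have k7 := iso_of_diag hF B hB _ hcon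
    have k9 : T ⊓ B.orthogonal S ≤ T ⊓ B.orthogonal (T ⊓ B.orthogonal S) :=
      fun p hp => ⟨hp.1, fun n hn => k7 n hn p hp⟩
    rw [← orth_orth_eq B hB hS, hnd, sup_bot_eq] at k9
    have := Submodule.finrank_mono k9
    omega
  obtain ⟨v, hv, hv0⟩ := k6
  have k7 := zeros_le' B hB _ hv hv0
  have k8 : finrank F ↥(T ⊓ B.orthogonal S) - 1 = 7 - finrank F S := by omega
  rw [k8] at k7
  exact ⟨by omega, k7⟩

/-- TASK B4. -/
theorem iso48 (hF : ringChar F ≠ 2) (B : LinearMap.BilinForm F V) (hB : B.IsSymm)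
    (T : Submodule F V) (hT : finrank F T = 8) (hnd : T ⊓ B.orthogonal T = ⊥) :
    ({M : Submodule F V | M ≤ T ∧ finrank F M = 4 ∧ ∀ u ∈ M, ∀ v ∈ M, B u v = 0}.ncard : ℝ) *
        ((Fintype.card F : ℝ) - 1) ^ 4 ≤
      2 * (Fintype.card F : ℝ) ^ 7 * ((Fintype.card F : ℝ) + 6) ^ 3 := by
  have := finite_V (F := F) (V := V)
  have := finite_sub (F := F) (V := V)
  have key := chain (fun S' : Submodule F V => S' ≤ T ∧ ∀ u ∈ S', ∀ v ∈ S', B u v = 0) 4
    (fun s => if s ≤ 2 then Fintype.card F ^ (6 - s) * (Fintype.card F + 6)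
      else Fintype.card F ^ 4 * 2) (by
      rintro S' ⟨k1, k2⟩ k3
      have hmem : ∀ x : V, x ∈ S' ⊔ F ∙ x := fun x =>
        Submodule.mem_sup_right (Submodule.mem_span_singleton_self x)
      obtain ⟨k4, k5⟩ := iso48_step hF B hB T hT hnd S' k1 k3
      have hsub : {p | p ∉ S' ∧ (S' ⊔ F ∙ p ≤ T ∧
          ∀ u ∈ S' ⊔ F ∙ p, ∀ v ∈ S' ⊔ F ∙ p, B u v = 0)} ⊆
          {p | p ∈ T ⊓ B.orthogonal S' ∧ B p p = 0} := by
        rintro x ⟨-, hx1, hx2⟩
        exact ⟨⟨hx1 (hmem x), fun n hn => hx2 n (Submodule.mem_sup_left hn) x (hmem x)⟩,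
          hx2 x (hmem x) x (hmem x)⟩
      split_ifs with h2
      swap
      · rw [show finrank F S' = 3 by omega] at k5
        exact (Set.ncard_le_ncard hsub).trans k5
      rcases Set.eq_empty_or_nonempty {p | p ∉ S' ∧ (S' ⊔ F ∙ p ≤ T ∧
          ∀ u ∈ S' ⊔ F ∙ p, ∀ v ∈ S' ⊔ F ∙ p, B u v = 0)} with h | ⟨p, hp⟩
      · rw [h]; simp
      refine (Set.ncard_le_ncard hsub).trans ?_
      have hp' := hsub hp
      have k6 := Submodule.finrank_sup_span_singleton hp.1
      obtain ⟨-, k7⟩ := iso48_step hF B hB T hT hnd (S' ⊔ F ∙ p) hp.2.1 (by omega)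
      have k8 := line_count (T ⊓ B.orthogonal S') p hp'.1
        {x | x ∈ T ⊓ B.orthogonal S' ∧ B x p ≠ 0 ∧ B x x = 0} (fun x hx => hx.1) 1 (by
          intro y
          rw [Set.ncard_le_one_iff]
          rintro t t' ⟨-, a1, a2⟩ ⟨-, -, a3⟩
          simp only [map_add, map_smul, LinearMap.add_apply, LinearMap.smul_apply, smul_eq_mul,
            hB.eq p y, hp'.2, mul_zero, add_zero] at a1 a2 a3
          have a4 : (2 : F) * B y p * (t - t') = 0 := by linear_combination a2 - a3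
          exact sub_eq_zero.1 ((mul_eq_zero.1 a4).resolve_left
            (mul_ne_zero (Ring.two_ne_zero hF) a1)))
      have k9 : {p | p ∈ T ⊓ B.orthogonal S' ∧ B p p = 0} ⊆
          {x | x ∈ T ⊓ B.orthogonal S' ∧ B x p ≠ 0 ∧ B x x = 0} ∪
          {x | x ∈ T ⊓ B.orthogonal (S' ⊔ F ∙ p) ∧ B x x = 0} := by
        rintro x ⟨hx1, hx2⟩
        by_cases hx : B x p = 0
        · refine Or.inr ⟨⟨hx1.1, fun n hn => ?_⟩, hx2⟩
          obtain ⟨s, hs, r, hr, rfl⟩ := Submodule.mem_sup.1 hn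
          obtain ⟨c, rfl⟩ := Submodule.mem_span_singleton.1 hr
          have := hx1.2 s hs
          simp only [map_add, map_smul, LinearMap.add_apply, LinearMap.smul_apply, smul_eq_mul,
            hB.eq p x, hx, mul_zero, add_zero]
          exact this
        · exact Or.inl ⟨hx1, hx, hx2⟩
      refine ((Set.ncard_le_ncard k9).trans (Set.ncard_union_le _ _)).trans ?_
      obtain ⟨j, hj⟩ : ∃ j, 6 - finrank F S' = j := ⟨_, rfl⟩
      rw [k4, show 8 - finrank F S' = j + 1 + 1 by omega, mul_one, pow_succ] at k8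
      rw [k6, show 7 - (finrank F S' + 1) = j by omega] at k7
      have k10 := Nat.le_of_mul_le_mul_right k8 Fintype.card_pos
      rw [hj, mul_add, ← pow_succ]
      omega) 4 ⊥ (by simp)
  simp only [finrank_bot, zero_add, Finset.prod_range_succ, Finset.prod_range_zero] at key
  norm_num at key
  have h0 : {M : Submodule F V | M ≤ T ∧ finrank F M = 4 ∧ ∀ u ∈ M, ∀ v ∈ M, B u v = 0} ⊆
      {M : Submodule F V | finrank F M = 4 ∧
        ∀ S' ≤ M, S' ≤ T ∧ ∀ u ∈ S', ∀ v ∈ S', B u v = 0} := by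
    rintro M ⟨a1, a2, a3⟩
    exact ⟨a2, fun S' h => ⟨h.trans a1, fun u hu v hv => a3 u (h hu) v (h hv)⟩⟩
  have h1 := (Nat.cast_le (α := ℝ)).2
    ((Nat.mul_le_mul_right _ (Set.ncard_le_ncard h0)).trans key)
  have h2 := cast_diff4 (F := F)
  norm_num only at h2
  rw [Nat.cast_mul, Nat.cast_pow, h2] at h1
  push_cast at h1
  have hq : (0 : ℝ) < (Fintype.card F : ℝ) ^ 12 := by
    have := Fintype.card_pos (α := F); positivity
  refine le_of_mul_le_mul_right ?_ hq
  calc _ = _ := by ring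
    _ ≤ _ := h1
    _ = _ := by ring

end Vale.Agent.P050
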