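import Vale.Agent.P050.Tables

/-! Kernel verification of a part of the transfer inequalities. -/

namespace Vale.Agent.P050

theorem chk_0_0 : chkAJ 0 0 = true := by decide +kernel

theorem chk_0_1 : chkAJ 0 1 = true := by decide +kernel

end Vale.Agent.P050
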