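import Vale.Agent.P050.Tables

/-! Kernel verification of a part of the transfer inequalities. -/

namespace Vale.Agent.P050

theorem chk_0_5 : chkAJ 0 5 = true := by decide +kernel

theorem chk_0_6 : chkAJ 0 6 = true := by decide +kernel

theorem chk_0_7 : chkAJ 0 7 = true := by decide +kernel

theorem chk_0_8 : chkAJ 0 8 = true := by decide +kernel

theorem chk_1_1 : chkAJ 1 1 = true := by decide +kernel

theorem chk_1_5 : chkAJ 1 5 = true := by decide +kernel

theorem chk_1_6 : chkAJ 1 6 = true := by decide +kernel

theorem chk_1_7 : chkAJ 1 7 = true := by decide +kernel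

theorem chk_1_8 : chkAJ 1 8 = true := by decide +kernel

end Vale.Agent.P050
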