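import Vale.Agent.P050.Tables

/-! Kernel verification of a part of the transfer inequalities. -/

namespace Vale.Agent.P050

theorem chk_1_3 : chkAJ 1 3 = true := by decide +kernel

theorem chk_2_3 : chkAJ 2 3 = true := by decide +kernel

end Vale.Agent.P050
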