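import Vale.Agent.P050.Tables

/-! Kernel verification of a part of the transfer inequalities. -/

namespace Vale.Agent.P050

theorem chk_3_3 : chkAJ 3 3 = true := by decide +kernel

theorem chk_3_4 : chkAJ 3 4 = true := by decide +kernel

theorem chk_3_5 : chkAJ 3 5 = true := by decide +kernel

theorem chk_3_6 : chkAJ 3 6 = true := by decide +kernel

theorem chk_3_7 : chkAJ 3 7 = true := by decide +kernel

theorem chk_3_8 : chkAJ 3 8 = true := by decide +kernel

theorem chk_4_4 : chkAJ 4 4 = true := by decide +kernel

theorem chk_4_5 : chkAJ 4 5 = true := by decide +kernel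

theorem chk_4_6 : chkAJ 4 6 = true := by decide +kernel

theorem chk_4_7 : chkAJ 4 7 = true := by decide +kernel

theorem chk_4_8 : chkAJ 4 8 = true := by decide +kernel

theorem chk_5_5 : chkAJ 5 5 = true := by decide +kernel

theorem chk_5_6 : chkAJ 5 6 = true := by decide +kernel

theorem chk_5_7 : chkAJ 5 7 = true := by decide +kernel

theorem chk_5_8 : chkAJ 5 8 = true := by decide +kernel

theorem chk_6_6 : chkAJ 6 6 = true := by decide +kernel

theorem chk_6_7 : chkAJ 6 7 = true := by decide +kernel

theorem chk_6_8 : chkAJ 6 8 = true := by decide +kernel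

theorem chk_7_7 : chkAJ 7 7 = true := by decide +kernel

theorem chk_7_8 : chkAJ 7 8 = true := by decide +kernel

theorem chk_8_8 : chkAJ 8 8 = true := by decide +kernel

end Vale.Agent.P050
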