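import Vale.Agent.P050.Chk0
import Vale.Agent.P050.Chk1
import Vale.Agent.P050.Chk2
import Vale.Agent.P050.Chk3
import Vale.Agent.P050.Chk4
import Vale.Agent.P050.Chk5
import Vale.Agent.P050.Chk6

/-! Soundness of the transfer computation. -/

namespace Vale.Agent.P050

set_option linter.unusedSimpArgs false

theorem force_eq (n : Nat) (f : Nat → Bool) : force n f = f n := by
  cases n <;> rfl

theorem allR_sound {lo hi : Nat} {f : Nat → Bool} (h : allR lo hi f = true) {t : Nat}
    (h1 : lo ≤ t) (h2 : t ≤ hi) : f t = true := by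
  have key : ∀ n : Nat, (Nat.rec (motive := fun _ => Bool) true
      (fun t ih => force (Nat.add lo t) f && ih) n) = true → ∀ s < n, f (lo + s) = true := by
    intro n
    induction n with
    | zero => intro _ s hs; omega
    | succ n ih =>
      intro hn s hs
      simp only [Bool.and_eq_true, force_eq] at hn
      rcases Nat.lt_succ_iff_lt_or_eq.mp hs with hs | rfl
      · exact ih (by simpa only [force_eq] using hn.2) s hs
      · exact hn.1
  have := key _ h (t - lo) (by show t - lo < hi + 1 - lo; omega)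
  rwa [Nat.add_sub_cancel' h1] at this

theorem mn_eq (a b : Nat) : mn a b = min a b := by
  unfold mn
  rcases h : Nat.ble a b with _ | _
  · have : ¬ a ≤ b := by rw [← Nat.ble_eq, h]; simp
    simp only [cond_false]; omega
  · have : a ≤ b := by rw [← Nat.ble_eq, h]
    simp only [cond_true]; omega

theorem mx_eq (a b : Nat) : mx a b = max a b := by
  unfold mx
  rcases h : Nat.ble a b with _ | _
  · have : ¬ a ≤ b := by rw [← Nat.ble_eq, h]; simp
    simp only [cond_false]; omega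
  · have : a ≤ b := by rw [← Nat.ble_eq, h]
    simp only [cond_true]; omega

theorem ndiv (a b : Nat) : Nat.div a b = a / b := rfl

theorem le_mn {a b c : Nat} (h1 : a ≤ b) (h2 : a ≤ c) : a ≤ mn b c := by
  rw [mn_eq]; exact le_min h1 h2

theorem mx_le {a b c : Nat} (h1 : a ≤ c) (h2 : b ≤ c) : mx a b ≤ c := by
  rw [mx_eq]; exact max_le h1 h2

theorem cond_beq (a b x y : Nat) : cond (Nat.beq a b) x y = if a = b then x else y := by
  rcases h : Nat.beq a b with _ | _
  · have : ¬ a = b := by rw [← Nat.beq_eq, h]; simp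
    simp [this]
  · have : a = b := by rw [← Nat.beq_eq, h]
    simp [this]

theorem cond_ble (a b x y : Nat) : cond (Nat.ble a b) x y = if a ≤ b then x else y := by
  rcases h : Nat.ble a b with _ | _
  · have : ¬ a ≤ b := by rw [← Nat.ble_eq, h]; simp
    simp [this]
  · have : a ≤ b := by rw [← Nat.ble_eq, h]
    simp [this]

theorem fld_lt (r y z s : Nat) : fld r y z s < 1024 := Nat.mod_lt _ (by norm_num)

theorem hh_lt (j : Nat) : hh j < 1024 := Nat.mod_lt _ (by norm_num)

attribute [local irreducible] chkAJ in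
theorem chkAJ_all {a J : Nat} (h1 : a ≤ J) (h2 : J ≤ 8) : chkAJ a J = true := by
  have ha : a ≤ 8 := h1.trans h2
  interval_cases a <;> interval_cases J <;> first
    | exact chk_0_0 | exact chk_0_1 | exact chk_0_2 | exact chk_0_3 | exact chk_0_4
    | exact chk_0_5 | exact chk_0_6 | exact chk_0_7 | exact chk_0_8
    | exact chk_1_1 | exact chk_1_2 | exact chk_1_3 | exact chk_1_4
    | exact chk_1_5 | exact chk_1_6 | exact chk_1_7 | exact chk_1_8
    | exact chk_2_2 | exact chk_2_3 | exact chk_2_4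
    | exact chk_2_5 | exact chk_2_6 | exact chk_2_7 | exact chk_2_8
    | exact chk_3_3 | exact chk_3_4
    | exact chk_3_5 | exact chk_3_6 | exact chk_3_7 | exact chk_3_8
    | exact chk_4_4 | exact chk_4_5 | exact chk_4_6 | exact chk_4_7 | exact chk_4_8
    | exact chk_5_5 | exact chk_5_6 | exact chk_5_7 | exact chk_5_8
    | exact chk_6_6 | exact chk_6_7 | exact chk_6_8
    | exact chk_7_7 | exact chk_7_8 | exact chk_8_8

theorem chkType_of_tvalid {a J12 J13 J23 : Nat} (ht : tvalid a J12 J13 J23) :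
    chkType a J12 J13 J23 = true := by
  obtain ⟨h1, h2, h3, h4⟩ := ht
  have h := chkAJ_all h1 (by omega : J12 ≤ 8)
  have h' := allR_sound (allR_sound h h2 (by omega : J13 ≤ 8)) h3 (by omega : J23 ≤ 8)
  have htv : tv a J12 J13 J23 = true := by
    simp only [tv, Bool.and_eq_true, Nat.ble_eq, Nat.add_eq, Nat.mul_eq]
    exact ⟨⟨⟨h1, h2⟩, h3⟩, h4⟩
  simpa [htv] using h'

theorem tb_zero_eq {a J12 J13 J23 : Nat} (ht : tvalid a J12 J13 J23) :
    tb 0 a J12 J13 J23 =
      10 * (tb 0 a J12 J13 J23 / 10) + (if J12 + J13 + J23 = 0 then 0 else 1) := by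
  have h := chkType_of_tvalid ht
  simp only [chkType, force_eq, Bool.and_eq_true, Nat.beq_eq, cond_beq] at h
  exact h.1

theorem dp_sound {a J12 J13 J23 : Nat} (ht : tvalid a J12 J13 J23) {π : Par}
    (hp : pvalid a J12 J13 J23 π) :
    (∀ s, s < 4 → 10 * expoPos a J12 J13 J23 π + (tb 0 π.i13 π.j1 π.j3 J13 +
        tb 0 π.i23 π.j2 π.j3 J23) + tb s π.i12 π.j1 π.j2 J12 ≤
      tb (s + 1) a J12 J13 J23 + (360 + 10 * expoNeg π)) ∧
    (J23 = 8 → 10 * expoPos a J12 J13 J23 π + (tb 0 π.i12 π.j1 π.j2 J12 +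
        tb 4 π.i12 π.j1 π.j2 J12) ≤ hh a + (360 + 10 * expoNeg π)) ∧
    (a = 8 → 10 * expoPos a J12 J13 J23 π + hh π.j1 ≤ 360 + 10 * expoNeg π) ∧
    (∀ m, m = (if π.j1 = 4 then 1 else 0) + (if π.j2 = 4 then 1 else 0) +
        (if π.j3 = 4 then 1 else 0) → 2 ≤ m →
      10 * expoPos a J12 J13 J23 π + 100 * m ≤
        10 * (tb 0 a J12 J13 J23 / 10) + (360 + 10 * expoNeg π)) := by
  have h := chkType_of_tvalid ht
  obtain ⟨i, i12, i13, i23, y0, y, j1, j2, j3⟩ := π
  simp only [pvalid, tvalid] at hp ht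
  obtain ⟨p1, p2, p3, p4, p5, p6, p7, p8, p9, p10, p11, p12, p13, p14, p15, p16, p17,
    ⟨q1, q2, q3, q4⟩, ⟨q5, q6, q7, q8⟩, ⟨q9, q10, q11, q12⟩⟩ := hp
  simp only [chkType, force_eq, Bool.and_eq_true, Nat.add_eq, Nat.sub_eq, Nat.mul_eq, ndiv, Nat.succ_eq_add_one] at h
  replace h := h.2
  have h1 := allR_sound (allR_sound (allR_sound (allR_sound h (Nat.zero_le i) p1) p2 p3) p4 p5)
    p6 p7
  simp only [levI, force_eq, Nat.add_eq, Nat.sub_eq, Nat.mul_eq, ndiv, Nat.succ_eq_add_one] at h1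
  have m1 : y ≤ (8 + 2 * i12 + i13 + i23 - J12) / 2 := by clear * - p12 p14 q4; omega
  have m2 : y ≤ (8 + 2 * i13 + i12 + i23 - J13) / 2 := by clear * - p12 p16 q8; omega
  have m3 : y ≤ (8 + 2 * i23 + i12 + i13 - J23) / 2 := by clear * - p14 p16 q12; omega
  have hym := le_mn (le_mn p11 m1) (le_mn m2 m3)
  have h1' := allR_sound h1 (t := y0) (by clear * - p8; omega)
    (le_mn (p10.trans hym) (by clear * - p9; omega))
  have h2 := allR_sound h1' p10 hym
  simp only [levY, force_eq, Nat.add_eq, Nat.sub_eq, Nat.mul_eq, ndiv, Nat.succ_eq_add_one] at h2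
  have h3 := allR_sound h2 (t := j1)
    (mx_le (by clear * - p12; omega) (mx_le q1 q5))
    (le_mn (by clear * - q2 q3 q4; omega) (by clear * - p13; omega))
  simp only [lev1, force_eq, Nat.add_eq, Nat.sub_eq, Nat.mul_eq, ndiv, Nat.succ_eq_add_one] at h3
  have h4 := allR_sound h3 (t := j2)
    (mx_le (by clear * - p14; omega) (mx_le q2 q9))
    (le_mn (by clear * - p15; omega) (by clear * - q4; omega))
  simp only [lev2, loop3, force_eq, Nat.add_eq, Nat.sub_eq, Nat.mul_eq, ndiv, Nat.succ_eq_add_one] at h4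
  have h5 := allR_sound h4 (t := j3)
    (mx_le (by clear * - p16; omega) (mx_le q6 q10))
    (le_mn (by clear * - p17; omega)
      (le_mn (by clear * - q8; omega)
        (by clear * - q12; omega)))
  simp only [lev3, leafP, force_eq, Bool.and_eq_true, Nat.ble_eq, Nat.add_eq, Nat.sub_eq, Nat.mul_eq, ndiv, Nat.succ_eq_add_one] at h5
  have e1 : 8 + y - (j1 + j2) - j3 = 8 + y - (j1 + j2 + j3) := by clear * - p17; omega
  have e2 : 8 + y - (j1 + j2) + 1 - j3 = 9 + y - (j1 + j2 + j3) := by clear * - p17; omega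
  rw [e1, e2] at h5
  clear * - h5
  change 10 * expoPos a J12 J13 J23 ⟨i, i12, i13, i23, y0, y, j1, j2, j3⟩ + 2048 ≤ _ ∧
    10 * expoPos a J12 J13 J23 ⟨i, i12, i13, i23, y0, y, j1, j2, j3⟩ + _ + 1024 ≤ _ at h5
  have hN : 360 + 10 * ((y - y0) * (y - y0 + 1) / 2) =
      360 + 10 * expoNeg ⟨i, i12, i13, i23, y0, y, j1, j2, j3⟩ := rfl
  rw [hN] at h5
  generalize 10 * expoPos a J12 J13 J23 ⟨i, i12, i13, i23, y0, y, j1, j2, j3⟩ = P at h5 ⊢
  generalize 360 + 10 * expoNeg ⟨i, i12, i13, i23, y0, y, j1, j2, j3⟩ = N at h5 ⊢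
  obtain ⟨hA, hB⟩ := h5
  simp only [bndQ, bndL, bndC, cnt4, mn_eq, cond_beq, cond_ble, Nat.add_eq, Nat.sub_eq,
    Nat.mul_eq, Nat.succ_eq_add_one] at hA hB
  have f0 := fld_lt (row i12 j1) j2 J12 0
  have f1 := fld_lt (row i12 j1) j2 J12 1
  have f2 := fld_lt (row i12 j1) j2 J12 2
  have f3 := fld_lt (row i12 j1) j2 J12 3
  have f4 := fld_lt (row i12 j1) j2 J12 4
  have f5 := hh_lt j1
  simp only [tb]
  refine ⟨?_, ?_, ?_, ?_⟩
  · intro s hs
    interval_cases s <;> simp only [Nat.reduceAdd, Nat.zero_add] <;> omega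
  · intro h8
    split_ifs at hA <;> omega
  · intro h8
    split_ifs at hA <;> omega
  · intro m hm h2m
    split_ifs at hA hm <;> omega

end Vale.Agent.P050
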