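import Mathlib

/-! Definitions used in the counterexample to Sidorenko's conjecture. -/

namespace Vale.Agent.P050

open scoped BigOperators
open Finset

/-- Index set of size eight. -/
abbrev Ix := Fin 4 ⊕ Fin 4

/-- Symmetric eight by eight matrices, given by their entries on unordered pairs. -/
abbrev X (F : Type) := Sym2 Ix → F

/-- Symmetric matrices with an orientation bit. -/
abbrev Xh (F : Type) := X F × Bool

section Geometry

variable {F : Type} [Field F]

/-- The symmetric matrix attached to `x`. -/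
def mat (x : X F) : Matrix Ix Ix F := Matrix.of fun i j => x s(i, j)

/-- Kernel of the difference of two symmetric matrices. -/
def K (x y : X F) : Submodule F (Ix → F) := LinearMap.ker (Matrix.toLin' (mat (x - y)))

/-- Corank of the difference. -/
noncomputable def dK (x y : X F) : ℕ := Module.finrank F (K x y)

/-- Dimension of the common kernel of the differences of three matrices. -/
noncomputable def dK3 (x y z : X F) : ℕ := Module.finrank F ↥(K x y ⊓ K x z)

/-- Corank four. -/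
def inO (u : X F) : Prop := Module.finrank F (LinearMap.ker (Matrix.toLin' (mat u))) = 4

variable [Fintype F] [DecidableEq F]

open Classical in
/-- Number of symmetric matrices of corank four. -/
noncomputable def cO (F : Type) [Field F] [Fintype F] [DecidableEq F] : ℕ :=
  (univ.filter fun u : X F => inO u).card

open Classical in
/-- Normalised indicator of corank four. -/
noncomputable def Rk (u : X F) : ℝ :=
  if inO u then (Fintype.card (X F) : ℝ) / (cO F : ℝ) else 0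

open Classical in
/-- Discriminant sign of a matrix of rank four. -/
noncomputable def sgn (u : X F) : ℝ :=
  if ∃ (V : Matrix Ix (Fin 4) F) (D : Matrix (Fin 4) (Fin 4) F),
      D.IsSymm ∧ quadraticChar F D.det = 1 ∧ mat u = V * D * V.transpose then 1 else -1

/-- Sign of an orientation bit. -/
def osg (b : Bool) : ℝ := if b then 1 else -1

/-- Quadratic character of the determinant. -/
noncomputable def sig (u : X F) : ℝ := ((quadraticChar F (mat u).det : ℤ) : ℝ)

/-- The three basic kernels `1`, `R`, `U`. -/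
noncomputable def kern (g : Fin 3) (ξ ζ : Xh F) : ℝ :=
  ![1, Rk (ξ.1 - ζ.1), osg ξ.2 * osg ζ.2 * sgn (ξ.1 - ζ.1) * Rk (ξ.1 - ζ.1)] g

/-- The edge sign. -/
noncomputable def tau (ξ ζ : Xh F) : ℝ := osg ξ.2 * osg ζ.2 * sig (ξ.1 - ζ.1)

/-- Weighted codegree of three points. -/
noncomputable def dF (g : Fin 3 → Fin 3) (ξ : Fin 3 → Xh F) : ℝ :=
  𝔼 w : Xh F, ∏ s, kern (g s) (ξ s) w

end Geometry

/-- The ten faces of the helix triangulation on seven vertices. -/
def face : Fin 10 → Fin 3 → Fin 7 :=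
  ![![0, 1, 2], ![0, 1, 3], ![0, 2, 3], ![1, 2, 4], ![1, 3, 4], ![2, 3, 5], ![2, 4, 5],
    ![3, 4, 6], ![3, 5, 6], ![4, 5, 6]]

/-- The fifteen edges of the triangulation. -/
def ends : Fin 15 → Fin 7 × Fin 7 :=
  ![(0, 1), (0, 2), (0, 3), (1, 2), (1, 3), (1, 4), (2, 3), (2, 4), (2, 5), (3, 4), (3, 5),
    (3, 6), (4, 5), (4, 6), (5, 6)]

/-- The three edges of a face: slots `01`, `02`, `12`. -/
def fedge : Fin 10 → Fin 3 → Fin 15 :=
  ![![0, 1, 3], ![0, 2, 4], ![1, 2, 6], ![3, 5, 7], ![4, 5, 9], ![6, 8, 10], ![7, 8, 12],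
    ![9, 11, 13], ![10, 11, 14], ![12, 13, 14]]

/-- First slot of a face edge. -/
def e1 : Fin 3 → Fin 3 := ![0, 0, 1]
/-- Second slot of a face edge. -/
def e2 : Fin 3 → Fin 3 := ![1, 2, 2]
/-- First face edge at a slot. -/
def c1 : Fin 3 → Fin 3 := ![0, 0, 1]
/-- Second face edge at a slot. -/
def c2 : Fin 3 → Fin 3 := ![1, 2, 2]

/-- Spin matrices of the three basic kernels. -/
def mm (g : Fin 3) (s t : Bool) : ℝ :=
  ![if s || t then 0 else 1, if s = t then 1 else 0, if s = t then 0 else 1] g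

/-- Limit of the codegree on generic triples, as a polynomial in the three edge signs. -/
noncomputable def DD (g : Fin 3 → Fin 3) (τ : Fin 3 → ℝ) : ℝ :=
  ∑ I : Fin 3 → Bool, (∏ s, mm (g s) (I (c1 s)) (I (c2 s))) * ∏ e, (if I e then τ e else 1)

/-- Limit of the labelled homomorphism density. -/
noncomputable def LL (g : Fin 10 → Fin 3 → Fin 3) : ℝ :=
  ∑ I : Fin 15 → Bool, ∏ f, ∏ s, mm (g f s) (I (fedge f (c1 s))) (I (fedge f (c2 s)))

/-- Labelled homomorphism density of the incidence graph. -/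
noncomputable def tH (F : Type) [Field F] [Fintype F] [DecidableEq F]
    (g : Fin 10 → Fin 3 → Fin 3) : ℝ :=
  𝔼 x : Fin 7 → Xh F, 𝔼 w : Fin 10 → Xh F, ∏ f, ∏ s, kern (g f s) (x (face f s)) (w f)

/-- A triple is generic when the three differences are invertible. -/
def gen3 {F : Type} [Field F] (x y z : X F) : Prop := dK x y = 0 ∧ dK x z = 0 ∧ dK y z = 0

/-- All fifteen edge differences are invertible. -/
def allGen {F : Type} [Field F] (x : Fin 7 → X F) : Prop :=
  ∀ e, dK (x (ends e).1) (x (ends e).2) = 0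

instance factPrime (p : Nat.Primes) : Fact (p : ℕ).Prime := ⟨p.2⟩

/-- The filter of large primes. -/
def bigP : Filter Nat.Primes := Filter.comap (fun p : Nat.Primes => (p : ℕ)) Filter.atTop

/-! Parameters of the position of a point with respect to a triple. -/

/-- Admissible dimension data of a triple. -/
def tvalid (a x y z : ℕ) : Prop := a ≤ x ∧ a ≤ y ∧ a ≤ z ∧ x + y + z ≤ 8 + 2 * a

/-- Position parameters. -/
structure Par where
  i : ℕ
  i12 : ℕ
  i13 : ℕ
  i23 : ℕ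
  y0 : ℕ
  y : ℕ
  j1 : ℕ
  j2 : ℕ
  j3 : ℕ
  deriving DecidableEq

/-- Admissible position parameters. -/
def pvalid (a J12 J13 J23 : ℕ) (π : Par) : Prop :=
  π.i ≤ a ∧ π.i ≤ π.i12 ∧ π.i12 ≤ J12 ∧ π.i ≤ π.i13 ∧ π.i13 ≤ J13 ∧ π.i ≤ π.i23 ∧ π.i23 ≤ J23 ∧
  π.i12 + π.i13 + π.i23 ≤ π.y0 + π.i ∧ π.y0 + a ≤ J12 + J13 + J23 ∧ π.y0 ≤ π.y ∧ π.y ≤ 8 + a ∧
  π.y ≤ π.j1 + π.i23 ∧ π.j1 + π.y ≤ 8 + π.i12 + π.i13 ∧
  π.y ≤ π.j2 + π.i13 ∧ π.j1 + π.j2 ≤ 8 + π.i12 ∧
  π.y ≤ π.j3 + π.i12 ∧ π.j1 + π.j2 + π.j3 ≤ 8 + π.y ∧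
  tvalid π.i12 π.j1 π.j2 J12 ∧ tvalid π.i13 π.j1 π.j3 J13 ∧ tvalid π.i23 π.j2 π.j3 J23

/-- Positive part of the counting exponent. -/
def expoPos (a J12 J13 J23 : ℕ) (π : Par) : ℕ :=
  π.i * (a - π.i) + (π.i12 - π.i) * (J12 - π.i12) + (π.i13 - π.i) * (J13 - π.i13) +
  (π.i23 - π.i) * (J23 - π.i23) +
  (π.y0 + π.i - (π.i12 + π.i13 + π.i23)) * (J12 + J13 + J23 - (π.y0 + a)) +
  (π.y - π.y0) * (8 + a - π.y) +
  (π.j1 + π.i23 - π.y) * (8 + π.i12 + π.i13 - (π.j1 + π.y)) +
  (π.j2 + π.i13 - π.y) * (8 + π.i12 - (π.j1 + π.j2)) +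
  (π.j3 + π.i12 - π.y) * (8 + π.y - (π.j1 + π.j2 + π.j3)) +
  (8 + π.y - (π.j1 + π.j2 + π.j3)) * (9 + π.y - (π.j1 + π.j2 + π.j3)) / 2

/-- Negative part of the counting exponent. -/
def expoNeg (π : Par) : ℕ := (π.y - π.y0) * (π.y - π.y0 + 1) / 2

end Vale.Agent.P050
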