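import Vale.Agent.P050.Generic

/-! Pointwise facts on the codegree of a generic triple. -/

namespace Vale.Agent.P050

open scoped BigOperators
open Finset Module

theorem fa_expect_pi {ι A : Type} [Fintype ι] [DecidableEq ι] [Fintype A] (φ : ι → A → ℝ) :
    𝔼 x : ι → A, ∏ i, φ i (x i) = ∏ i, 𝔼 a, φ i a := by
  simp only [Fintype.expect_eq_sum_div_card]
  rw [prod_div_distrib, prod_univ_sum, Fintype.piFinset_univ, prod_const, card_univ,
    Fintype.card_fun, Nat.cast_pow]

theorem fa_expect_inj {ι κ A : Type} [Fintype ι] [DecidableEq ι] [Fintype κ] [Fintype A]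
    [Nonempty A] (e : κ → ι) (he : Function.Injective e) (φ : κ → A → ℝ)
    (hφ : ∀ s, 𝔼 a, φ s a = 1) : 𝔼 x : ι → A, ∏ s, φ s (x (e s)) = 1 := by
  have h1 : ∀ x : ι → A, ∏ s, φ s (x (e s)) =
      ∏ v, ∏ s ∈ univ.filter (fun s => e s = v), φ s (x v) := by
    intro x
    rw [← prod_fiberwise univ e]
    refine prod_congr rfl fun v _ => prod_congr rfl fun s hs => ?_
    rw [(mem_filter.1 hs).2]
  simp only [h1]
  rw [fa_expect_pi fun v a => ∏ s ∈ univ.filter (fun s => e s = v), φ s a]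
  refine prod_eq_one fun v _ => ?_
  by_cases h : ∃ s, e s = v
  · obtain ⟨s, rfl⟩ := h
    have : univ.filter (fun t => e t = e s) = {s} := by
      ext t
      simp [he.eq_iff]
    simp only [this, prod_singleton]
    exact hφ s
  · have : univ.filter (fun t => e t = v) = ∅ :=
      filter_eq_empty_iff.2 fun t _ ht => h ⟨t, ht⟩
    simp only [this, prod_empty]
    exact Fintype.expect_const _

theorem fa_expect_fst {A B : Type} [Fintype A] [Fintype B] [Nonempty B] (φ : A → ℝ) :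
    𝔼 w : A × B, φ w.1 = 𝔼 a, φ a := by
  rw [← univ_product_univ, expect_product]
  exact expect_congr rfl fun a _ => Fintype.expect_const (ι := B) (φ a)

theorem fa_expect_fst_pi {ι A B : Type} [Fintype ι] [DecidableEq ι] [Fintype A] [Fintype B]
    [Nonempty B] (φ : (ι → A) → ℝ) :
    𝔼 x : ι → A × B, φ (fun v => (x v).1) = 𝔼 y, φ y := by
  rw [← fa_expect_fst (B := ι → B) φ]
  exact Fintype.expect_equiv (Equiv.arrowProdEquivProdArrow ι (fun _ => A) fun _ => B) _ _
    fun x => rfl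

theorem osg_mul_self (b : Bool) : osg b * osg b = 1 := by cases b <;> simp [osg]

theorem osg_not (b : Bool) : osg (!b) = -osg b := by cases b <;> simp [osg]

theorem fin3_cases : ∀ a : Fin 3, a = 0 ∨ a = 1 ∨ a = 2 := by decide

/-- The limit polynomial written with three explicit kernel labels. -/
noncomputable def D3 (a b c : Fin 3) (t0 t1 t2 : ℝ) : ℝ :=
  ∑ i0 : Bool, ∑ i1 : Bool, ∑ i2 : Bool, mm a i0 i1 * mm b i0 i2 * mm c i1 i2 *
    ((if i0 then t0 else 1) * (if i1 then t1 else 1) * (if i2 then t2 else 1))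

theorem DD_eq (g : Fin 3 → Fin 3) (τ : Fin 3 → ℝ) :
    DD g τ = D3 (g 0) (g 1) (g 2) (τ 0) (τ 1) (τ 2) := by
  let e : (Fin 3 → Bool) ≃ Bool × Bool × Bool :=
    { toFun := fun I => (I 0, I 1, I 2)
      invFun := fun p => ![p.1, p.2.1, p.2.2]
      left_inv := fun I => by
        funext k
        rcases fin3_cases k with rfl | rfl | rfl <;> rfl
      right_inv := fun p => rfl }
  unfold DD D3
  simp only [← Fintype.sum_prod_type']
  refine Fintype.sum_equiv e _ _ fun I => ?_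
  rw [Fin.prod_univ_three, Fin.prod_univ_three]
  rfl

theorem mm_abs_le (a : Fin 3) (s t : Bool) : |mm a s t| ≤ 1 := by
  rcases fin3_cases a with rfl | rfl | rfl <;> cases s <;> cases t <;> simp [mm]

theorem DD_abs_le (g : Fin 3 → Fin 3) {τ : Fin 3 → ℝ} (h : ∀ e, |τ e| ≤ 1) : |DD g τ| ≤ 8 := by
  refine (abs_sum_le_sum_abs _ _).trans ((sum_le_card_nsmul _ _ 1 fun I _ => ?_).trans (by simp))
  rw [abs_mul, abs_prod, abs_prod]
  refine mul_le_one₀ (prod_le_one (fun _ _ => abs_nonneg _) fun s _ => mm_abs_le _ _ _)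
    (prod_nonneg fun _ _ => abs_nonneg _) (prod_le_one (fun _ _ => abs_nonneg _) fun e _ => ?_)
  split_ifs
  · exact h e
  · simp

variable {F : Type} [Field F] [Fintype F] [DecidableEq F]

theorem kern_zero (ξ ζ : Xh F) : kern 0 ξ ζ = 1 := rfl
theorem kern_one (ξ ζ : Xh F) : kern 1 ξ ζ = Rk (ξ.1 - ζ.1) := rfl
theorem kern_two (ξ ζ : Xh F) :
    kern 2 ξ ζ = osg ξ.2 * osg ζ.2 * sgn (ξ.1 - ζ.1) * Rk (ξ.1 - ζ.1) := rfl

theorem Rk_nonneg (u : X F) : 0 ≤ Rk u := by
  unfold Rk
  split_ifs <;> positivity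

theorem Rk_sub (x w : X F) :
    Rk (x - w) = if dK x w = 4 then (Fintype.card (X F) : ℝ) / (cO F : ℝ) else 0 := by
  unfold Rk
  by_cases h : dK x w = 4
  · rw [if_pos h, if_pos ((inO_sub_iff x w).2 h)]
  · rw [if_neg h, if_neg fun h' => h ((inO_sub_iff x w).1 h')]

theorem fa_tau_sq (ξ ζ : Xh F) : tau ξ ζ ^ 2 = if dK ξ.1 ζ.1 = 0 then 1 else 0 := by
  have e : tau ξ ζ ^ 2 = (osg ξ.2 * osg ξ.2) * (osg ζ.2 * osg ζ.2) * sig (ξ.1 - ζ.1) ^ 2 := by
    unfold tau
    ring
  rw [e, osg_mul_self, osg_mul_self]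
  split_ifs with h
  · rw [sig_sq_of_gen h]
    ring
  · rw [sig_of_not_gen h]
    ring

theorem tau_abs_le (ξ ζ : Xh F) : |tau ξ ζ| ≤ 1 := by
  rw [← sq_le_one_iff_abs_le_one, fa_tau_sq]
  split_ifs <;> norm_num

theorem tau_mul_self {ξ ζ : Xh F} (h : dK ξ.1 ζ.1 = 0) : tau ξ ζ * tau ξ ζ = 1 := by
  rw [← sq, fa_tau_sq, if_pos h]

theorem sgn_mul_self (u : X F) : sgn u * sgn u = 1 := by
  unfold sgn
  split_ifs <;> norm_num

theorem sgn_sub_mul (hF : ringChar F ≠ 2) {x y w : X F} (h : dK x y = 0) (hx : inO (x - w))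
    (hy : inO (y - w)) : sgn (x - w) * sgn (y - w) = sig (x - y) := by
  have e : x - w - (y - w) = x - y := by abel
  have h' : dK (x - w) (y - w) = 0 := by
    unfold dK K at h ⊢
    rwa [e]
  rw [sgn_mul_sgn hF hx hy h', e]

theorem kern_two_mul (hF : ringChar F ≠ 2) {ξ ζ : Xh F} (h : dK ξ.1 ζ.1 = 0) (w : Xh F) :
    kern 2 ξ w * kern 2 ζ w = tau ξ ζ * (kern 1 ξ w * kern 1 ζ w) := by
  rw [kern_two, kern_two, kern_one, kern_one]
  by_cases hx : inO (ξ.1 - w.1)
  · by_cases hy : inO (ζ.1 - w.1)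
    · unfold tau
      rw [← sgn_sub_mul hF h hx hy]
      have := osg_mul_self w.2
      linear_combination (osg ξ.2 * osg ζ.2 * sgn (ξ.1 - w.1) * sgn (ζ.1 - w.1) *
        Rk (ξ.1 - w.1) * Rk (ζ.1 - w.1)) * this
    · have : Rk (ζ.1 - w.1) = 0 := by unfold Rk; rw [if_neg hy]
      rw [this]
      ring
  · have : Rk (ξ.1 - w.1) = 0 := by unfold Rk; rw [if_neg hx]
    rw [this]
    ring

theorem expect_Rk (hc : cO F ≠ 0) : 𝔼 u : X F, Rk u = 1 := by
  classical
  have hc' : (cO F : ℝ) ≠ 0 := Nat.cast_ne_zero.2 hc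
  have hN : (Fintype.card (X F) : ℝ) ≠ 0 := Nat.cast_ne_zero.2 Fintype.card_ne_zero
  rw [Fintype.expect_eq_sum_div_card]
  unfold Rk
  rw [← sum_filter, sum_const, nsmul_eq_mul]
  change (cO F : ℝ) * _ / _ = 1
  field_simp

theorem expect_kern_right (hc : cO F ≠ 0) (ξ : Xh F) : 𝔼 w : Xh F, kern 1 ξ w = 1 := by
  simp only [kern_one]
  rw [fa_expect_fst (B := Bool) fun w : X F => Rk (ξ.1 - w), ← expect_Rk hc]
  exact Fintype.expect_equiv (Equiv.subLeft ξ.1) _ _ fun w => rfl

theorem expect_kern_left (hc : cO F ≠ 0) (w : Xh F) : 𝔼 ξ : Xh F, kern 1 ξ w = 1 := by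
  simp only [kern_one]
  rw [fa_expect_fst (B := Bool) fun x : X F => Rk (x - w.1), ← expect_Rk hc]
  exact Fintype.expect_equiv (Equiv.subRight w.1) _ _ fun w => rfl

/-- The codegree written with three explicit kernel labels. -/
noncomputable def d3 (a b c : Fin 3) (x y z : Xh F) : ℝ :=
  𝔼 w : Xh F, kern a x w * kern b y w * kern c z w

theorem dF_eq (g : Fin 3 → Fin 3) (ξ : Fin 3 → Xh F) :
    dF g ξ = d3 (g 0) (g 1) (g 2) (ξ 0) (ξ 1) (ξ 2) := by
  unfold dF d3
  simp only [Fin.prod_univ_three]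

/-- Behaviour of a kernel when the orientation bit is flipped. -/
def sg (a : Fin 3) : ℝ := ![1, 1, -1] a

theorem kern_flip (a : Fin 3) (ξ w : Xh F) : kern a ξ (w.1, !w.2) = sg a * kern a ξ w := by
  rcases fin3_cases a with rfl | rfl | rfl
  · simp [kern_zero, sg]
  · simp [kern_one, sg]
  · simp [kern_two, sg, osg_not]

theorem d3_odd {a b c : Fin 3} (h : sg a * sg b * sg c = -1) (x y z : Xh F) :
    d3 a b c x y z = 0 := by
  have h1 : d3 a b c x y z = 𝔼 w : Xh F, -(kern a x w * kern b y w * kern c z w) := by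
    symm
    refine Fintype.expect_equiv (Equiv.prodCongr (Equiv.refl _) Equiv.boolNot) _ _
      fun w => ?_
    change _ = kern a x (w.1, !w.2) * kern b y (w.1, !w.2) * kern c z (w.1, !w.2)
    rw [kern_flip, kern_flip, kern_flip]
    linear_combination (-(kern a x w * kern b y w * kern c z w)) * h
  rw [expect_neg_distrib] at h1
  unfold d3 at h1 ⊢
  linarith

theorem d3_22 (hF : ringChar F ≠ 2) {x y : Xh F} (h : dK x.1 y.1 = 0) (c : Fin 3) (z : Xh F) :
    d3 2 2 c x y z = tau x y * d3 1 1 c x y z := by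
  unfold d3
  rw [mul_expect]
  exact expect_congr rfl fun w _ => by rw [kern_two_mul hF h]; ring

theorem d3_swap12 (a b c : Fin 3) (x y z : Xh F) : d3 a b c x y z = d3 a c b x z y :=
  expect_congr rfl fun w _ => by ring

theorem d3_rot (a b c : Fin 3) (x y z : Xh F) : d3 a b c x y z = d3 b c a y z x :=
  expect_congr rfl fun w _ => by ring

/-- Total error of a generic triple. -/
noncomputable def err3 (x y z : Xh F) : ℝ :=
  |d3 1 1 0 x y z - 1| + |d3 1 0 1 x y z - 1| + |d3 0 1 1 x y z - 1| +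
    |d3 1 1 1 x y z - (1 + tau x y * tau x z * tau y z)|

theorem d3_sub_le (hF : ringChar F ≠ 2) (hc : cO F ≠ 0) {x y z : Xh F} (h : gen3 x.1 y.1 z.1)
    (a b c : Fin 3) :
    |d3 a b c x y z - D3 a b c (tau x y) (tau x z) (tau y z)| ≤ err3 x y z := by
  obtain ⟨hxy, hxz, hyz⟩ := h
  have n1 := abs_nonneg (d3 1 1 0 x y z - 1)
  have n2 := abs_nonneg (d3 1 0 1 x y z - 1)
  have n3 := abs_nonneg (d3 0 1 1 x y z - 1)
  have n4 := abs_nonneg (d3 1 1 1 x y z - (1 + tau x y * tau x z * tau y z))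
  have b0 : 0 ≤ err3 x y z := by unfold err3; linarith
  have b1 : |d3 1 1 0 x y z - 1| ≤ err3 x y z := by unfold err3; linarith
  have b2 : |d3 1 0 1 x y z - 1| ≤ err3 x y z := by unfold err3; linarith
  have b3 : |d3 0 1 1 x y z - 1| ≤ err3 x y z := by unfold err3; linarith
  have b4 : |d3 1 1 1 x y z - (1 + tau x y * tau x z * tau y z)| ≤ err3 x y z := by
    unfold err3; linarith
  have t1 := tau_mul_self hxy
  have t2 := tau_mul_self hxz
  have t3 := tau_mul_self hyz
  have zero : ∀ {u v : ℝ}, u = v → |u - v| ≤ err3 x y z := fun h => by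
    rw [h, sub_self, abs_zero]; exact b0
  have scale : ∀ {u v u' v' : ℝ} (t : ℝ), |t| ≤ 1 → |u' - v'| ≤ err3 x y z → u = t * u' →
      v = t * v' → |u - v| ≤ err3 x y z := fun t ht h h1 h2 => by
    rw [h1, h2, ← mul_sub, abs_mul]
    exact (mul_le_of_le_one_left (abs_nonneg _) ht).trans h
  have odd : ∀ a b c : Fin 3, sg a * sg b * sg c = -1 →
      D3 a b c (tau x y) (tau x z) (tau y z) = 0 →
      |d3 a b c x y z - D3 a b c (tau x y) (tau x z) (tau y z)| ≤ err3 x y z :=
    fun a b c h1 h2 => zero (by rw [d3_odd h1, h2])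
  have p1 : ∀ c, d3 2 2 c x y z = tau x y * d3 1 1 c x y z := fun c => d3_22 hF hxy c z
  have p2 : ∀ b, d3 2 b 2 x y z = tau x z * d3 1 b 1 x y z := fun b => by
    rw [d3_swap12, d3_22 hF hxz, d3_swap12]
  have p3 : ∀ a, d3 a 2 2 x y z = tau y z * d3 a 1 1 x y z := fun a => by
    rw [d3_rot, d3_22 hF hyz, ← d3_rot]
  have q0 : d3 0 0 0 x y z = 1 := by
    simp only [d3, kern_zero, mul_one]
    exact Fintype.expect_const _
  have q1 : d3 1 0 0 x y z = 1 := by
    simp only [d3, kern_zero, mul_one]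
    exact expect_kern_right hc x
  have q2 : d3 0 1 0 x y z = 1 := by
    simp only [d3, kern_zero, mul_one, one_mul]
    exact expect_kern_right hc y
  have q3 : d3 0 0 1 x y z = 1 := by
    simp only [d3, kern_zero, one_mul]
    exact expect_kern_right hc z
  have a1 := tau_abs_le x y
  have a2 := tau_abs_le x z
  have a3 := tau_abs_le y z
  rcases fin3_cases a with rfl | rfl | rfl <;> rcases fin3_cases b with rfl | rfl | rfl <;>
    rcases fin3_cases c with rfl | rfl | rfl
  · exact zero (by rw [q0]; simp [D3, mm])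
  · exact zero (by rw [q3]; simp [D3, mm])
  · exact odd _ _ _ (by simp [sg]) (by simp [D3, mm])
  · exact zero (by rw [q2]; simp [D3, mm])
  · exact scale 1 (by simp) b3 (by simp) (by simp [D3, mm])
  · exact odd _ _ _ (by simp [sg]) (by simp [D3, mm])
  · exact odd _ _ _ (by simp [sg]) (by simp [D3, mm])
  · exact odd _ _ _ (by simp [sg]) (by simp [D3, mm])
  · exact scale _ a3 b3 (p3 _) (by simp [D3, mm])
  · exact zero (by rw [q1]; simp [D3, mm])
  · exact scale 1 (by simp) b2 (by simp) (by simp [D3, mm])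
  · exact odd _ _ _ (by simp [sg]) (by simp [D3, mm])
  · exact scale 1 (by simp) b1 (by simp) (by simp [D3, mm])
  · exact scale 1 (by simp) b4 (by simp) (by simp [D3, mm, add_comm])
  · exact odd _ _ _ (by simp [sg]) (by simp [D3, mm])
  · exact odd _ _ _ (by simp [sg]) (by simp [D3, mm])
  · exact odd _ _ _ (by simp [sg]) (by simp [D3, mm])
  · exact scale _ a3 b4 (p3 _) (by
      simp [D3, mm]
      linear_combination (-(tau x y * tau x z)) * t3)
  · exact odd _ _ _ (by simp [sg]) (by simp [D3, mm])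
  · exact odd _ _ _ (by simp [sg]) (by simp [D3, mm])
  · exact scale _ a2 b2 (p2 _) (by simp [D3, mm])
  · exact odd _ _ _ (by simp [sg]) (by simp [D3, mm])
  · exact odd _ _ _ (by simp [sg]) (by simp [D3, mm])
  · exact scale _ a2 b4 (p2 _) (by
      simp [D3, mm]
      linear_combination (-(tau x y * tau y z)) * t2)
  · exact scale _ a1 b1 (p1 _) (by simp [D3, mm])
  · exact scale _ a1 b4 (p1 _) (by
      simp [D3, mm]
      linear_combination (-(tau x z * tau y z)) * t1)
  · exact odd _ _ _ (by simp [sg]) (by simp [D3, mm])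

/-- Upper bound for the codegree of a generic pair. -/
noncomputable def k2 (q : ℝ) : ℝ := (q / (q - 1)) ^ 4 * (q / (q - 4)) ^ 2

/-- Half of the upper bound for the codegree of a generic triple. -/
noncomputable def k3 (q : ℝ) : ℝ := (q / (q - 1)) ^ 4 * ((q + 6) / (q - 4)) ^ 3

theorem cO_ne_zero (hq : 4 < (Fintype.card F : ℝ)) : cO F ≠ 0 := by
  have h := cO_ge (F := F)
  have h1 : 0 < (Fintype.card F : ℝ) ^ 25 * ((Fintype.card F : ℝ) - 4) :=
    mul_pos (by positivity) (by linarith)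
  intro h0
  rw [h0, Nat.cast_zero] at h
  linarith

theorem div_cO_le (hq : 4 < (Fintype.card F : ℝ)) :
    (Fintype.card (X F) : ℝ) / (cO F : ℝ) ≤
      (Fintype.card F : ℝ) ^ 11 / ((Fintype.card F : ℝ) - 4) := by
  have h := cO_ge (F := F)
  rw [card_X, Nat.cast_pow]
  generalize (Fintype.card F : ℝ) = q at *
  have h4 : 0 < q - 4 := by linarith
  have h0 : 0 < q := by linarith
  calc q ^ 36 / (cO F : ℝ) ≤ q ^ 36 / (q ^ 25 * (q - 4)) :=
        div_le_div_of_nonneg_left (by positivity) (by positivity) h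
    _ = q ^ 11 / (q - 4) := by field_simp

theorem fa_expect_ind {A : Type} [Fintype A] (P : A → Prop) [DecidablePred P] (a : ℝ) :
    𝔼 w : A, (if P w then a else 0) = (univ.filter P).card * a / Fintype.card A := by
  rw [Fintype.expect_eq_sum_div_card, ← sum_filter, sum_const, nsmul_eq_mul]

theorem pair_le (hq : 4 < (Fintype.card F : ℝ)) {x y : Xh F} (h : dK x.1 y.1 = 0) :
    𝔼 w : Xh F, kern 1 x w * kern 1 y w ≤ k2 (Fintype.card F) := by
  classical
  have e : ∀ w : Xh F, kern 1 x w * kern 1 y w = (fun w : X F => if dK x.1 w = 4 ∧ dK y.1 w = 4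
      then ((Fintype.card (X F) : ℝ) / (cO F : ℝ)) ^ 2 else 0) w.1 := by
    intro w
    simp only [kern_one, Rk_sub]
    by_cases h1 : dK x.1 w.1 = 4 <;> by_cases h2 : dK y.1 w.1 = 4 <;> simp [h1, h2, sq]
  simp only [e]
  rw [fa_expect_fst (B := Bool) fun w : X F => if dK x.1 w = 4 ∧ dK y.1 w = 4
      then ((Fintype.card (X F) : ℝ) / (cO F : ℝ)) ^ 2 else 0, fa_expect_ind]
  have h1 := count2 h
  have h2 := div_cO_le hq
  have h3 : 0 ≤ (Fintype.card (X F) : ℝ) / (cO F : ℝ) := by positivity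
  generalize (Fintype.card (X F) : ℝ) / (cO F : ℝ) = r at *
  rw [card_X, Nat.cast_pow]
  generalize (Fintype.card F : ℝ) = q at *
  have h4 : 0 < q - 4 := by linarith
  have h5 : 0 < q - 1 := by linarith
  have h0 : 0 < q := by linarith
  rw [← le_div_iff₀ (by positivity)] at h1
  calc _ ≤ q ^ 20 / (q - 1) ^ 4 * (q ^ 11 / (q - 4)) ^ 2 / q ^ 36 := by gcongr
    _ = k2 q := by unfold k2; field_simp

theorem triple_le (hF : ringChar F ≠ 2) (hq : 4 < (Fintype.card F : ℝ)) {x y z : Xh F}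
    (h : gen3 x.1 y.1 z.1) :
    d3 1 1 1 x y z ≤ k3 (Fintype.card F) * (1 + tau x y * tau x z * tau y z) := by
  classical
  have e : ∀ w : Xh F, kern 1 x w * kern 1 y w * kern 1 z w =
      (fun w : X F => if dK x.1 w = 4 ∧ dK y.1 w = 4 ∧ dK z.1 w = 4
        then ((Fintype.card (X F) : ℝ) / (cO F : ℝ)) ^ 3 else 0) w.1 := by
    intro w
    simp only [kern_one, Rk_sub]
    by_cases h1 : dK x.1 w.1 = 4 <;> by_cases h2 : dK y.1 w.1 = 4 <;>
      by_cases h3 : dK z.1 w.1 = 4 <;> simp [h1, h2, h3, pow_succ]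
  unfold d3
  simp only [e]
  rw [fa_expect_fst (B := Bool) fun w : X F => if dK x.1 w = 4 ∧ dK y.1 w = 4 ∧ dK z.1 w = 4
      then ((Fintype.card (X F) : ℝ) / (cO F : ℝ)) ^ 3 else 0, fa_expect_ind]
  have hk : 0 ≤ k3 (Fintype.card F) := by
    have h4 : 0 < (Fintype.card F : ℝ) - 4 := by linarith
    have h5 : 0 < (Fintype.card F : ℝ) - 1 := by linarith
    unfold k3
    positivity
  by_cases hw : ∃ w : X F, dK x.1 w = 4 ∧ dK y.1 w = 4 ∧ dK z.1 w = 4
  · obtain ⟨w, hx, hy, hz⟩ := hw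
    have hs : tau x y * tau x z * tau y z = 1 := by
      unfold tau
      rw [← sgn_sub_mul hF h.1 hx hy, ← sgn_sub_mul hF h.2.1 hx hz,
        ← sgn_sub_mul hF h.2.2 hy hz]
      calc _ = (osg x.2 * osg x.2) * (osg y.2 * osg y.2) * (osg z.2 * osg z.2) *
          (sgn (x.1 - w) * sgn (x.1 - w)) * (sgn (y.1 - w) * sgn (y.1 - w)) *
          (sgn (z.1 - w) * sgn (z.1 - w)) := by ring
        _ = 1 := by simp only [osg_mul_self, sgn_mul_self, mul_one]
    rw [hs]
    have h1 := count3 hF h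
    have h2 := div_cO_le hq
    have h3 : 0 ≤ (Fintype.card (X F) : ℝ) / (cO F : ℝ) := by positivity
    generalize (Fintype.card (X F) : ℝ) / (cO F : ℝ) = r at *
    rw [card_X, Nat.cast_pow]
    generalize (Fintype.card F : ℝ) = q at *
    have h4 : 0 < q - 4 := by linarith
    have h5 : 0 < q - 1 := by linarith
    have h0 : 0 < q := by linarith
    rw [← le_div_iff₀ (by positivity)] at h1
    calc _ ≤ 2 * q ^ 7 * (q + 6) ^ 3 / (q - 1) ^ 4 * (q ^ 11 / (q - 4)) ^ 3 / q ^ 36 := by gcongr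
      _ = k3 q * (1 + 1) := by unfold k3; field_simp; ring
  · rw [filter_eq_empty_iff.2 fun w _ h' => hw ⟨w, h'⟩, card_empty, Nat.cast_zero, zero_mul,
      zero_div]
    refine mul_nonneg hk ?_
    have h1 : |tau x y * tau x z * tau y z| ≤ 1 := by
      rw [abs_mul, abs_mul]
      exact mul_le_one₀ (mul_le_one₀ (tau_abs_le _ _) (abs_nonneg _) (tau_abs_le _ _))
        (abs_nonneg _) (tau_abs_le _ _)
    linarith [neg_abs_le (tau x y * tau x z * tau y z)]

/-- The mean codegree is one when no signed kernel is involved. -/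
theorem expect_dF (hc : cO F ≠ 0) (e : Fin 3 → Fin 7) (he : Function.Injective e)
    (g : Fin 3 → Fin 3) (hg : ∀ s, g s ≠ 2) :
    𝔼 x : Fin 7 → Xh F, dF g (fun s => x (e s)) = 1 := by
  unfold dF
  rw [expect_comm]
  refine (expect_congr rfl fun w _ => ?_).trans (Fintype.expect_const 1)
  refine fa_expect_inj e he (fun s ξ => kern (g s) ξ w) fun s => ?_
  rcases fin3_cases (g s) with h | h | h
  · simp only [h, kern_zero]
    exact Fintype.expect_const _
  · simp only [h]
    exact expect_kern_left hc w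
  · exact absurd h (hg s)

end Vale.Agent.P050
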