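import Vale.Agent.P050.Generic

/-! Asymptotic independence of the edge signs. -/

namespace Vale.Agent.P050

open scoped BigOperators
open Finset Module Filter Topology

theorem expect_update {ι Y : Type} [Fintype ι] [DecidableEq ι] [Fintype Y] [Nonempty Y]
    (Φ : (ι → Y) → ℝ) (u : ι) :
    𝔼 x : ι → Y, Φ x = 𝔼 x : ι → Y, 𝔼 a : Y, Φ (Function.update x u a) := by
  have hinv : Function.Involutive
      (fun p : (ι → Y) × Y => (Function.update p.1 u p.2, p.1 u)) := by
    rintro ⟨x, a⟩
    simp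
  have h1 := Fintype.expect_bijective _ hinv.bijective
    (fun p : (ι → Y) × Y => Φ (Function.update p.1 u p.2)) (fun p => Φ p.1) fun _ => rfl
  rw [← univ_product_univ, expect_product, expect_product] at h1
  rw [h1]
  simp only [Fintype.expect_const]

theorem expect_sub_left {G : Type} [Fintype G] [AddGroup G] (φ : G → ℝ) (x : G) :
    𝔼 y : G, φ (x - y) = 𝔼 u : G, φ u :=
  Fintype.expect_equiv (Equiv.subLeft x) _ _ fun _ => rfl

theorem expect_sub_right {G : Type} [Fintype G] [AddGroup G] (φ : G → ℝ) (y : G) :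
    𝔼 x : G, φ (x - y) = 𝔼 u : G, φ u :=
  Fintype.expect_equiv (Equiv.subRight y) _ _ fun _ => rfl

theorem expect_line {G T : Type} [Fintype G] [AddGroup G] [Fintype T] [Nonempty T] (φ : G → ℝ)
    (l : T → G) : 𝔼 x : G, φ x = 𝔼 x : G, 𝔼 t : T, φ (x + l t) := by
  rw [expect_comm]
  have : ∀ t, 𝔼 x : G, φ (x + l t) = 𝔼 x : G, φ x := fun t =>
    Fintype.expect_equiv (Equiv.addRight (l t)) _ _ fun _ => rfl
  simp only [this, Fintype.expect_const]

section
variable {F : Type} [Field F] [Fintype F] [DecidableEq F]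

theorem abs_chi_le (a : F) : |((quadraticChar F a : ℤ) : ℝ)| ≤ 1 := by
  by_cases h : a = 0
  · simp [h]
  · rcases quadraticChar_dichotomy h with h | h <;> simp [h]

theorem abs_sig_le (u : X F) : |sig u| ≤ 1 := abs_chi_le _

theorem chi_sum (hF : ringChar F ≠ 2) (d m d' m' : F) (hm' : m' ≠ 0) (h : d * m' ≠ d' * m) :
    |𝔼 t : F, ((quadraticChar F (d + t * m) : ℤ) : ℝ) * ((quadraticChar F (d' + t * m') : ℤ) : ℝ)|
      ≤ 1 / (Fintype.card F : ℝ) := by
  obtain ⟨a, ha⟩ : ∃ a, a = m / m' := ⟨_, rfl⟩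
  obtain ⟨b, hb⟩ : ∃ b, b = d - d' * a := ⟨_, rfl⟩
  have hb0 : b ≠ 0 := by
    rw [hb, ha, sub_ne_zero, ← mul_div_assoc, Ne, eq_div_iff hm']
    exact h
  have h1 : ∑ t : F, quadraticChar F (d + t * m) * quadraticChar F (d' + t * m') =
      ∑ s : F, quadraticChar F (a * s + b) * quadraticChar F s := by
    refine Fintype.sum_equiv ((Equiv.mulRight₀ m' hm').trans (Equiv.addLeft d')) _ _ fun t => ?_
    simp only [Equiv.trans_apply, Equiv.mulRight₀_apply, Equiv.coe_addLeft]
    congr 2
    rw [hb, ha]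
    field_simp
    ring
  have h2 : ∑ s : F, quadraticChar F (a + b * s⁻¹) = 0 := by
    rw [← quadraticChar_sum_zero hF]
    exact Fintype.sum_equiv ((Equiv.mk Inv.inv Inv.inv inv_inv inv_inv).trans
      ((Equiv.mulLeft₀ b hb0).trans (Equiv.addLeft a))) _ _ fun _ => rfl
  have h3 : ∀ s : F, quadraticChar F (a * s + b) * quadraticChar F s =
      quadraticChar F (a + b * s⁻¹) - if s = 0 then quadraticChar F a else 0 := fun s => by
    split_ifs with hs
    · simp [hs]
    · rw [← map_mul, sub_zero, ← mul_one (quadraticChar F (a + b * s⁻¹)),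
        ← quadraticChar_sq_one' hs, ← map_mul]
      congr 1
      field_simp
  rw [sum_congr rfl fun s _ => h3 s, sum_sub_distrib, h2, sum_ite_eq', if_pos (mem_univ _),
    zero_sub] at h1
  rw [Fintype.expect_eq_sum_div_card, abs_div, Nat.abs_cast]
  refine div_le_div_of_nonneg_right ?_ (Nat.cast_nonneg _)
  have h4 := congrArg (Int.cast : ℤ → ℝ) h1
  push_cast at h4
  rw [h4, abs_neg]
  exact abs_chi_le a

/-- a diagonal index. -/
def i0 : Ix := Sum.inl 0

/-- the direction of the lines. -/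
def ee (t : F) : X F := Pi.single s(i0, i0) t

/-- the principal cofactor. -/
noncomputable def cof (u : X F) : F := ((mat u).updateRow i0 (Pi.single i0 1)).det

omit [Fintype F] [DecidableEq F] in
theorem mat_add_ee (u : X F) (t : F) :
    mat (u + ee t) = (mat u).updateRow i0 (mat u i0 + t • Pi.single i0 1) := by
  ext i j
  rw [Matrix.updateRow_apply]
  simp only [mat, ee, Matrix.of_apply, Pi.add_apply, Pi.single_apply, Sym2.eq_iff, or_self,
    Pi.smul_apply, smul_eq_mul]
  by_cases hi : i = i0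
  · subst hi
    simp
  · simp [hi]

omit [Fintype F] [DecidableEq F] in
theorem det_add_ee (u : X F) (t : F) : (mat (u + ee t)).det = (mat u).det + t * cof u := by
  rw [mat_add_ee, Matrix.det_updateRow_add, Matrix.det_updateRow_smul, Matrix.updateRow_eq_self,
    cof]

omit [Fintype F] [DecidableEq F] in
theorem cof_add_ee (u : X F) (t : F) : cof (u + ee t) = cof u := by
  rw [cof, mat_add_ee, Matrix.updateRow_idem, cof]

theorem prob_cof : 𝔼 u : X F, (if cof u = 0 then (1 : ℝ) else 0) ≤ 8 / (Fintype.card F : ℝ) := by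
  have := sz_cofactor (F := F) i0
  rw [show Fintype.card Ix = 8 from rfl, Nat.cast_ofNat] at this
  exact this

/-- TASK F1. -/
theorem prob_sing (y : X F) :
    𝔼 x : X F, (if dK x y = 0 then (0 : ℝ) else 1) ≤ 8 / (Fintype.card F : ℝ) := by
  have h := sz_symm (F := F) (n := Ix)
  rw [show Fintype.card Ix = 8 from rfl, Nat.cast_ofNat] at h
  refine le_trans (le_of_eq ?_) h
  refine Eq.trans ?_ (expect_sub_right _ y)
  refine expect_congr rfl fun x _ => ?_
  simp only [dK_eq_zero_iff, ne_eq, ite_not]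
  rfl

theorem prob_root (u' : X F) :
    𝔼 u : X F, (if cof u' ≠ 0 ∧ (mat u).det * cof u' = (mat u').det * cof u ∧ cof u ≠ 0
      then (1 : ℝ) else 0) ≤ 1 / (Fintype.card F : ℝ) := by
  rw [expect_line _ (ee : F → X F)]
  refine expect_le univ_nonempty fun u _ => ?_
  rw [Fintype.expect_ite_zero]
  · split_ifs
    · rw [NNRat.cast_smul_eq_nnqsmul ℝ _ _ |>.symm]
      simp
    · positivity
  · intro t t' ht ht'
    simp only [det_add_ee, cof_add_ee] at ht ht'
    have h1 := mul_right_cancel₀ ht.1 (ht.2.1.trans ht'.2.1.symm)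
    exact mul_right_cancel₀ ht.2.2 (add_left_cancel h1)

theorem corr_le (hF : ringChar F ≠ 2) (u u' : X F) :
    |𝔼 t : F, sig (u + ee t) * sig (u' + ee t)| ≤ 1 / (Fintype.card F : ℝ) +
      (if cof u = 0 then (1 : ℝ) else 0) + (if cof u' = 0 then (1 : ℝ) else 0) +
      (if cof u' ≠ 0 ∧ (mat u).det * cof u' = (mat u').det * cof u ∧ cof u ≠ 0
        then (1 : ℝ) else 0) := by
  have h0 : (0 : ℝ) ≤ 1 / (Fintype.card F : ℝ) := by positivity
  have h1 : |𝔼 t : F, sig (u + ee t) * sig (u' + ee t)| ≤ 1 := by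
    refine (abs_expect_le _ _).trans (expect_le univ_nonempty fun t _ => ?_)
    rw [abs_mul]
    exact mul_le_one₀ (abs_sig_le _) (abs_nonneg _) (abs_sig_le _)
  by_cases a1 : cof u = 0
  · rw [if_pos a1]
    split_ifs <;> linarith
  by_cases a2 : cof u' = 0
  · rw [if_pos a2]
    split_ifs <;> linarith
  by_cases a3 : (mat u).det * cof u' = (mat u').det * cof u
  · rw [if_neg a1, if_neg a2, if_pos ⟨a2, a3, a1⟩]
    linarith
  · rw [if_neg a1, if_neg a2, if_neg fun h => a3 h.2.1, add_zero, add_zero, add_zero]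
    simp only [sig, det_add_ee]
    exact chi_sum hF _ _ _ _ a2 a3

/-- TASK F2. -/
theorem mixing (hF : ringChar F ≠ 2) (f g : X F → ℝ) (hf : ∀ x, |f x| ≤ 1) (hg : ∀ x, |g x| ≤ 1) :
    (𝔼 x : X F, 𝔼 y : X F, f x * g y * sig (x - y)) ^ 2 ≤ 20 / (Fintype.card F : ℝ) := by
  have hq : (0 : ℝ) < Fintype.card F := by exact_mod_cast Fintype.card_pos
  have h1 : (𝔼 x : X F, 𝔼 y : X F, f x * g y * sig (x - y)) ^ 2 ≤
      𝔼 x : X F, (𝔼 y : X F, g y * sig (x - y)) ^ 2 := by
    simp only [mul_assoc, ← mul_expect]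
    refine (expect_mul_sq_le_sq_mul_sq _ _ _).trans ?_
    refine mul_le_of_le_one_left (expect_nonneg fun _ _ => sq_nonneg _) ?_
    exact expect_le univ_nonempty fun x _ => (sq_le_one_iff_abs_le_one _).mpr (hf x)
  have h2 : 𝔼 x : X F, (𝔼 y : X F, g y * sig (x - y)) ^ 2 =
      𝔼 y : X F, 𝔼 y' : X F, g y * g y' * 𝔼 x : X F, sig (x - y) * sig (x - y') := by
    simp only [sq, Fintype.expect_mul_expect]
    simp only [mul_expect]
    rw [expect_comm]
    refine expect_congr rfl fun y _ => ?_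
    rw [expect_comm]
    refine expect_congr rfl fun y' _ => expect_congr rfl fun x _ => ?_
    ring
  obtain ⟨ψ, hψ⟩ : ∃ ψ : X F → X F → ℝ, ∀ u u', ψ u u' = 1 / (Fintype.card F : ℝ) +
      (if cof u = 0 then (1 : ℝ) else 0) + (if cof u' = 0 then (1 : ℝ) else 0) +
      (if cof u' ≠ 0 ∧ (mat u).det * cof u' = (mat u').det * cof u ∧ cof u ≠ 0
        then (1 : ℝ) else 0) := ⟨_, fun _ _ => rfl⟩
  have h3 : ∀ y y' : X F, g y * g y' * 𝔼 x : X F, sig (x - y) * sig (x - y') ≤
      𝔼 x : X F, ψ (x - y) (x - y') := fun y y' => by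
    refine (le_abs_self _).trans ?_
    rw [abs_mul, abs_mul]
    refine (mul_le_of_le_one_left (abs_nonneg _)
      (mul_le_one₀ (hg y) (abs_nonneg _) (hg y'))).trans ?_
    rw [expect_line _ (ee : F → X F)]
    refine (abs_expect_le _ _).trans (expect_le_expect fun x _ => ?_)
    rw [hψ]
    simp only [add_sub_right_comm x]
    exact corr_le hF _ _
  have h4 : 𝔼 y : X F, 𝔼 y' : X F, 𝔼 x : X F, ψ (x - y) (x - y') =
      𝔼 u' : X F, 𝔼 u : X F, ψ u u' := by
    rw [expect_congr rfl fun y _ => expect_comm _ _ _, expect_comm]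
    have : ∀ x : X F, 𝔼 y : X F, 𝔼 y' : X F, ψ (x - y) (x - y') =
        𝔼 u' : X F, 𝔼 u : X F, ψ u u' := fun x => by
      rw [expect_sub_left (fun u => 𝔼 y' : X F, ψ u (x - y')) x, expect_comm,
        expect_sub_left (fun u' => 𝔼 u : X F, ψ u u') x]
    simp only [this, Fintype.expect_const]
  have h5 : 𝔼 u' : X F, 𝔼 u : X F, ψ u u' ≤ 18 / (Fintype.card F : ℝ) := by
    simp only [hψ, expect_add_distrib, Fintype.expect_const]
    have a1 := prob_cof (F := F)
    have a2 := expect_le univ_nonempty fun (u' : X F) _ => prob_root u'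
    have : (18 : ℝ) / Fintype.card F = 1 / Fintype.card F + 8 / Fintype.card F +
      8 / Fintype.card F + 1 / Fintype.card F := by ring
    linarith
  have h6 : (18 : ℝ) / Fintype.card F ≤ 20 / Fintype.card F :=
    div_le_div_of_nonneg_right (by norm_num) hq.le
  refine h1.trans ?_
  rw [h2]
  refine (expect_le_expect fun y _ => expect_le_expect fun y' _ => h3 y y').trans ?_
  rw [h4]
  exact h5.trans h6

theorem abs_osg (b : Bool) : |osg b| = 1 := by cases b <;> simp [osg]

theorem osg_sq (b : Bool) : osg b ^ 2 = 1 := by cases b <;> simp [osg]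

theorem abs_tau_le (a b : Xh F) : |tau a b| ≤ 1 := by
  rw [tau, abs_mul, abs_mul, abs_osg, abs_osg, one_mul, one_mul]
  exact abs_sig_le _

theorem tau_sq (a b : Xh F) : tau a b ^ 2 = if dK a.1 b.1 = 0 then 1 else 0 := by
  rw [tau, mul_pow, mul_pow, osg_sq, osg_sq, one_mul, one_mul]
  split_ifs with h
  · exact sig_sq_of_gen h
  · rw [sig_of_not_gen h]
    norm_num

theorem tau_pow_odd (a b : Xh F) {n : ℕ} (hn : Odd n) : tau a b ^ n = tau a b := by
  obtain ⟨k, rfl⟩ := hn
  rw [pow_succ, pow_mul, tau_sq]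
  split_ifs with h
  · simp
  · simp [tau, sig_of_not_gen h]

theorem mixing_tau (hF : ringChar F ≠ 2) (A B : Xh F → ℝ) (hA : ∀ a, |A a| ≤ 1)
    (hB : ∀ b, |B b| ≤ 1) :
    |𝔼 a : Xh F, 𝔼 b : Xh F, A a * B b * tau a b| ≤ √(20 / (Fintype.card F : ℝ)) := by
  have h1 : 𝔼 a : Xh F, 𝔼 b : Xh F, A a * B b * tau a b =
      𝔼 x : X F, 𝔼 y : X F, (𝔼 s : Bool, A (x, s) * osg s) * (𝔼 t : Bool, B (y, t) * osg t) *
        sig (x - y) := by
    rw [← univ_product_univ, expect_product]
    refine expect_congr rfl fun x _ => ?_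
    simp only [expect_product]
    rw [expect_comm]
    refine expect_congr rfl fun y _ => ?_
    rw [Fintype.expect_mul_expect]
    simp only [expect_mul]
    refine expect_congr rfl fun s _ => expect_congr rfl fun t _ => ?_
    rw [tau]
    ring
  have h2 : ∀ (C : Xh F → ℝ), (∀ a, |C a| ≤ 1) → ∀ x, |𝔼 s : Bool, C (x, s) * osg s| ≤ 1 :=
    fun C hC x => (abs_expect_le _ _).trans (expect_le univ_nonempty fun s _ => by
      rw [abs_mul, abs_osg, mul_one]
      exact hC _)
  rw [h1]
  exact Real.abs_le_sqrt (mixing hF _ _ (h2 A hA) (h2 B hB))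

theorem ends_ne (e : Fin 15) : (ends e).1 ≠ (ends e).2 := by
  revert e
  decide

theorem ends_touch (e0 e : Fin 15) (he : e ≠ e0)
    (h : (ends e).1 = (ends e0).2 ∨ (ends e).2 = (ends e0).2) :
    (ends e).1 ≠ (ends e0).1 ∧ (ends e).2 ≠ (ends e0).1 := by
  revert e0 e
  decide

theorem abs_prod_tau_le (s : Finset (Fin 15)) (n : Fin 15 → ℕ) (x : Fin 7 → Xh F) :
    |∏ e ∈ s, tau (x (ends e).1) (x (ends e).2) ^ n e| ≤ 1 := by
  rw [abs_prod]
  refine prod_le_one (fun _ _ => abs_nonneg _) fun e _ => ?_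
  rw [abs_pow]
  exact pow_le_one₀ (abs_nonneg _) (abs_tau_le _ _)

theorem moment_odd (hF : ringChar F ≠ 2) (n : Fin 15 → ℕ) (e0 : Fin 15) (h0 : Odd (n e0)) :
    |𝔼 x : Fin 7 → Xh F, ∏ e, tau (x (ends e).1) (x (ends e).2) ^ n e| ≤
      √(20 / (Fintype.card F : ℝ)) := by
  rw [expect_update _ (ends e0).2, expect_comm,
    expect_congr rfl fun b _ => expect_update _ (ends e0).1, expect_comm]
  refine (abs_expect_le _ _).trans (expect_le univ_nonempty fun x _ => ?_)
  rw [expect_comm]
  obtain ⟨P, hP⟩ : ∃ P : Fin 15 → Prop, ∀ e, P e ↔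
    ((ends e).1 = (ends e0).2 ∨ (ends e).2 = (ends e0).2) := ⟨_, fun _ => Iff.rfl⟩
  classical
  refine le_trans (le_of_eq ?_) (mixing_tau hF
    (fun a => ∏ e ∈ (univ.erase e0).filter fun e => ¬ P e,
      tau (Function.update x (ends e0).1 a (ends e).1)
        (Function.update x (ends e0).1 a (ends e).2) ^ n e)
    (fun b => ∏ e ∈ (univ.erase e0).filter P,
      tau (Function.update x (ends e0).2 b (ends e).1)
        (Function.update x (ends e0).2 b (ends e).2) ^ n e)
    (fun a => abs_prod_tau_le _ _ _) (fun b => abs_prod_tau_le _ _ _))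
  congr 1
  refine expect_congr rfl fun a _ => expect_congr rfl fun b _ => ?_
  rw [← mul_prod_erase _ _ (mem_univ e0), ← prod_filter_not_mul_prod_filter _ P, mul_comm,
    Function.update_self, Function.update_of_ne (ends_ne e0), Function.update_self,
    tau_pow_odd _ _ h0]
  congr 2
  · refine prod_congr rfl fun e he => ?_
    have h1 := (mem_filter.mp he).2
    rw [hP, not_or] at h1
    rw [Function.update_of_ne h1.1, Function.update_of_ne h1.2]
  · refine prod_congr rfl fun e he => ?_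
    obtain ⟨h1, h2⟩ := mem_filter.mp he
    obtain ⟨h3, h4⟩ := ends_touch e0 e (ne_of_mem_erase h1) ((hP e).mp h2)
    rw [Function.update_comm (ends_ne e0), Function.update_of_ne h3, Function.update_of_ne h4]

theorem moment_even (n : Fin 15 → ℕ) (h0 : ∀ e, Even (n e)) :
    |𝔼 x : Fin 7 → Xh F, ∏ e, tau (x (ends e).1) (x (ends e).2) ^ n e - 1| ≤
      120 / (Fintype.card F : ℝ) := by
  have h1 : ∀ x : Fin 7 → Xh F, |∏ e, tau (x (ends e).1) (x (ends e).2) ^ n e - 1| ≤
      ∑ e, (if dK (x (ends e).1).1 (x (ends e).2).1 = 0 then (0 : ℝ) else 1) := fun x => by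
    by_cases h : ∀ e, dK (x (ends e).1).1 (x (ends e).2).1 = 0
    · have : ∏ e, tau (x (ends e).1) (x (ends e).2) ^ n e = 1 := by
        refine prod_eq_one fun e _ => ?_
        obtain ⟨k, hk⟩ := h0 e
        rw [hk, ← two_mul, pow_mul, tau_sq, if_pos (h e), one_pow]
      simp [this, h]
    · push Not at h
      obtain ⟨e, he⟩ := h
      have a1 : 0 ≤ ∏ e, tau (x (ends e).1) (x (ends e).2) ^ n e :=
        prod_nonneg fun e _ => (h0 e).pow_nonneg _
      have a2 := (le_abs_self _).trans (abs_prod_tau_le univ n x)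
      have a3 := single_le_sum (f := fun e =>
        if dK (x (ends e).1).1 (x (ends e).2).1 = 0 then (0 : ℝ) else 1)
        (fun e _ => by split_ifs <;> norm_num) (mem_univ e)
      rw [if_neg he] at a3
      rw [abs_le]
      constructor <;> linarith
  have h2 : ∀ e : Fin 15, 𝔼 x : Fin 7 → Xh F,
      (if dK (x (ends e).1).1 (x (ends e).2).1 = 0 then (0 : ℝ) else 1) ≤
        8 / (Fintype.card F : ℝ) := fun e => by
    rw [expect_update _ (ends e).1]
    refine expect_le univ_nonempty fun x _ => ?_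
    simp only [Function.update_self, Function.update_of_ne (ends_ne e).symm]
    rw [← univ_product_univ, expect_product]
    refine le_trans (le_of_eq ?_) (prob_sing (x (ends e).2).1)
    exact expect_congr rfl fun a _ => Fintype.expect_const (ι := Bool)
      (if dK a (x (ends e).2).1 = 0 then (0 : ℝ) else 1)
  rw [← Fintype.expect_const (ι := Fin 7 → Xh F) (1 : ℝ), ← expect_sub_distrib]
  refine (abs_expect_le _ _).trans ((expect_le_expect fun x _ => h1 x).trans ?_)
  rw [expect_sum_comm]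
  refine (sum_le_card_nsmul _ _ _ fun e _ => h2 e).trans (le_of_eq ?_)
  rw [card_univ, Fintype.card_fin, nsmul_eq_mul]
  push_cast
  ring

end

theorem tendsto_div_bigP (c : ℝ) :
    Tendsto (fun p : Nat.Primes => c / (Fintype.card (ZMod p) : ℝ)) bigP (𝓝 0) := by
  simp only [ZMod.card]
  exact (tendsto_const_div_atTop_nhds_zero_nat c).comp tendsto_comap

theorem eventually_ne_two : ∀ᶠ p : Nat.Primes in bigP, ringChar (ZMod p) ≠ 2 := by
  have : ∀ᶠ p : Nat.Primes in bigP, 3 ≤ (p : ℕ) := tendsto_comap.eventually (eventually_ge_atTop 3)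
  filter_upwards [this] with p hp
  rw [ZMod.ringChar_zmod_n]
  omega

/-- TASK F3. -/
theorem tau_moment (n : Fin 15 → ℕ) :
    Tendsto (fun p : Nat.Primes => 𝔼 x : Fin 7 → Xh (ZMod p),
        ∏ e, tau (x (ends e).1) (x (ends e).2) ^ n e) bigP
      (𝓝 (if ∀ e, Even (n e) then 1 else 0)) := by
  split_ifs with h
  · rw [tendsto_iff_norm_sub_tendsto_zero]
    exact squeeze_zero (fun _ => norm_nonneg _) (fun p => moment_even n h) (tendsto_div_bigP 120)
  · push Not at h
    obtain ⟨e0, h0⟩ := h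
    have h1 := (tendsto_div_bigP 20).sqrt
    rw [Real.sqrt_zero] at h1
    refine squeeze_zero_norm' ?_ h1
    filter_upwards [eventually_ne_two] with p hp
    exact moment_odd hp n e0 (Nat.not_even_iff_odd.mp h0)

end Vale.Agent.P050
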