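import Vale.Agent.P050.UI
import Vale.Agent.P050.Mixing
import Vale.Agent.P050.FaceAux

/-! Convergence in mean of the codegree of one face on generic configurations. -/

namespace Vale.Agent.P050

open scoped BigOperators
open Finset Module Filter Topology

theorem bigP_tendsto : Tendsto (fun p : Nat.Primes => (p : ℕ)) bigP atTop := tendsto_comap

theorem bigP_good : ∀ᶠ p : Nat.Primes in bigP,
    ringChar (ZMod p) ≠ 2 ∧ 4 < (Fintype.card (ZMod p) : ℝ) := by
  filter_upwards [bigP_tendsto.eventually (eventually_gt_atTop 4)] with p hp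
  rw [ZMod.ringChar_zmod_n, ZMod.card]
  exact ⟨by omega, by exact_mod_cast hp⟩

theorem ratio_lim (a b : ℝ) : Tendsto (fun p : Nat.Primes =>
    ((Fintype.card (ZMod p) : ℝ) + a) / ((Fintype.card (ZMod p) : ℝ) - b)) bigP (𝓝 1) := by
  have h := (tendsto_add_mul_div_add_mul_atTop_nhds a (-b) (1 : ℝ) one_ne_zero).comp bigP_tendsto
  rw [div_one] at h
  refine h.congr fun p => ?_
  simp only [Function.comp_apply, ZMod.card]
  congr 1 <;> ring

theorem k2_lim : Tendsto (fun p : Nat.Primes => k2 (Fintype.card (ZMod p))) bigP (𝓝 1) := by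
  have h := ((ratio_lim 0 1).pow 4).mul ((ratio_lim 0 4).pow 2)
  simp only [add_zero, one_pow, mul_one] at h
  exact h

theorem k3_lim : Tendsto (fun p : Nat.Primes => k3 (Fintype.card (ZMod p))) bigP (𝓝 1) := by
  have h := ((ratio_lim 0 1).pow 4).mul ((ratio_lim 6 4).pow 3)
  simp only [add_zero, one_pow, mul_one] at h
  exact h

open Classical in
theorem fa_onesided {P : Type} {l : Filter P} {Ω : P → Type} [∀ p, Fintype (Ω p)]
    [∀ p, Nonempty (Ω p)] (G : ∀ p, Ω p → Prop) (K t : ∀ p, Ω p → ℝ) (k : P → ℝ)
    (hk : Tendsto k l (𝓝 1)) (hle : ∀ᶠ p in l, ∀ x, G p x → K p x ≤ k p * t p x)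
    (ht : ∀ p x, |t p x| ≤ 2)
    (hK : Tendsto (fun p => 𝔼 x, if G p x then K p x else 0) l (𝓝 1))
    (hT : Tendsto (fun p => 𝔼 x, if G p x then t p x else 0) l (𝓝 1)) :
    Tendsto (fun p => 𝔼 x, if G p x then |K p x - t p x| else 0) l (𝓝 0) := by
  have h := ((hk.mul hT).sub hK).add (((hk.sub_const 1).abs).mul_const 2)
  simp only [mul_one, sub_self, abs_zero, zero_mul, add_zero] at h
  refine squeeze_zero' (Eventually.of_forall fun p => expect_nonneg fun x _ => ?_) ?_ h
  · split_ifs
    · exact abs_nonneg _
    · exact le_rfl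
  · filter_upwards [hle] with p hp
    rw [mul_expect, ← expect_sub_distrib, ← Fintype.expect_const (ι := Ω p) (|k p - 1| * 2),
      ← expect_add_distrib]
    refine expect_le_expect fun x _ => ?_
    split_ifs with hx
    · have h1 := hp x hx
      have h2 : |(k p - 1) * t p x| ≤ |k p - 1| * 2 := by
        rw [abs_mul]
        exact mul_le_mul_of_nonneg_left (ht p x) (abs_nonneg _)
      have h3 := le_abs_self ((k p - 1) * t p x)
      have h4 := neg_abs_le ((k p - 1) * t p x)
      rw [abs_le]
      constructor <;> nlinarith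
    · have := abs_nonneg (k p - 1)
      linarith

theorem ends_fedge : ∀ f k, ends (fedge f k) = (face f (e1 k), face f (e2 k)) := by decide

theorem face_injective : ∀ f, Function.Injective (face f) := by decide

theorem gen3_of_allGen {F : Type} [Field F] {x : Fin 7 → X F} (h : allGen x) (f : Fin 10) :
    gen3 (x (face f 0)) (x (face f 1)) (x (face f 2)) := by
  have h0 := h (fedge f 0)
  have h1 := h (fedge f 1)
  have h2 := h (fedge f 2)
  rw [ends_fedge] at h0 h1 h2
  exact ⟨h0, h1, h2⟩

/-- The two incidences (face, slot) of each edge. -/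
def inc (e : Fin 15) (b : Bool) : Fin 10 × Fin 3 :=
  if b then
    ![(0, 0), (0, 1), (1, 1), (0, 2), (1, 2), (3, 1), (2, 2), (3, 2), (5, 1), (4, 2), (5, 2),
      (7, 1), (6, 2), (7, 2), (8, 2)] e
  else
    ![(1, 0), (2, 0), (2, 1), (3, 0), (4, 0), (4, 1), (5, 0), (6, 0), (6, 1), (7, 0), (8, 0),
      (8, 1), (9, 0), (9, 1), (9, 2)] e

theorem fedge_inc : ∀ e b, fedge (inc e b).1 (inc e b).2 = e := by decide

theorem inc_fedge : ∀ f k, inc (fedge f k) true = (f, k) ∨ inc (fedge f k) false = (f, k) := by
  decide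

theorem inc_ne : ∀ e, (inc e true).1 ≠ (inc e false).1 := by decide

theorem inc_bijective : Function.Bijective fun a : Fin 15 × Bool => inc a.1 a.2 := by
  constructor
  · rintro ⟨e, b⟩ ⟨e', b'⟩ h
    have h' : inc e b = inc e' b' := h
    have h1 : e = e' := by rw [← fedge_inc e b, h', fedge_inc]
    subst h1
    cases b <;> cases b'
    · rfl
    · exact absurd (congrArg Prod.fst h').symm (inc_ne e)
    · exact absurd (congrArg Prod.fst h') (inc_ne e)
    · rfl
  · rintro ⟨f, k⟩
    rcases inc_fedge f k with h | h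
    · exact ⟨(_, true), h⟩
    · exact ⟨(_, false), h⟩

theorem prod_inc (h : Fin 10 → Fin 3 → ℝ) : ∏ f, ∏ k, h f k =
    ∏ e, (h (inc e true).1 (inc e true).2 * h (inc e false).1 (inc e false).2) := by
  rw [← Fintype.prod_prod_type',
    ← inc_bijective.prod_comp fun a : Fin 10 × Fin 3 => h a.1 a.2, Fintype.prod_prod_type]
  simp only [Fintype.prod_bool]

open Classical in
/-- Limit of a monomial in the edge signs on generic configurations. -/
theorem tau_mono (I : Fin 10 → Fin 3 → Bool) :
    Tendsto (fun p : Nat.Primes => 𝔼 x : Fin 7 → Xh (ZMod p),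
        if allGen (fun v => (x v).1) then
          ∏ f, ∏ k, (if I f k then tau (x (face f (e1 k))) (x (face f (e2 k))) else 1) else 0)
      bigP (𝓝 (if ∀ e, I (inc e true).1 (inc e true).2 = I (inc e false).1 (inc e false).2
        then 1 else 0)) := by
  have h := tau_moment fun e =>
    2 + (I (inc e true).1 (inc e true).2).toNat + (I (inc e false).1 (inc e false).2).toNat
  have hiff : (∀ e, Even (2 + (I (inc e true).1 (inc e true).2).toNat +
      (I (inc e false).1 (inc e false).2).toNat)) ↔
      ∀ e, I (inc e true).1 (inc e true).2 = I (inc e false).1 (inc e false).2 := by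
    refine forall_congr' fun e => ?_
    generalize I (inc e true).1 (inc e true).2 = a
    generalize I (inc e false).1 (inc e false).2 = b
    cases a <;> cases b <;> decide
  rw [if_congr hiff rfl rfl] at h
  refine h.congr fun p => expect_congr rfl fun x _ => ?_
  have e0 : ∀ f k, tau (x (face f (e1 k))) (x (face f (e2 k))) =
      tau (x (ends (fedge f k)).1) (x (ends (fedge f k)).2) := fun f k => by rw [ends_fedge]
  have e1 : ∀ (t : ℝ) (a : Bool), t ^ a.toNat = if a then t else 1 := fun t a => by
    cases a <;> simp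
  simp only [e0, pow_add, e1, prod_inc, fedge_inc, mul_assoc, prod_mul_distrib, tau_sq]
  split_ifs with hx
  · rw [prod_eq_one fun e _ => if_pos (hx e), one_mul]
  · obtain ⟨e, he⟩ := not_forall.1 hx
    rw [prod_eq_zero (mem_univ e) (if_neg he), zero_mul]

open Classical in
theorem prob_gen : Tendsto (fun p : Nat.Primes => 𝔼 x : Fin 7 → Xh (ZMod p),
    if allGen (fun v => (x v).1) then (1 : ℝ) else 0) bigP (𝓝 1) := by
  have h := tau_mono fun _ _ => false
  rw [if_pos fun _ => rfl] at h
  simpa only [Bool.false_eq_true, if_false, prod_const_one] using h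

open Classical in
theorem face_sign (f : Fin 10) : Tendsto (fun p : Nat.Primes => 𝔼 x : Fin 7 → Xh (ZMod p),
    if allGen (fun v => (x v).1) then 1 + tau (x (face f 0)) (x (face f 1)) *
      tau (x (face f 0)) (x (face f 2)) * tau (x (face f 1)) (x (face f 2)) else 0)
    bigP (𝓝 1) := by
  have h := tau_mono fun f' _ => decide (f' = f)
  rw [if_neg] at h
  · have h2 := prob_gen.add h
    rw [add_zero] at h2
    refine h2.congr fun p => ?_
    rw [← expect_add_distrib]
    refine expect_congr rfl fun x _ => ?_
    split_ifs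
    · rw [prod_eq_single f, Fin.prod_univ_three]
      · simp only [decide_true, if_true]
        rfl
      · intro f' _ hf'
        simp [hf']
      · simp
    · simp
  · intro h'
    have h1 := h' (fedge f 0)
    have h2 := inc_ne (fedge f 0)
    rcases inc_fedge f 0 with h3 | h3 <;> rw [h3] at h1 h2
    · simp only [decide_true, true_eq_decide_iff] at h1
      exact h2 h1.symm
    · simp only [decide_true, decide_eq_true_eq] at h1
      exact h2 h1

open Classical in
theorem nongen_prod (g : Fin 10 → Fin 3 → Fin 3) :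
    Tendsto (fun p : Nat.Primes => 𝔼 x : Fin 7 → Xh (ZMod p),
      if allGen (fun v => (x v).1) then 0 else ∏ f, |dF (g f) (fun s => x (face f s))|)
      bigP (𝓝 0) := by
  obtain ⟨C, wt, hC, -, h1, h2⟩ := ui
  have h3 := h2.const_mul (C ^ 10)
  rw [mul_zero] at h3
  refine squeeze_zero' (Eventually.of_forall fun p => expect_nonneg fun x _ => ?_) ?_ h3
  · split_ifs
    · exact le_rfl
    · exact prod_nonneg fun _ _ => abs_nonneg _
  · filter_upwards [h1] with p hp
    rw [← fa_expect_fst_pi (ι := Fin 7) (A := X (ZMod p)) (B := Bool), mul_expect]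
    refine expect_le_expect fun x _ => ?_
    split_ifs
    · simp
    · refine (prod_le_prod (fun _ _ => abs_nonneg _) fun f _ => hp (g f) _).trans (le_of_eq ?_)
      rw [prod_mul_distrib, prod_const, card_univ, Fintype.card_fin]

open Classical in
theorem gen_mean (f : Fin 10) (g : Fin 3 → Fin 3) (hg : ∀ s, g s ≠ 2) :
    Tendsto (fun p : Nat.Primes => 𝔼 x : Fin 7 → Xh (ZMod p),
      if allGen (fun v => (x v).1) then dF g (fun s => x (face f s)) else 0) bigP (𝓝 1) := by
  have h := nongen_prod fun f' => if f' = f then g else 0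
  have h1 : Tendsto (fun p : Nat.Primes => 𝔼 x : Fin 7 → Xh (ZMod p),
      if allGen (fun v => (x v).1) then 0 else dF g (fun s => x (face f s))) bigP (𝓝 0) := by
    refine squeeze_zero_norm (fun p => (abs_expect_le _ _).trans (le_of_eq ?_)) h
    refine expect_congr rfl fun x _ => ?_
    split_ifs
    · exact abs_zero
    · rw [prod_eq_single f, if_pos rfl]
      · intro f' _ hf'
        rw [if_neg hf']
        simp only [dF, Pi.zero_apply, kern_zero, prod_const_one]
        rw [Fintype.expect_const, abs_one]
      · simp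
  have h2 := h1.const_sub 1
  rw [sub_zero] at h2
  refine h2.congr' ?_
  filter_upwards [bigP_good] with p hp
  rw [← expect_dF (cO_ne_zero hp.2) (face f) (face_injective f) g hg, ← expect_sub_distrib]
  refine expect_congr rfl fun x _ => ?_
  split_ifs <;> simp

open Classical in
theorem pair_limit (f : Fin 10) (g : Fin 3 → Fin 3) (hg : ∀ s, g s ≠ 2)
    (hle : ∀ (p : Nat.Primes) (x y z : Xh (ZMod p)), 4 < (Fintype.card (ZMod p) : ℝ) →
      gen3 x.1 y.1 z.1 → d3 (g 0) (g 1) (g 2) x y z ≤ k2 (Fintype.card (ZMod p))) :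
    Tendsto (fun p : Nat.Primes => 𝔼 x : Fin 7 → Xh (ZMod p),
      if allGen (fun v => (x v).1) then
        |d3 (g 0) (g 1) (g 2) (x (face f 0)) (x (face f 1)) (x (face f 2)) - 1| else 0)
      bigP (𝓝 0) := by
  refine fa_onesided (Ω := fun p : Nat.Primes => Fin 7 → Xh (ZMod p))
    (fun p x => allGen fun v => (x v).1)
    (fun p x => d3 (g 0) (g 1) (g 2) (x (face f 0)) (x (face f 1)) (x (face f 2)))
    (fun _ _ => 1) _ k2_lim ?_ (fun _ _ => by norm_num) ?_ prob_gen
  · filter_upwards [bigP_good] with p hp x hx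
    rw [mul_one]
    exact hle p _ _ _ hp.2 (gen3_of_allGen hx f)
  · simpa only [dF_eq] using gen_mean f g hg

open Classical in
theorem triple_limit (f : Fin 10) :
    Tendsto (fun p : Nat.Primes => 𝔼 x : Fin 7 → Xh (ZMod p),
      if allGen (fun v => (x v).1) then
        |d3 1 1 1 (x (face f 0)) (x (face f 1)) (x (face f 2)) -
          (1 + tau (x (face f 0)) (x (face f 1)) * tau (x (face f 0)) (x (face f 2)) *
            tau (x (face f 1)) (x (face f 2)))| else 0) bigP (𝓝 0) := by
  refine fa_onesided (Ω := fun p : Nat.Primes => Fin 7 → Xh (ZMod p))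
    (fun p x => allGen fun v => (x v).1)
    (fun p x => d3 1 1 1 (x (face f 0)) (x (face f 1)) (x (face f 2)))
    (fun p x => 1 + tau (x (face f 0)) (x (face f 1)) * tau (x (face f 0)) (x (face f 2)) *
      tau (x (face f 1)) (x (face f 2))) _ k3_lim ?_ (fun p x => ?_) ?_ (face_sign f)
  · filter_upwards [bigP_good] with p hp x hx
    exact triple_le hp.1 hp.2 (gen3_of_allGen hx f)
  · refine (abs_add_le _ _).trans ?_
    have h1 : |tau (x (face f 0)) (x (face f 1)) * tau (x (face f 0)) (x (face f 2)) *
        tau (x (face f 1)) (x (face f 2))| ≤ 1 := by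
      rw [abs_mul, abs_mul]
      exact mul_le_one₀ (mul_le_one₀ (tau_abs_le _ _) (abs_nonneg _) (tau_abs_le _ _))
        (abs_nonneg _) (tau_abs_le _ _)
    rw [abs_one]
    linarith
  · simpa only [dF_eq] using gen_mean f (fun _ => 1) (by decide)

open Classical in
/-- TASK G1. -/
theorem face_limit (f : Fin 10) (g : Fin 3 → Fin 3) :
    Tendsto (fun p : Nat.Primes => 𝔼 x : Fin 7 → Xh (ZMod p),
        (if allGen (fun v => (x v).1) then
          |dF g (fun s => x (face f s)) -
            DD g (fun e => tau (x (face f (e1 e))) (x (face f (e2 e))))| else 0)) bigP (𝓝 0) := by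
  have h1 := pair_limit f ![1, 1, 0] (by decide) fun p x y z hq h => by
    refine le_trans (le_of_eq ?_) (pair_le hq h.1)
    exact expect_congr rfl fun w _ => mul_one _
  have h2 := pair_limit f ![1, 0, 1] (by decide) fun p x y z hq h => by
    refine le_trans (le_of_eq ?_) (pair_le hq h.2.1)
    exact expect_congr rfl fun w _ => congrArg (· * _) (mul_one _)
  have h3 := pair_limit f ![0, 1, 1] (by decide) fun p x y z hq h => by
    refine le_trans (le_of_eq ?_) (pair_le hq h.2.2)
    exact expect_congr rfl fun w _ => congrArg (· * _) (one_mul _)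
  have h := ((h1.add h2).add h3).add (triple_limit f)
  simp only [add_zero] at h
  refine squeeze_zero' (Eventually.of_forall fun p => expect_nonneg fun x _ => ?_) ?_ h
  · split_ifs
    · exact abs_nonneg _
    · exact le_rfl
  · filter_upwards [bigP_good] with p hp
    rw [← expect_add_distrib, ← expect_add_distrib, ← expect_add_distrib]
    refine expect_le_expect fun x _ => ?_
    split_ifs with hx
    · rw [dF_eq, DD_eq]
      exact d3_sub_le hp.1 (cO_ne_zero hp.2) (gen3_of_allGen hx f) _ _ _
    · simp

end Vale.Agent.P050
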