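import Mathlib

/-! From a weighted symmetric kernel violating the inequality to a simple graph. -/

namespace Vale.Agent.P050

open scoped BigOperators
open Finset Filter Topology

lemma graph_marg {ι κ A : Type} [Fintype ι] [Fintype κ] [DecidableEq κ] [Fintype A] (e : ι → κ)
    (he : Function.Injective e) (q : κ → A → ℝ) (hq : ∀ j, ∑ a, q j a = 1) (f : ι → A → ℝ) :
    ∑ x : κ → A, (∏ j, q j (x j)) * ∏ i, f i (x (e i)) = ∏ i, ∑ a, q (e i) a * f i a := by
  have h1 : ∀ x : κ → A, ∏ i, f i (x (e i)) = ∏ j, Function.extend e f 1 j (x j) := fun x =>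
    Fintype.prod_of_injective e he _ _ (fun j hj => by rw [Function.extend_apply' _ _ _ hj]; rfl)
      fun i => by rw [he.extend_apply]
  simp only [h1, ← prod_mul_distrib]
  rw [← Fintype.prod_sum fun j a => q j a * Function.extend e f 1 j a]
  exact (Fintype.prod_of_injective e he _ _
    (fun j hj => by rw [Function.extend_apply' _ _ _ hj]; simpa using hq j)
    fun i => by rw [he.extend_apply]).symm

/-- Weight of a labelling together with an edge set. -/
noncomputable def gwt {m : ℕ} {Y : Type} (π : Y → ℝ) (w : Sym2 Y → ℝ)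
    (ω : (Fin m → Y) × (Sym2 (Fin m) → Bool)) : ℝ :=
  (∏ i, π (ω.1 i)) * ∏ e, if ω.2 e = true then w (e.map ω.1) else 1 - w (e.map ω.1)

lemma gwt_mean {m n : ℕ} {Y ι : Type} [Fintype Y] [Fintype ι] (π : Y → ℝ) (hπ1 : ∑ y, π y = 1)
    (w : Sym2 Y → ℝ) (ed : ι → Sym2 (Fin n)) (hed : Function.Injective ed) (φ : Fin n → Fin m)
    (hφ : Function.Injective φ) :
    ∑ ω, gwt π w ω * ∏ h, (if ω.2 ((ed h).map φ) = true then (1 : ℝ) else 0) =
      ∑ ψ : Fin n → Y, (∏ v, π (ψ v)) * ∏ h, w ((ed h).map ψ) := by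
  classical
  have h1 : ∀ l : Fin m → Y, ∑ S : Sym2 (Fin m) → Bool,
      gwt π w (l, S) * ∏ h, (if S ((ed h).map φ) = true then (1 : ℝ) else 0) =
      ∑ ψ : Fin n → Y, (∏ h, w ((ed h).map ψ)) *
        ((∏ i, π (l i)) * ∏ v, if l (φ v) = ψ v then (1 : ℝ) else 0) := by
    intro l
    have h2 := graph_marg (fun h => (ed h).map φ) ((Sym2.map.injective hφ).comp hed)
      (fun e b => if b = true then w (e.map l) else 1 - w (e.map l)) (fun _ => by simp)
      fun _ b => if b = true then (1 : ℝ) else 0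
    simp only [gwt, mul_assoc]
    rw [← mul_sum, h2, sum_eq_single (l ∘ φ)]
    · simp [Sym2.map_map, mul_comm]
    · intro ψ _ h
      obtain ⟨v, hv⟩ := Function.ne_iff.mp h.symm
      rw [prod_eq_zero (mem_univ v) (if_neg hv), mul_zero, mul_zero]
    · simp
  rw [Fintype.sum_prod_type, sum_congr rfl fun l _ => h1 l, sum_comm]
  refine sum_congr rfl fun ψ _ => ?_
  rw [← mul_sum, graph_marg φ hφ (fun _ => π) (fun _ => hπ1)
    fun v y => if y = ψ v then (1 : ℝ) else 0, mul_comm]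
  simp

lemma exists_graph_aux {n : ℕ} (H : SimpleGraph (Fin n)) {ι : Type} [Fintype ι]
    (ed : ι → Sym2 (Fin n)) (hinj : Function.Injective ed)
    (hrange : ∀ e, e ∈ H.edgeSet ↔ ∃ h, ed h = e)
    {Y : Type} [Fintype Y] (π : Y → ℝ) (hπ : ∀ y, 0 ≤ π y) (hπ1 : ∑ y, π y = 1)
    (w : Sym2 Y → ℝ) (hw : ∀ y, 0 ≤ w y) (hw1 : ∀ y, w y ≤ 1)
    (hlt : ∑ φ : Fin n → Y, (∏ v, π (φ v)) * ∏ h, w ((ed h).map φ) <
      (∑ y, ∑ y', π y * π y' * w s(y, y')) ^ Fintype.card ι) :
    ∃ (m : ℕ) (G : SimpleGraph (Fin m)), 0 < m ∧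
      (Nat.card (H →g G) : ℝ) / (m : ℝ) ^ n <
        (2 * (G.edgeSet.ncard : ℝ) / (m : ℝ) ^ 2) ^ H.edgeSet.ncard := by
  classical
  set t := ∑ φ : Fin n → Y, (∏ v, π (φ v)) * ∏ h, w ((ed h).map φ) with ht
  set p := ∑ y, ∑ y', π y * π y' * w s(y, y') with hp
  have t0 : 0 ≤ t := sum_nonneg fun _ _ =>
    mul_nonneg (prod_nonneg fun _ _ => hπ _) (prod_nonneg fun _ _ => hw _)
  have hk : H.edgeSet.ncard = Fintype.card ι := by
    rw [show H.edgeSet = Set.range ed from Set.ext hrange, Set.ncard_range_of_injective hinj,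
      Nat.card_eq_fintype_card]
  have hc : Continuous fun x : ℝ =>
      t + (1 - (1 - n * x) ^ n) - ((1 - x) * p) ^ Fintype.card ι := by fun_prop
  obtain ⟨m, hm, hmn⟩ := ((((hc.tendsto 0).comp tendsto_inv_atTop_nhds_zero_nat).eventually
    (gt_mem_nhds (a := 0) (by simpa using hlt))).and (eventually_gt_atTop n)).exists
  have m0 : (0 : ℝ) < m := by exact_mod_cast lt_of_le_of_lt (Nat.zero_le n) hmn
  let G : (Fin m → Y) × (Sym2 (Fin m) → Bool) → SimpleGraph (Fin m) := fun ω =>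
    SimpleGraph.fromEdgeSet {e | ω.2 e = true}
  have μ0 : ∀ ω : (Fin m → Y) × (Sym2 (Fin m) → Bool), 0 ≤ gwt π w ω := fun ω =>
    mul_nonneg (prod_nonneg fun _ _ => hπ _) (prod_nonneg fun e _ => by
      split_ifs
      exacts [hw _, sub_nonneg.mpr (hw1 _)])
  have μ1 : ∑ ω : (Fin m → Y) × (Sym2 (Fin m) → Bool), gwt π w ω = 1 := by
    simpa using gwt_mean (m := m) (n := 0) (ι := Empty) π hπ1 w Empty.elim
      (Function.injective_of_subsingleton _) Fin.elim0 (Function.injective_of_subsingleton _)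
  have hom : ∀ ω, (Nat.card (H →g G ω) : ℝ) ≤
      ∑ φ ∈ univ.filter fun φ : Fin n → Fin m => Function.Injective φ,
        ∏ h, (if ω.2 ((ed h).map φ) = true then (1 : ℝ) else 0) +
      (univ.filter fun φ : Fin n → Fin m => ¬ Function.Injective φ).card := by
    intro ω
    have h1 : Nat.card (H →g G ω) ≤
        (univ.filter fun φ : Fin n → Fin m => ∀ h, ω.2 ((ed h).map φ) = true).card := by
      rw [← Fintype.card_subtype, ← Nat.card_eq_fintype_card]
      exact Nat.card_le_card_of_injective (fun f => ⟨f, fun h => by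
        have := f.map_mem_edgeSet ((hrange _).mpr ⟨h, rfl⟩)
        rw [SimpleGraph.edgeSet_fromEdgeSet] at this
        exact this.1⟩) fun f g h => DFunLike.coe_injective (congrArg Subtype.val h)
    simp only [Fintype.prod_boole, sum_boole]
    norm_cast
    refine h1.trans ((card_le_card fun φ hφ => ?_).trans (card_union_le _ _))
    simp only [mem_filter, mem_union, mem_univ, true_and] at hφ ⊢
    tauto
  have homE : ∑ ω, gwt π w ω * ((Nat.card (H →g G ω) : ℝ) / (m : ℝ) ^ n) ≤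
      t + (1 - (1 - n * (m : ℝ)⁻¹) ^ n) := by
    have h1 : ((univ.filter fun φ : Fin n → Fin m => Function.Injective φ).card : ℝ) +
        (univ.filter fun φ : Fin n → Fin m => ¬ Function.Injective φ).card = (m : ℝ) ^ n := by
      norm_cast
      simp [card_filter_add_card_filter_not]
    have h2 : ((m : ℝ) - n) ^ n ≤
        (univ.filter fun φ : Fin n → Fin m => Function.Injective φ).card := by
      rw [← Fintype.card_subtype, Fintype.card_congr (Equiv.subtypeInjectiveEquivEmbedding _ _),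
        Fintype.card_embedding_eq, Fintype.card_fin, Fintype.card_fin, ← Nat.cast_sub hmn.le]
      exact_mod_cast (Nat.pow_le_pow_left (by omega) n).trans (Nat.pow_sub_le_descFactorial m n)
    have h3 := sum_le_sum fun ω (_ : ω ∈ univ) => mul_le_mul_of_nonneg_left (hom ω) (μ0 ω)
    simp only [mul_add, sum_add_distrib, mul_sum] at h3
    rw [sum_comm, sum_congr rfl fun φ hφ => gwt_mean π hπ1 w ed hinj φ (mem_filter.mp hφ).2,
      ← sum_mul, μ1, sum_const, nsmul_eq_mul, ← ht] at h3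
    simp only [← mul_div_assoc, ← sum_div]
    rw [div_le_iff₀ (by positivity), add_mul, sub_mul, ← mul_pow, sub_mul, mul_assoc,
      inv_mul_cancel₀ m0.ne']
    have h4 := Nat.cast_nonneg (α := ℝ)
      (univ.filter fun φ : Fin n → Fin m => ¬ Function.Injective φ).card
    simp only [one_mul, mul_one] at h3 ⊢
    nlinarith
  have edge : ∀ ω, 2 * ((G ω).edgeSet.ncard : ℝ) =
      ∑ x ∈ (univ : Finset (Fin m)).offDiag, if ω.2 s(x.1, x.2) = true then (1 : ℝ) else 0 := by
    intro ω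
    have h1 := (G ω).two_mul_card_edgeFinset
    rw [← Set.ncard_coe_finset, SimpleGraph.coe_edgeFinset] at h1
    rw [sum_boole]
    norm_cast
    rw [h1]
    refine congrArg card ?_
    ext ⟨i, j⟩
    simp [G, and_comm]
  have edgeE : ∑ ω, gwt π w ω * (2 * ((G ω).edgeSet.ncard : ℝ) / (m : ℝ) ^ 2) =
      (1 - (m : ℝ)⁻¹) * p := by
    have h1 : ∀ x ∈ (univ : Finset (Fin m)).offDiag,
        ∑ ω, gwt π w ω * (if ω.2 s(x.1, x.2) = true then (1 : ℝ) else 0) = p := by
      intro x hx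
      have h2 := gwt_mean (ι := Unit) π hπ1 w (fun _ => s(0, 1))
        (Function.injective_of_subsingleton _) ![x.1, x.2]
        (by simpa [injective_pair_iff_ne] using hx)
      rw [← (finTwoArrowEquiv Y).symm.sum_comp] at h2
      simpa [hp, Fintype.sum_prod_type] using h2
    simp only [edge, ← mul_div_assoc, ← sum_div, mul_sum]
    rw [sum_comm, sum_congr rfl h1, sum_const, offDiag_card, card_univ, Fintype.card_fin,
      nsmul_eq_mul, Nat.cast_sub (Nat.le_mul_self m), Nat.cast_mul]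
    field_simp
  by_contra hcon
  push Not at hcon
  have h1 := Real.pow_arith_mean_le_arith_mean_pow univ (gwt π w)
    (fun ω => 2 * ((G ω).edgeSet.ncard : ℝ) / (m : ℝ) ^ 2) (fun ω _ => μ0 ω) μ1
    (fun ω _ => by positivity) (Fintype.card ι)
  have h2 := sum_le_sum fun ω (_ : ω ∈ univ) =>
    mul_le_mul_of_nonneg_left (hcon m (G ω) (by omega)) (μ0 ω)
  rw [edgeE] at h1
  rw [hk] at h2
  simp only [Function.comp_apply] at hm
  linarith

/-- TASK A.  `src`, `tgt` enumerate the edges of `H` bijectively. -/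
theorem exists_graph_of_kernel {n : ℕ} (H : SimpleGraph (Fin n)) {ι : Type} [Fintype ι]
    (src tgt : ι → Fin n) (hinj : Function.Injective fun h => s(src h, tgt h))
    (hrange : ∀ e, e ∈ H.edgeSet ↔ ∃ h, s(src h, tgt h) = e)
    {Y : Type} [Fintype Y] (π : Y → ℝ) (hπ : ∀ y, 0 ≤ π y) (hπ1 : ∑ y, π y = 1)
    (W : Y → Y → ℝ) (hW : ∀ y y', 0 ≤ W y y') (hsymm : ∀ y y', W y y' = W y' y)
    (hlt : ∑ φ : Fin n → Y, (∏ v, π (φ v)) * ∏ h, W (φ (src h)) (φ (tgt h)) <
      (∑ y, ∑ y', π y * π y' * W y y') ^ Fintype.card ι) :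
    ∃ (m : ℕ) (G : SimpleGraph (Fin m)), 0 < m ∧
      (Nat.card (H →g G) : ℝ) / (m : ℝ) ^ n <
        (2 * (G.edgeSet.ncard : ℝ) / (m : ℝ) ^ 2) ^ H.edgeSet.ncard := by
  obtain ⟨C, hC⟩ := (Set.finite_range fun x : Y × Y => W x.1 x.2).bddAbove
  have hC1 : ∀ y y', W y y' ≤ max C 1 := fun y y' => le_max_of_le_left (hC ⟨(y, y'), rfl⟩)
  have hC0 : 0 < max C 1 := lt_max_of_lt_right one_pos
  refine exists_graph_aux H _ hinj hrange π hπ hπ1
    (Sym2.lift ⟨fun y y' => W y y' / max C 1, fun y y' => by simp only [hsymm y y']⟩)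
    (Sym2.ind fun y y' => div_nonneg (hW y y') hC0.le)
    (Sym2.ind fun y y' => (div_le_one hC0).mpr (hC1 y y')) ?_
  simp only [Sym2.map_mk, Sym2.lift_mk, prod_div_distrib, prod_const, card_univ, ← mul_div_assoc,
    ← sum_div, div_pow]
  exact div_lt_div_of_pos_right hlt (pow_pos hC0 _)

end Vale.Agent.P050
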