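import Vale.Agent.P050.SignAux

/-! The finite sign model. -/

namespace Vale.Agent.P050

open scoped BigOperators
open Finset

namespace SignM

/-- The state space: vertices and faces. -/
abbrev Om : Type := Fin 7 ⊕ Fin 10

/-- Costs of states. -/
def cost : Om → ℕ := Sum.elim Ac Bc

/-- Costs of pairs of states. -/
def cst : Om → Om → ℕ
  | .inl v, .inr b => Cc v b
  | .inr b, .inl v => Cc v b
  | .inl _, .inl _ => 1
  | .inr _, .inr _ => 1

/-- Gadget types of pairs of states. -/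
def typ : Om → Om → Fin 7
  | .inl v, .inr b => Ty v b
  | .inr b, .inl v => Ty v b
  | .inl _, .inl _ => 0
  | .inr _, .inr _ => 0

theorem cst_symm (a b : Om) : cst a b = cst b a := by cases a <;> cases b <;> rfl

theorem typ_symm (a b : Om) : typ a b = typ b a := by cases a <;> cases b <;> rfl

theorem cst_pos (a b : Om) : 1 ≤ cst a b := by
  cases a <;> cases b
  · exact le_rfl
  · exact Cc_pos _ _
  · exact Cc_pos _ _
  · exact le_rfl

/-- Coefficients of a gadget with weight `l`. -/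
noncomputable def cg (l : ℝ) (t : Fin 7) (g : Fin 3 × Fin 3) : ℝ :=
  ![![1 + l * (-par t 0 - par t 1 + par t 2), l * (par t 1 - par t 2), -(l * par t 3)],
    ![l * (par t 0 - par t 2), l * par t 2, l * par t 3],
    ![-(l * par t 4), l * par t 4, 0]] g.1 g.2

theorem cg_pos (l : ℝ) (h0 : 0 ≤ l) (h1 : l ≤ 1 / 2) (t : Fin 7) (r1 r2 u1 u2 : ℝ)
    (hu1 : |u1| ≤ r1) (hu2 : |u2| ≤ r2) :
    0 ≤ ∑ g : Fin 3 × Fin 3, cg l t g * (![1, r1, u1] g.1 * ![1, r2, u2] g.2) := by
  have hr1 : 0 ≤ r1 := (abs_nonneg _).trans hu1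
  have hr2 : 0 ≤ r2 := (abs_nonneg _).trans hu2
  obtain ⟨a1, a2⟩ := abs_le.mp hu1
  obtain ⟨b1, b2⟩ := abs_le.mp hu2
  have p1 : 0 ≤ l * r1 := mul_nonneg h0 hr1
  have p2 : 0 ≤ l * r2 := mul_nonneg h0 hr2
  have p3 : 0 ≤ l * (r1 * r2) := mul_nonneg h0 (mul_nonneg hr1 hr2)
  have q1 : 0 ≤ l * (r2 - u2) := mul_nonneg h0 (by linarith)
  have q2 : 0 ≤ l * (r2 + u2) := mul_nonneg h0 (by linarith)
  have q3 : 0 ≤ l * (r1 * (r2 - u2)) := mul_nonneg h0 (mul_nonneg hr1 (by linarith))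
  have q4 : 0 ≤ l * (r1 * (r2 + u2)) := mul_nonneg h0 (mul_nonneg hr1 (by linarith))
  have q5 : 0 ≤ l * (r1 - u1) := mul_nonneg h0 (by linarith)
  have q6 : 0 ≤ l * (r2 * (r1 + u1)) := mul_nonneg h0 (mul_nonneg hr2 (by linarith))
  rw [Fintype.sum_prod_type]
  simp only [Fin.sum_univ_three, cg]
  fin_cases t <;> simp [par] <;> nlinarith

theorem cg_sum (l : ℝ) (t : Fin 7) :
    cg l t (0, 0) + cg l t (0, 1) + cg l t (1, 0) + cg l t (1, 1) = 1 := by
  simp [cg]
  ring

theorem cg_mm (l : ℝ) (t : Fin 7) (a b c d : Bool) :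
    ∑ g : Fin 3 × Fin 3, cg l t g * (mm g.1 a c * mm g.2 b d) =
      (if (a || b) = false ∧ (c || d) = false then 1 else 0) + l * gz t a b c d := by
  rw [Fintype.sum_prod_type]
  simp only [Fin.sum_univ_three, cg]
  cases a <;> cases b <;> cases c <;> cases d <;> simp [mm, gz] <;> ring

theorem sum_prod_swap {κ : Type} [Fintype κ] (h : Fin 10 → Fin 3 → κ → ℝ) :
    ∑ g : Fin 10 → Fin 3 → κ, ∏ f, ∏ s, h f s (g f s) = ∏ f, ∏ s, ∑ γ, h f s γ := by
  classical
  have h1 : ∀ f, ∏ s, ∑ γ, h f s γ = ∑ x : Fin 3 → κ, ∏ s, h f s (x s) := by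
    intro f
    rw [Finset.prod_univ_sum, Fintype.piFinset_univ]
  simp only [h1]
  rw [Finset.prod_univ_sum, Fintype.piFinset_univ]

theorem config (l : Fin 10 → Fin 3 → ℝ) (T : Fin 10 → Fin 3 → Fin 7) (I J : Fin 15 → Bool) :
    ∏ f, ∏ s, ((if (I (fedge f (c1 s)) || J (fedge f (c1 s))) = false ∧
        (I (fedge f (c2 s)) || J (fedge f (c2 s))) = false then (1 : ℝ) else 0) +
      l f s * gz (T f s) (I (fedge f (c1 s))) (J (fedge f (c1 s))) (I (fedge f (c2 s)))
        (J (fedge f (c2 s)))) =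
    (if I = (fun _ => false) ∧ J = (fun _ => false) then 1 else 0) +
      (∏ f, ∏ s, l f s) * wt T I J := by
  have hw : (∏ f, ∏ s, l f s) * (wt T I J : ℝ) = ∏ f, ∏ s, (l f s *
      gz (T f s) (I (fedge f (c1 s))) (J (fedge f (c1 s))) (I (fedge f (c2 s)))
        (J (fedge f (c2 s)))) := by
    simp only [wt, Int.cast_prod, ← prod_mul_distrib]
  rw [hw]
  by_cases hc : ∀ f s, (I (fedge f (c1 s)) || J (fedge f (c1 s))) =
      (I (fedge f (c2 s)) || J (fedge f (c2 s)))
  · have hall := connected (fun e => I e || J e) hc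
    by_cases h0 : (I 0 || J 0) = false
    · have hI : I = fun _ => false := by
        funext e
        have := (hall e).trans h0
        simp only [Bool.or_eq_false_iff] at this
        exact this.1
      have hJ : J = fun _ => false := by
        funext e
        have := (hall e).trans h0
        simp only [Bool.or_eq_false_iff] at this
        exact this.2
      subst hI hJ
      simp [(gz_ff _ false false).1]
    · have hne : ¬ (I = (fun _ => false) ∧ J = (fun _ => false)) := by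
        rintro ⟨rfl, rfl⟩
        exact h0 rfl
      rw [if_neg hne, zero_add]
      refine prod_congr rfl fun f _ => prod_congr rfl fun s _ => ?_
      rw [if_neg, zero_add]
      intro h
      exact h0 ((hall _).symm.trans h.1)
  · push Not at hc
    obtain ⟨f, s, hfs⟩ := hc
    have hne : ¬ (I = (fun _ => false) ∧ J = (fun _ => false)) := by
      rintro ⟨rfl, rfl⟩
      exact hfs rfl
    have hz : gz (T f s) (I (fedge f (c1 s))) (J (fedge f (c1 s))) (I (fedge f (c2 s)))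
        (J (fedge f (c2 s))) = 0 := by
      revert hfs
      generalize I (fedge f (c1 s)) = a
      generalize J (fedge f (c1 s)) = b
      generalize I (fedge f (c2 s)) = c
      generalize J (fedge f (c2 s)) = d
      intro hfs
      cases a <;> cases b <;> cases c <;> cases d <;>
        first | exact absurd rfl hfs | rfl
    rw [if_neg hne, zero_add, prod_eq_zero (mem_univ f), prod_eq_zero (mem_univ f)]
    · exact prod_eq_zero (mem_univ s) (by rw [hz]; simp)
    · refine prod_eq_zero (mem_univ s) ?_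
      rw [hz, if_neg]
      · simp
      · intro h
        exact hfs (h.1.trans h.2.symm)

/-- Total weight of the spin configurations. -/
def YY (T : Fin 10 → Fin 3 → Fin 7) : ℤ := ∑ I, ∑ J, wt T I J

theorem inner (l : Fin 10 → Fin 3 → ℝ) (T : Fin 10 → Fin 3 → Fin 7) :
    ∑ g : Fin 10 → Fin 3 → Fin 3 × Fin 3, (∏ f, ∏ s, cg (l f s) (T f s) (g f s)) *
        (LL (fun f s => (g f s).1) * LL (fun f s => (g f s).2)) =
      1 + (∏ f, ∏ s, l f s) * YY T := by
  have h1 : ∀ g : Fin 10 → Fin 3 → Fin 3 × Fin 3, (∏ f, ∏ s, cg (l f s) (T f s) (g f s)) *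
        (LL (fun f s => (g f s).1) * LL (fun f s => (g f s).2)) =
      ∑ I : Fin 15 → Bool, ∑ J : Fin 15 → Bool, ∏ f, ∏ s, (cg (l f s) (T f s) (g f s) *
        (mm (g f s).1 (I (fedge f (c1 s))) (I (fedge f (c2 s))) *
          mm (g f s).2 (J (fedge f (c1 s))) (J (fedge f (c2 s))))) := by
    intro g
    unfold LL
    rw [sum_mul_sum, mul_sum]
    refine sum_congr rfl fun I _ => ?_
    rw [mul_sum]
    refine sum_congr rfl fun J _ => ?_
    simp only [prod_mul_distrib]
  simp only [h1]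
  rw [sum_comm]
  have h2 : ∀ I : Fin 15 → Bool, ∑ g : Fin 10 → Fin 3 → Fin 3 × Fin 3, ∑ J : Fin 15 → Bool,
      ∏ f, ∏ s, (cg (l f s) (T f s) (g f s) *
        (mm (g f s).1 (I (fedge f (c1 s))) (I (fedge f (c2 s))) *
          mm (g f s).2 (J (fedge f (c1 s))) (J (fedge f (c2 s))))) =
      ∑ J : Fin 15 → Bool, ((if I = (fun _ => false) ∧ J = (fun _ => false) then (1 : ℝ) else 0) +
        (∏ f, ∏ s, l f s) * wt T I J) := by
    intro I
    rw [sum_comm]
    refine sum_congr rfl fun J _ => ?_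
    rw [sum_prod_swap (fun f s γ => cg (l f s) (T f s) γ *
        (mm γ.1 (I (fedge f (c1 s))) (I (fedge f (c2 s))) *
          mm γ.2 (J (fedge f (c1 s))) (J (fedge f (c2 s))))), ← config]
    exact prod_congr rfl fun f _ => prod_congr rfl fun s _ => cg_mm _ _ _ _ _ _
  simp only [h2, sum_add_distrib, YY, Int.cast_sum, mul_sum]
  congr 1
  rw [sum_eq_single (fun _ => false)]
  · simp
  · intro I _ hI
    simp [hI]
  · simp

theorem wt_le (T : Fin 10 → Fin 3 → Fin 7) (I J : Fin 15 → Bool) : wt T I J ≤ 2 ^ 30 := by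
  refine (le_abs_self _).trans ?_
  unfold wt
  rw [abs_prod]
  have h : ∀ f ∈ (univ : Finset (Fin 10)), |∏ s, gz (T f s) (I (fedge f (c1 s)))
      (J (fedge f (c1 s))) (I (fedge f (c2 s))) (J (fedge f (c2 s)))| ≤ 2 ^ 3 := by
    intro f _
    rw [abs_prod]
    refine (prod_le_prod (fun _ _ => abs_nonneg _) (fun s _ => gz_bound _ _ _ _ _)).trans ?_
    simp
  refine (prod_le_prod (fun _ _ => abs_nonneg _) h).trans ?_
  simp

theorem YY_le (T : Fin 10 → Fin 3 → Fin 7) : YY T ≤ 2 ^ 60 := by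
  unfold YY
  refine (sum_le_sum fun I _ => sum_le_sum fun J _ => wt_le T I J).trans ?_
  simp

theorem YY_single (T : Fin 10 → Fin 3 → Fin 7) (P Q : Fin 15 → Bool)
    (h : ∀ I J, wt T I J ≠ 0 → I = P ∧ J = Q) : YY T = wt T P Q := by
  unfold YY
  rw [sum_eq_single P, sum_eq_single Q]
  · intro J _ hJ
    by_contra h0
    exact hJ (h _ _ h0).2
  · simp
  · intro I _ hI
    refine sum_eq_zero fun J _ => ?_
    by_contra h0
    exact hI (h _ _ h0).1
  · simp

theorem YY_active {T : Fin 10 → Fin 3 → Fin 7} (h : YY T ≠ 0) (f s) : T f s ≠ 0 := by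
  intro h0
  refine h (sum_eq_zero fun I _ => sum_eq_zero fun J _ => ?_)
  by_contra h1
  have h2 := wt_ne h1 f s
  rw [h0] at h2
  exact h2 (gz_zero _ _ _ _)

/-- Total cost. -/
def tot (a : Fin 7 → Om) (b : Fin 10 → Om) : ℕ :=
  ∑ v, cost (a v) + ∑ f, cost (b f) + ∑ f, ∑ s, cst (a (face f s)) (b f)

theorem side {p q : Om} (h : typ p q ≠ 0) : p.isLeft = !q.isLeft := by
  cases p <;> cases q
  · exact absurd rfl h
  · rfl
  · rfl
  · exact absurd rfl h

theorem direct (α : Fin 7 → Fin 7) (β : Fin 10 → Fin 10)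
    (h : ∀ f s, Ty (α (face f s)) (β f) ≠ 0) :
    15613 ≤ ∑ v, Ac (α v) + ∑ f, Bc (β f) + ∑ f, ∑ s, Cc (α (face f s)) (β f) ∨
      (α = id ∧ β = id) ∨ (α = Fin.rev ∧ β = Fin.rev) := by
  have k := fun f => mt_le (β f) _ (h f 0) _ (h f 1) _ (h f 2)
  rcases chk (α 0) (α 1) (α 2) (k 0).2 (α 3) (k 1).2 (k 2).2 (α 4) (k 3).2 (k 4).2 (α 5) (k 5).2
    (k 6).2 (α 6) (k 7).2 (k 8).2 (k 9).2 with h1 | h1 | h1
  · left
    refine h1.trans ?_
    rw [add_assoc (∑ v, Ac (α v)), ← sum_add_distrib]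
    refine add_le_add (by rw [Fin.sum_univ_seven]) ?_
    have e : mt (α 0) (α 1) (α 2) + mt (α 0) (α 1) (α 3) + mt (α 0) (α 2) (α 3) +
        mt (α 1) (α 2) (α 4) + mt (α 1) (α 3) (α 4) + mt (α 2) (α 3) (α 5) +
        mt (α 2) (α 4) (α 5) + mt (α 3) (α 4) (α 6) + mt (α 3) (α 5) (α 6) +
        mt (α 4) (α 5) (α 6) = ∑ f, mt (α (face f 0)) (α (face f 1)) (α (face f 2)) := by
      simp only [Fin.sum_univ_succ, Fin.sum_univ_zero, add_zero, add_assoc]
      rfl
    rw [e]
    refine sum_le_sum fun f _ => ?_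
    rw [Fin.sum_univ_three]
    exact (k f).1
  · right; left
    obtain ⟨h0, h1, h2, h3, h4, h5, h6⟩ := h1
    have ha : α = id := by
      funext v
      fin_cases v
      exacts [h0, h1, h2, h3, h4, h5, h6]
    subst ha
    exact ⟨rfl, funext fun f => id_face f _ (h f)⟩
  · right; right
    obtain ⟨h0, h1, h2, h3, h4, h5, h6⟩ := h1
    have ha : α = Fin.rev := by
      funext v
      fin_cases v
      exacts [h0, h1, h2, h3, h4, h5, h6]
    subst ha
    exact ⟨rfl, funext fun f => rev_face f _ (h f)⟩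

theorem cases_tot (a : Fin 7 → Om) (b : Fin 10 → Om)
    (h : ∀ f s, typ (a (face f s)) (b f) ≠ 0) :
    15613 ≤ tot a b ∨ (a = Sum.inl ∧ b = Sum.inr) ∨
      (a = (fun v => Sum.inl (Fin.rev v)) ∧ b = (fun f => Sum.inr (Fin.rev f))) := by
  have s := fun f t => side (h f t)
  have e1 : (a 1).isLeft = (a 0).isLeft := (s 0 1).trans (s 0 0).symm
  have e2 : (a 2).isLeft = (a 0).isLeft := (s 0 2).trans (s 0 0).symm
  have e3 : (a 3).isLeft = (a 0).isLeft := (s 1 2).trans (s 1 0).symm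
  have e4 : (a 4).isLeft = (a 0).isLeft := ((s 3 2).trans (s 3 0).symm).trans e1
  have e5 : (a 5).isLeft = (a 0).isLeft := ((s 5 2).trans (s 5 0).symm).trans e2
  have e6 : (a 6).isLeft = (a 0).isLeft := ((s 7 2).trans (s 7 0).symm).trans e3
  have ha : ∀ v, (a v).isLeft = (a 0).isLeft := by
    intro v
    fin_cases v
    exacts [rfl, e1, e2, e3, e4, e5, e6]
  have hb : ∀ f, (b f).isLeft = !(a 0).isLeft := by
    intro f
    rw [← ha (face f 0), s f 0, Bool.not_not]
  cases h0 : (a 0).isLeft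
  · left
    have hc : ∀ f, 1673 ≤ cost (b f) := by
      intro f
      obtain ⟨v, hv⟩ := Sum.isLeft_iff.mp ((hb f).trans (by rw [h0]; rfl))
      rw [hv]
      exact Ac_ge v
    have h1 : ∑ _f : Fin 10, 1673 ≤ ∑ f, cost (b f) := sum_le_sum fun f _ => hc f
    have h2 : ∑ _f : Fin 10, 1673 = 16730 := by simp
    unfold tot
    omega
  · have ha' : ∀ v, ∃ x, a v = Sum.inl x := fun v => Sum.isLeft_iff.mp ((ha v).trans h0)
    have hb' : ∀ f, ∃ y, b f = Sum.inr y := by
      intro f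
      have := hb f
      rw [h0] at this
      rcases hf : b f with x | y
      · rw [hf] at this
        exact absurd this (by simp)
      · exact ⟨y, rfl⟩
    choose α hα using ha'
    choose β hβ using hb'
    obtain rfl : a = fun v => Sum.inl (α v) := funext hα
    obtain rfl : b = fun f => Sum.inr (β f) := funext hβ
    rcases direct α β h with h1 | ⟨rfl, rfl⟩ | ⟨rfl, rfl⟩
    · exact Or.inl h1
    · exact Or.inr (Or.inl ⟨rfl, rfl⟩)
    · exact Or.inr (Or.inr ⟨rfl, rfl⟩)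

theorem term_le (δ : ℝ) (h0 : 0 < δ) (h1 : δ ≤ 1) (a : Fin 7 → Om) (b : Fin 10 → Om) :
    δ ^ tot a b * YY (fun f s => typ (a (face f s)) (b f)) ≤
      2 ^ 60 * δ ^ 15613 - if a = Sum.inl ∧ b = Sum.inr then δ ^ 15612 else 0 := by
  have hp : (0 : ℝ) ≤ 2 ^ 60 * δ ^ 15613 := by positivity
  by_cases hid : a = Sum.inl ∧ b = Sum.inr
  · rw [if_pos hid]
    obtain ⟨rfl, rfl⟩ := hid
    have e1 : tot Sum.inl Sum.inr = 15612 := cost_id
    have e2 : YY (fun f s => typ (Sum.inl (face f s)) (Sum.inr f)) = -1 :=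
      (YY_single _ _ _ forcedId).trans wtId
    rw [e1, e2]
    push_cast
    linarith
  · rw [if_neg hid, sub_zero]
    by_cases hY : YY (fun f s => typ (a (face f s)) (b f)) = 0
    · rw [hY]
      simpa using hp
    · rcases cases_tot a b (YY_active hY) with h | h | ⟨rfl, rfl⟩
      · have k1 : δ ^ tot a b ≤ δ ^ 15613 := pow_le_pow_of_le_one h0.le h1 h
        have k2 : ((YY (fun f s => typ (a (face f s)) (b f)) : ℤ) : ℝ) ≤ 2 ^ 60 := by
          exact_mod_cast YY_le _
        calc _ ≤ δ ^ tot a b * 2 ^ 60 := mul_le_mul_of_nonneg_left k2 (by positivity)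
          _ ≤ δ ^ 15613 * 2 ^ 60 := mul_le_mul_of_nonneg_right k1 (by positivity)
          _ = _ := mul_comm _ _
      · exact absurd h hid
      · have e2 : YY (fun f s => typ (Sum.inl (Fin.rev (face f s))) (Sum.inr (Fin.rev f))) = -1 :=
          (YY_single _ _ _ forcedRev).trans wtRev
        rw [e2]
        have : 0 ≤ δ ^ tot (fun v => Sum.inl (Fin.rev v)) (fun f => Sum.inr (Fin.rev f)) := by
          positivity
        push_cast
        linarith

theorem total_neg (δ : ℝ) (h0 : 0 < δ) (h1 : δ ≤ 1) (h2 : 17 ^ 17 * 2 ^ 60 * δ < 1) :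
    ∑ a : Fin 7 → Om, ∑ b : Fin 10 → Om,
      δ ^ tot a b * YY (fun f s => typ (a (face f s)) (b f)) < 0 := by
  refine (sum_le_sum fun a _ => sum_le_sum fun b _ => term_le δ h0 h1 a b).trans_lt ?_
  have e : ∑ a : Fin 7 → Om, ∑ b : Fin 10 → Om,
      (if a = Sum.inl ∧ b = Sum.inr then δ ^ 15612 else 0) = δ ^ 15612 := by
    rw [sum_eq_single Sum.inl]
    · simp
    · intro a _ ha
      simp [ha]
    · simp
  simp only [sum_sub_distrib, e, sum_const, card_univ, Fintype.card_fun, Fintype.card_sum,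
    Fintype.card_fin, nsmul_eq_mul]
  have hp : 0 < δ ^ 15612 := by positivity
  have e2 : δ ^ 15613 = δ * δ ^ 15612 := pow_succ' δ 15612
  rw [e2]
  generalize δ ^ 15612 = x at hp ⊢
  push_cast
  nlinarith

end SignM

open SignM in
/-- TASK H. -/
theorem sign_model : ∃ (Ω : Type) (_ : Fintype Ω) (π : Ω → ℝ) (c : Ω → Ω → Fin 3 × Fin 3 → ℝ),
    (∀ a, 0 ≤ π a) ∧ ∑ a, π a = 1 ∧ (∀ a b, c a b = c b a) ∧
    (∀ a b (r1 r2 u1 u2 : ℝ), |u1| ≤ r1 → |u2| ≤ r2 →
      0 ≤ ∑ g : Fin 3 × Fin 3, c a b g * (![1, r1, u1] g.1 * ![1, r2, u2] g.2)) ∧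
    (∀ a b, c a b (0, 0) + c a b (0, 1) + c a b (1, 0) + c a b (1, 1) = 1) ∧
    ∑ a : Fin 7 → Ω, ∑ b : Fin 10 → Ω, (∏ v, π (a v)) * (∏ f, π (b f)) *
      ∑ g : Fin 10 → Fin 3 → Fin 3 × Fin 3, (∏ f, ∏ s, c (a (face f s)) (b f) (g f s)) *
        (LL (fun f s => (g f s).1) * LL (fun f s => (g f s).2)) < 1 := by
  obtain ⟨δ, h0, h1, h2⟩ : ∃ δ : ℝ, 0 < δ ∧ δ ≤ 1 / 2 ∧ 17 ^ 17 * 2 ^ 60 * δ < 1 :=
    ⟨1 / (2 * (17 ^ 17 * 2 ^ 60)), by positivity, by norm_num, by norm_num⟩
  have h1' : δ ≤ 1 := by linarith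
  obtain ⟨S, hS⟩ : ∃ S : ℝ, S = ∑ w : Om, δ ^ cost w := ⟨_, rfl⟩
  have hSpos : 0 < S := by
    rw [hS]
    exact sum_pos (fun _ _ => by positivity) univ_nonempty
  have hsum : ∑ w : Om, δ ^ cost w / S = 1 := by
    rw [← sum_div, ← hS, div_self hSpos.ne']
  refine ⟨Om, inferInstance, fun w => δ ^ cost w / S,
    fun p q => cg (δ ^ cst p q) (typ p q), fun a => by positivity, hsum, ?_, ?_, ?_, ?_⟩
  · intro a b
    change cg (δ ^ cst a b) (typ a b) = cg (δ ^ cst b a) (typ b a)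
    rw [cst_symm, typ_symm]
  · intro a b r1 r2 u1 u2 hu1 hu2
    refine cg_pos _ (by positivity) ?_ _ _ _ _ _ hu1 hu2
    exact ((pow_le_pow_of_le_one h0.le h1' (cst_pos a b)).trans (by rw [pow_one])).trans h1
  · intro a b
    exact cg_sum _ _
  · have e : ∀ (a : Fin 7 → Om) (b : Fin 10 → Om),
        (∏ v, δ ^ cost (a v) / S) * (∏ f, δ ^ cost (b f) / S) *
        ∑ g : Fin 10 → Fin 3 → Fin 3 × Fin 3,
          (∏ f, ∏ s, cg (δ ^ cst (a (face f s)) (b f)) (typ (a (face f s)) (b f)) (g f s)) *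
          (LL (fun f s => (g f s).1) * LL (fun f s => (g f s).2)) =
        (∏ v, δ ^ cost (a v) / S) * (∏ f, δ ^ cost (b f) / S) +
          (1 / S ^ 17) * (δ ^ tot a b * YY (fun f s => typ (a (face f s)) (b f))) := by
      intro a b
      rw [inner (fun f s => δ ^ cst (a (face f s)) (b f)) (fun f s => typ (a (face f s)) (b f)),
        mul_add, mul_one]
      simp only [prod_div_distrib, prod_pow_eq_pow_sum, prod_const, card_univ, Fintype.card_fin,
        tot, pow_add]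
      field_simp
    simp only [e, sum_add_distrib, ← mul_sum]
    have e1 : ∑ b : Fin 10 → Om, ∏ f, δ ^ cost (b f) / S = 1 := by
      rw [← Fintype.piFinset_univ, ← Finset.prod_univ_sum (fun _ => univ)
        (fun _ w => δ ^ cost w / S)]
      simp [hsum]
    have e2 : ∑ a : Fin 7 → Om, ∏ v, δ ^ cost (a v) / S = 1 := by
      rw [← Fintype.piFinset_univ, ← Finset.prod_univ_sum (fun _ => univ)
        (fun _ w => δ ^ cost w / S)]
      simp [hsum]
    simp only [e1, mul_one, e2]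
    have k := total_neg δ h0 h1' h2
    have k2 : 0 < 1 / S ^ 17 := by positivity
    nlinarith [mul_pos k2 (neg_pos.mpr k)]

end Vale.Agent.P050
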