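import Vale.Agent.P050.Limit
import Vale.Agent.P050.Sign
import Vale.Agent.P050.Graph

/-! Assembly of the counterexample. -/

namespace Vale.Agent.P050

open scoped BigOperators
open Finset Filter Topology

/-- Vertex end of an incidence. -/
def srcE (h : Fin 10 × Fin 3) : Fin (7 + 10) := Fin.castAdd 10 (face h.1 h.2)

/-- Face end of an incidence. -/
def tgtE (h : Fin 10 × Fin 3) : Fin (7 + 10) := Fin.natAdd 7 h.1

/-- Splitting of a labelled map into its six blocks. -/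
def splitE (Ω A : Type) : (Fin (7 + 10) → Ω × A × A) ≃
    (Fin 7 → Ω) × (Fin 10 → Ω) × ((Fin 7 → A) × (Fin 10 → A)) × ((Fin 7 → A) × (Fin 10 → A)) where
  toFun φ := (fun v => (φ (Fin.castAdd 10 v)).1, fun f => (φ (Fin.natAdd 7 f)).1,
    (fun v => (φ (Fin.castAdd 10 v)).2.1, fun f => (φ (Fin.natAdd 7 f)).2.1),
    (fun v => (φ (Fin.castAdd 10 v)).2.2, fun f => (φ (Fin.natAdd 7 f)).2.2))
  invFun t := Fin.append (fun v => (t.1 v, t.2.2.1.1 v, t.2.2.2.1 v))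
    (fun f => (t.2.1 f, t.2.2.1.2 f, t.2.2.2.2 f))
  left_inv φ := by
    funext v
    refine Fin.addCases (fun v => ?_) (fun f => ?_) v
    · exact Fin.append_left _ _ _
    · exact Fin.append_right _ _ _
  right_inv t := by
    simp only [Fin.append_left, Fin.append_right]

theorem density_split {Ω A : Type} [Fintype Ω] [Fintype A] [DecidableEq A] [Nonempty A]
    (π : Ω → ℝ) (c : Ω → Ω → Fin 3 × Fin 3 → ℝ) (k : Fin 3 → A → A → ℝ) :
    ∑ φ : Fin (7 + 10) → Ω × A × A, (∏ v, π (φ v).1 / (Fintype.card A : ℝ) ^ 2) *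
      ∏ h : Fin 10 × Fin 3, ∑ g : Fin 3 × Fin 3, c (φ (srcE h)).1 (φ (tgtE h)).1 g *
        (k g.1 (φ (srcE h)).2.1 (φ (tgtE h)).2.1 * k g.2 (φ (srcE h)).2.2 (φ (tgtE h)).2.2) =
    ∑ a : Fin 7 → Ω, ∑ b : Fin 10 → Ω, (∏ v, π (a v)) * (∏ f, π (b f)) *
      ∑ g : Fin 10 → Fin 3 → Fin 3 × Fin 3, (∏ f, ∏ s, c (a (face f s)) (b f) (g f s)) *
        ((𝔼 x : Fin 7 → A, 𝔼 w : Fin 10 → A, ∏ f, ∏ s, k (g f s).1 (x (face f s)) (w f)) *
         (𝔼 x : Fin 7 → A, 𝔼 w : Fin 10 → A, ∏ f, ∏ s, k (g f s).2 (x (face f s)) (w f))) := by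
  classical
  have hN : (Fintype.card A : ℝ) ≠ 0 := Nat.cast_ne_zero.2 Fintype.card_ne_zero
  generalize hNd : (Fintype.card A : ℝ) = N at hN
  rw [Fintype.sum_equiv (splitE Ω A) _ (fun t => ((∏ v, π (t.1 v)) * (∏ f, π (t.2.1 f))) *
    ∑ g : Fin 10 → Fin 3 → Fin 3 × Fin 3, (∏ f, ∏ s, c (t.1 (face f s)) (t.2.1 f) (g f s)) *
      (((∏ f, ∏ s, k (g f s).1 (t.2.2.1.1 (face f s)) (t.2.2.1.2 f)) / N ^ 10 / N ^ 7) *
       ((∏ f, ∏ s, k (g f s).2 (t.2.2.2.1 (face f s)) (t.2.2.2.2 f)) / N ^ 10 / N ^ 7)))]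
  · rw [Fintype.sum_prod_type]
    refine sum_congr rfl fun a _ => ?_
    rw [Fintype.sum_prod_type]
    refine sum_congr rfl fun b _ => ?_
    dsimp only
    rw [← mul_sum, sum_comm]
    refine congrArg _ (sum_congr rfl fun g _ => ?_)
    rw [← mul_sum]
    refine congrArg _ ?_
    rw [Fintype.sum_prod_type]
    dsimp only
    rw [← sum_mul_sum]
    simp only [Fintype.expect_eq_sum_div_card, Fintype.card_fun, Fintype.card_fin, Nat.cast_pow,
      hNd, Fintype.sum_prod_type, sum_div]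
  · intro φ
    rw [Fin.prod_univ_add, Fintype.prod_prod_type]
    simp only [prod_univ_sum, Fintype.piFinset_univ, prod_div_distrib, prod_const, card_univ,
      Fintype.card_fin, prod_mul_distrib, mul_sum]
    refine sum_congr rfl fun g _ => ?_
    simp only [splitE, srcE, tgtE, Equiv.coe_fn_mk]
    field_simp

section
variable {F : Type} [Field F] [Fintype F] [DecidableEq F]

theorem Rk_comm (x y : X F) : Rk (x - y) = Rk (y - x) := by
  rw [Rk_sub, Rk_sub, dK_comm]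

theorem kern_comm (a : Fin 3) (ξ ζ : Xh F) : kern a ξ ζ = kern a ζ ξ := by
  rcases fin3_cases a with rfl | rfl | rfl
  · rfl
  · rw [kern_one, kern_one, Rk_comm]
  · rw [kern_two, kern_two, Rk_comm, ← sgn_neg, neg_sub, mul_comm (osg ξ.2)]

theorem expect_kern_two (ξ : Xh F) : 𝔼 w : Xh F, kern 2 ξ w = 0 := by
  have h : 𝔼 w : Xh F, kern 2 ξ w = 𝔼 w : Xh F, -kern 2 ξ w := by
    refine Fintype.expect_equiv ((Equiv.refl _).prodCongr ⟨not, not, Bool.not_not, Bool.not_not⟩)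
      _ _ fun w => ?_
    have := kern_flip 2 ξ w
    change _ = -kern 2 ξ (w.1, !w.2)
    rw [this]
    simp [sg]
  rw [expect_neg_distrib] at h
  linarith

theorem sum_kern (hc : cO F ≠ 0) (a : Fin 3) (ξ : Xh F) :
    ∑ w : Xh F, kern a ξ w = ![1, 1, 0] a * (Fintype.card (Xh F) : ℝ) := by
  have hN : (Fintype.card (Xh F) : ℝ) ≠ 0 := Nat.cast_ne_zero.2 Fintype.card_ne_zero
  rw [← div_eq_iff hN, ← Fintype.expect_eq_sum_div_card]
  rcases fin3_cases a with rfl | rfl | rfl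
  · simp [kern_zero]
  · rw [expect_kern_right hc]; rfl
  · rw [expect_kern_two]; rfl

end

theorem bigP_neBot : bigP.NeBot := by
  refine comap_neBot fun t ht => ?_
  obtain ⟨n, hn⟩ := mem_atTop_sets.1 ht
  obtain ⟨p, hp, hpp⟩ := Nat.exists_infinite_primes n
  exact ⟨⟨p, hpp⟩, hn p hp⟩

theorem exists_counter (H : SimpleGraph (Fin (7 + 10)))
    (hrange : ∀ e, e ∈ H.edgeSet ↔ ∃ h, s(srcE h, tgtE h) = e) :
    ∃ (m : ℕ) (G : SimpleGraph (Fin m)), 0 < m ∧
      (Nat.card (H →g G) : ℝ) / (m : ℝ) ^ (7 + 10) <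
        (2 * (G.edgeSet.ncard : ℝ) / (m : ℝ) ^ 2) ^ H.edgeSet.ncard := by
  classical
  obtain ⟨Ω, _, π, c, hπ, hπ1, hcs, hcp, hc1, hΦ⟩ := sign_model
  have hlim : Tendsto (fun p : Nat.Primes => ∑ a : Fin 7 → Ω, ∑ b : Fin 10 → Ω,
      (∏ v, π (a v)) * (∏ f, π (b f)) *
      ∑ g : Fin 10 → Fin 3 → Fin 3 × Fin 3, (∏ f, ∏ s, c (a (face f s)) (b f) (g f s)) *
        (tH (ZMod p) (fun f s => (g f s).1) * tH (ZMod p) (fun f s => (g f s).2))) bigP
      (𝓝 (∑ a : Fin 7 → Ω, ∑ b : Fin 10 → Ω, (∏ v, π (a v)) * (∏ f, π (b f)) *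
      ∑ g : Fin 10 → Fin 3 → Fin 3 × Fin 3, (∏ f, ∏ s, c (a (face f s)) (b f) (g f s)) *
        (LL (fun f s => (g f s).1) * LL (fun f s => (g f s).2)))) :=
    tendsto_finsetSum _ fun a _ => tendsto_finsetSum _ fun b _ =>
      Tendsto.const_mul _ (tendsto_finsetSum _ fun g _ =>
        Tendsto.const_mul _ ((tH_limit _).mul (tH_limit _)))
  have := bigP_neBot
  obtain ⟨p, hp, -, hq⟩ := ((hlim.eventually (gt_mem_nhds hΦ)).and bigP_good).exists
  have hc : cO (ZMod p) ≠ 0 := cO_ne_zero hq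
  have hN : (Fintype.card (Xh (ZMod p)) : ℝ) ≠ 0 := Nat.cast_ne_zero.2 Fintype.card_ne_zero
  refine exists_graph_of_kernel H srcE tgtE (by decide +kernel) hrange
    (Y := Ω × Xh (ZMod p) × Xh (ZMod p))
    (fun y => π y.1 / (Fintype.card (Xh (ZMod p)) : ℝ) ^ 2)
    (fun y => div_nonneg (hπ _) (sq_nonneg _)) ?_
    (fun y y' => ∑ g : Fin 3 × Fin 3, c y.1 y'.1 g * (kern g.1 y.2.1 y'.2.1 * kern g.2 y.2.2 y'.2.2))
    (fun y y' => ?_) (fun y y' => ?_) ?_
  · rw [Fintype.sum_prod_type]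
    simp only [sum_const, card_univ, Fintype.card_prod (Xh (ZMod p)), nsmul_eq_mul, Nat.cast_mul]
    rw [← hπ1]
    refine sum_congr rfl fun a _ => ?_
    field_simp
  · have h1 := abs_kern_le' 2 y.2.1 y'.2.1
    have h2 := abs_kern_le' 2 y.2.2 y'.2.2
    rw [if_neg (by decide)] at h1 h2
    exact hcp y.1 y'.1 _ _ _ _ h1 h2
  · refine sum_congr rfl fun g _ => ?_
    rw [hcs y.1, kern_comm g.1, kern_comm g.2]
  · have hmean : ∑ y : Ω × Xh (ZMod p) × Xh (ZMod p), ∑ y' : Ω × Xh (ZMod p) × Xh (ZMod p),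
        π y.1 / (Fintype.card (Xh (ZMod p)) : ℝ) ^ 2 *
        (π y'.1 / (Fintype.card (Xh (ZMod p)) : ℝ) ^ 2) *
        ∑ g : Fin 3 × Fin 3, c y.1 y'.1 g * (kern g.1 y.2.1 y'.2.1 * kern g.2 y.2.2 y'.2.2) = 1 := by
      have hin : ∀ y : Ω × Xh (ZMod p) × Xh (ZMod p), ∑ y' : Ω × Xh (ZMod p) × Xh (ZMod p),
          π y.1 / (Fintype.card (Xh (ZMod p)) : ℝ) ^ 2 *
          (π y'.1 / (Fintype.card (Xh (ZMod p)) : ℝ) ^ 2) *
          ∑ g : Fin 3 × Fin 3, c y.1 y'.1 g * (kern g.1 y.2.1 y'.2.1 * kern g.2 y.2.2 y'.2.2) =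
          π y.1 / (Fintype.card (Xh (ZMod p)) : ℝ) ^ 2 := by
        intro y
        rw [Fintype.sum_prod_type]
        have hb : ∀ b : Ω, ∑ z : Xh (ZMod p) × Xh (ZMod p),
            π y.1 / (Fintype.card (Xh (ZMod p)) : ℝ) ^ 2 *
            (π b / (Fintype.card (Xh (ZMod p)) : ℝ) ^ 2) *
            ∑ g : Fin 3 × Fin 3, c y.1 b g * (kern g.1 y.2.1 z.1 * kern g.2 y.2.2 z.2) =
            π y.1 / (Fintype.card (Xh (ZMod p)) : ℝ) ^ 2 * π b := by
          intro b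
          rw [← mul_sum, sum_comm]
          have hg : ∀ g : Fin 3 × Fin 3, ∑ z : Xh (ZMod p) × Xh (ZMod p),
              c y.1 b g * (kern g.1 y.2.1 z.1 * kern g.2 y.2.2 z.2) =
              c y.1 b g * (![1, 1, 0] g.1 * ![1, 1, 0] g.2) *
                (Fintype.card (Xh (ZMod p)) : ℝ) ^ 2 := by
            intro g
            rw [← mul_sum, Fintype.sum_prod_type]
            dsimp only
            rw [← sum_mul_sum, sum_kern hc, sum_kern hc]
            ring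
          rw [sum_congr rfl fun g _ => hg g, ← sum_mul]
          have h1 : ∑ g : Fin 3 × Fin 3, c y.1 b g * (![1, 1, 0] g.1 * ![1, 1, 0] g.2) = 1 := by
            refine Eq.trans ?_ (hc1 y.1 b)
            rw [Fintype.sum_prod_type]
            simp [Fin.sum_univ_three]
            ring
          rw [h1]
          field_simp
        rw [sum_congr rfl fun b _ => hb b, ← mul_sum, hπ1, mul_one]
      rw [sum_congr rfl fun y _ => hin y, Fintype.sum_prod_type]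
      simp only [sum_const, card_univ, Fintype.card_prod (Xh (ZMod p)), nsmul_eq_mul, Nat.cast_mul]
      rw [← hπ1]
      refine sum_congr rfl fun a _ => ?_
      field_simp
    rw [hmean, one_pow]
    exact (density_split π c kern).trans_lt hp

/-- The vertex-face incidence graph of the helix triangulation. -/
def incG : SimpleGraph (Fin (7 + 10)) :=
  SimpleGraph.fromRel fun u v => ∃ h, srcE h = u ∧ tgtE h = v

instance : DecidableRel incG.Adj := fun u v =>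
  decidable_of_iff (u ≠ v ∧ ((∃ h, srcE h = u ∧ tgtE h = v) ∨ ∃ h, srcE h = v ∧ tgtE h = u))
    (SimpleGraph.fromRel_adj (fun u v => ∃ h, srcE h = u ∧ tgtE h = v) u v).symm

theorem src_ne_tgt : ∀ h, srcE h ≠ tgtE h := by decide +kernel

theorem incG_range (e : Sym2 (Fin (7 + 10))) : e ∈ incG.edgeSet ↔ ∃ h, s(srcE h, tgtE h) = e := by
  induction e using Sym2.ind with
  | h u v =>
    rw [SimpleGraph.mem_edgeSet, incG, SimpleGraph.fromRel_adj]
    constructor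
    · rintro ⟨-, ⟨h, rfl, rfl⟩ | ⟨h, rfl, rfl⟩⟩
      · exact ⟨h, rfl⟩
      · exact ⟨h, Sym2.eq_swap⟩
    · rintro ⟨h, he⟩
      rcases Sym2.eq_iff.1 he with ⟨rfl, rfl⟩ | ⟨rfl, rfl⟩
      · exact ⟨src_ne_tgt h, Or.inl ⟨h, rfl, rfl⟩⟩
      · exact ⟨(src_ne_tgt h).symm, Or.inr ⟨h, rfl, rfl⟩⟩

theorem incG_bipartite : incG.IsBipartite :=
  ⟨SimpleGraph.Coloring.mk (fun v => if v.val < 7 then 0 else 1) (by decide +kernel)⟩

theorem incG_card : incG.edgeSet.ncard = 30 := by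
  have h : incG.edgeSet = Set.range fun h => s(srcE h, tgtE h) := by
    ext e
    exact incG_range e
  rw [h, Set.ncard_range_of_injective (by decide +kernel)]
  simp

theorem incG_connected : incG.Connected := by
  have key : ∀ v : Fin (7 + 10), v = 0 ∨ ∃ u, incG.Adj u v ∧
      (![0, 2, 2, 2, 4, 4, 4, 1, 1, 1, 3, 3, 3, 3, 3, 3, 5] : Fin 17 → ℕ) u <
      (![0, 2, 2, 2, 4, 4, 4, 1, 1, 1, 3, 3, 3, 3, 3, 3, 5] : Fin 17 → ℕ) v := by decide +kernel
  have h : ∀ (n : ℕ) (v : Fin (7 + 10)),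
      (![0, 2, 2, 2, 4, 4, 4, 1, 1, 1, 3, 3, 3, 3, 3, 3, 5] : Fin 17 → ℕ) v < n →
      incG.Reachable 0 v := by
    intro n
    induction n with
    | zero => intro v hv; omega
    | succ n ih =>
      intro v hv
      rcases key v with rfl | ⟨u, hu, hlt⟩
      · rfl
      · exact (ih u (by omega)).trans hu.reachable
  exact SimpleGraph.Connected.mk fun u v =>
    (h _ u (Nat.lt_succ_self _)).symm.trans (h _ v (Nat.lt_succ_self _))

theorem counter17 : ∃ H : SimpleGraph (Fin 17), H.IsBipartite ∧ H.Connected ∧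
    H.edgeSet.ncard = 30 ∧ ∃ (m : ℕ) (G : SimpleGraph (Fin m)), 0 < m ∧
      (Nat.card (H →g G) : ℝ) / (m : ℝ) ^ 17 <
        (2 * (G.edgeSet.ncard : ℝ) / (m : ℝ) ^ 2) ^ 30 := by
  obtain ⟨m, G, hm, h⟩ := exists_counter incG incG_range
  rw [incG_card] at h
  exact ⟨incG, incG_bipartite, incG_connected, incG_card, m, G, hm, h⟩

end Vale.Agent.P050
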