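import Mathlib

/-! Schwartz-Zippel for determinants of matrices of affine forms. -/

namespace Vale.Agent.P050

open scoped BigOperators
open Finset MvPolynomial

variable {F : Type} [Field F] [Fintype F] [DecidableEq F]

theorem sz_general {σ : Type} [Fintype σ] [DecidableEq σ] (p : MvPolynomial σ F) (hp : p ≠ 0) :
    𝔼 x : σ → F, (if eval x p = 0 then (1 : ℝ) else 0) ≤
      (p.totalDegree : ℝ) / Fintype.card F := by
  obtain ⟨e⟩ : Nonempty (σ ≃ Fin (Fintype.card σ)) := ⟨Fintype.equivFin σ⟩
  have hp' : rename e p ≠ 0 := fun h => hp (rename_injective e e.injective (by rw [h, map_zero]))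
  have h := schwartz_zippel_totalDegree hp' (univ : Finset F)
  have hd : (rename e p).totalDegree ≤ p.totalDegree := totalDegree_rename_le _ _
  have h1 : 𝔼 x : σ → F, (if eval x p = 0 then (1 : ℝ) else 0) =
      𝔼 y : Fin (Fintype.card σ) → F, (if eval y (rename e p) = 0 then (1 : ℝ) else 0) := by
    refine Fintype.expect_equiv (Equiv.arrowCongr e (Equiv.refl F)) _ _ fun x => ?_
    rw [eval_rename]
    have : (Equiv.arrowCongr e (Equiv.refl F)) x ∘ e = x := by
      funext i
      simp
    rw [this]
  rw [h1, Fintype.expect_eq_sum_div_card, sum_boole, Fintype.card_fun, Fintype.card_fin]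
  rw [Fintype.piFinset_univ, card_univ] at h
  have h2 := (NNRat.cast_le (K := ℝ)).mpr h
  push_cast at h2 ⊢
  refine h2.trans ?_
  gcongr

omit [Fintype F] [DecidableEq F] in
theorem totalDegree_det_le {σ n : Type} [Fintype n] [DecidableEq n]
    (M : Matrix n n (MvPolynomial σ F)) (hM : ∀ i j, (M i j).totalDegree ≤ 1) :
    M.det.totalDegree ≤ Fintype.card n := by
  rw [Matrix.det_apply]
  refine (totalDegree_finsetSum _ _).trans (Finset.sup_le fun s _ => ?_)
  have h1 : (∏ i, M (s i) i).totalDegree ≤ Fintype.card n := by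
    refine (totalDegree_finsetProd _ _).trans ?_
    refine (sum_le_card_nsmul _ _ 1 fun i _ => hM _ _).trans ?_
    simp
  rcases Int.units_eq_one_or (Equiv.Perm.sign s) with h | h
  · rw [h, one_smul]
    exact h1
  · rw [h, Units.neg_smul, one_smul, totalDegree_neg]
    exact h1

theorem sz_det {σ n : Type} [Fintype σ] [DecidableEq σ] [Fintype n] [DecidableEq n]
    (M : Matrix n n (MvPolynomial σ F)) (hM : ∀ i j, (M i j).totalDegree ≤ 1)
    (A : (σ → F) → Matrix n n F) (hA : ∀ x i j, A x i j = eval x (M i j))
    (x0 : σ → F) (h0 : (A x0).det ≠ 0) :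
    𝔼 x : σ → F, (if (A x).det = 0 then (1 : ℝ) else 0) ≤
      (Fintype.card n : ℝ) / Fintype.card F := by
  have he : ∀ x, (A x).det = eval x M.det := fun x => by
    rw [RingHom.map_det]
    congr 1
    ext i j
    exact hA x i j
  have hp : M.det ≠ 0 := fun h => h0 (by rw [he, h, map_zero])
  simp only [he]
  refine (sz_general _ hp).trans ?_
  gcongr
  exact totalDegree_det_le M hM

/-- singular symmetric matrices are rare. -/
theorem sz_symm {n : Type} [Fintype n] [DecidableEq n] :
    𝔼 x : Sym2 n → F, (if (Matrix.of fun i j => x s(i, j)).det = 0 then (1 : ℝ) else 0) ≤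
      (Fintype.card n : ℝ) / Fintype.card F := by
  refine sz_det (Matrix.of fun i j => X s(i, j)) (fun i j => by simp)
    (fun x => Matrix.of fun i j => x s(i, j)) (fun x i j => by simp)
    (fun e => if e.IsDiag then 1 else 0) ?_
  have : (Matrix.of fun i j : n => if (s(i, j)).IsDiag then (1 : F) else 0) = 1 := by
    ext i j
    simp [Matrix.one_apply]
  rw [this, Matrix.det_one]
  exact one_ne_zero

/-- the same for a principal cofactor. -/
theorem sz_cofactor {n : Type} [Fintype n] [DecidableEq n] (i0 : n) :
    𝔼 x : Sym2 n → F, (if ((Matrix.of fun i j => x s(i, j)).updateRow i0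
      (Pi.single i0 1)).det = 0 then (1 : ℝ) else 0) ≤ (Fintype.card n : ℝ) / Fintype.card F := by
  refine sz_det ((Matrix.of fun i j => X s(i, j)).updateRow i0 (Pi.single i0 1)) ?_
    (fun x => (Matrix.of fun i j => x s(i, j)).updateRow i0 (Pi.single i0 1)) ?_
    (fun e => if e.IsDiag then 1 else 0) ?_
  · intro i j
    rw [Matrix.updateRow_apply]
    split_ifs
    · rw [Pi.single_apply]
      split_ifs <;> simp
    · simp
  · intro x i j
    simp only [Matrix.updateRow_apply]
    split_ifs
    · simp only [Pi.single_apply]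
      split_ifs <;> simp
    · simp
  · have : (Matrix.of fun i j : n => if (s(i, j)).IsDiag then (1 : F) else 0).updateRow i0
        (Pi.single i0 1) = 1 := by
      ext i j
      rw [Matrix.updateRow_apply]
      split_ifs with h
      · subst h
        simp [Matrix.one_apply, Pi.single_apply, eq_comm]
      · simp [Matrix.one_apply]
    rw [this, Matrix.det_one]
    exact one_ne_zero

end Vale.Agent.P050
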