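import Vale.Agent.P050.Defs

/-! Basic facts on the space of symmetric matrices. -/

namespace Vale.Agent.P050

open scoped BigOperators
open Finset Module

set_option linter.unusedSectionVars false

variable {F : Type} [Field F]

theorem mat_isSymm (x : X F) : (mat x).IsSymm := by
  ext i j; simp [mat, Sym2.eq_swap]

theorem mat_sub (x y : X F) : mat (x - y) = mat x - mat y := rfl
theorem mat_add (x y : X F) : mat (x + y) = mat x + mat y := rfl
theorem mat_neg (x : X F) : mat (-x) = -mat x := rfl
theorem mat_zero : mat (0 : X F) = 0 := rfl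

theorem mat_injective : Function.Injective (mat : X F → Matrix Ix Ix F) := by
  intro x y h
  funext e
  induction e using Sym2.ind with
  | _ i j => exact congrFun (congrFun h i) j

theorem exists_mat_eq (M : Matrix Ix Ix F) (hM : M.IsSymm) : ∃ x : X F, mat x = M :=
  ⟨Sym2.lift ⟨fun i j => M i j, fun i j => (hM.apply j i)⟩, by ext i j; simp [mat]⟩

theorem mem_K {x y : X F} {v : Ix → F} : v ∈ K x y ↔ (mat x).mulVec v = (mat y).mulVec v := by
  simp [K, mat_sub, Matrix.sub_mulVec, sub_eq_zero]

theorem K_comm (x y : X F) : K x y = K y x := by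
  ext v; simp [mem_K, eq_comm]

theorem dK_comm (x y : X F) : dK x y = dK y x := by rw [dK, dK, K_comm x y]

theorem inO_sub_iff (x w : X F) : inO (x - w) ↔ dK x w = 4 := Iff.rfl

theorem finrank_E : finrank F (Ix → F) = 8 := by simp

theorem dK_le (x y : X F) : dK x y ≤ 8 := by
  have := Submodule.finrank_le (K x y); simpa [dK] using this

theorem card_X [Fintype F] : Fintype.card (X F) = Fintype.card F ^ 36 := by
  rw [Fintype.card_fun, Sym2.card]; rfl

/-- TASK B5. -/
theorem vanish_le [Fintype F] [DecidableEq F] (W : Submodule F (Ix → F)) :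
    {x : X F | W ≤ LinearMap.ker (Matrix.toLin' (mat x))}.ncard ≤
      Fintype.card F ^ ((8 - finrank F W) * (9 - finrank F W) / 2) := by
  obtain ⟨C, hC⟩ := W.exists_isCompl
  have h1 := Submodule.finrank_add_eq_of_isCompl hC
  rw [finrank_E] at h1
  let c := Module.finBasis F C
  have hsym : ∀ (x : X F) (u v : Ix → F), u ⬝ᵥ (mat x).mulVec v = v ⬝ᵥ (mat x).mulVec u := by
    intro x u v
    rw [Matrix.dotProduct_mulVec, ← Matrix.mulVec_transpose, (mat_isSymm x).eq, dotProduct_comm]
  let f : X F → (Sym2 (Fin (finrank F C)) → F) := fun x =>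
    Sym2.lift ⟨fun a b => (c a : Ix → F) ⬝ᵥ (mat x).mulVec (c b), fun a b => hsym x _ _⟩
  have h2 : (Set.univ : Set (Sym2 (Fin (finrank F C)) → F)).ncard =
      Fintype.card F ^ ((8 - finrank F W) * (9 - finrank F W) / 2) := by
    rw [Set.ncard_univ, Nat.card_eq_fintype_card, Fintype.card_fun, Sym2.card, Fintype.card_fin,
      Nat.choose_two_right]
    congr 2
    rw [show 8 - finrank F W = finrank F C by omega, show 9 - finrank F W = finrank F C + 1 by omega,
      Nat.add_sub_cancel, mul_comm]
  rw [← h2]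
  refine Set.ncard_le_ncard_of_injOn f (fun _ _ => trivial) ?_
  intro x hx y hy hxy
  let B : LinearMap.BilinForm F (Ix → F) := Matrix.toBilin' (mat (x - y))
  have hB : ∀ u v, B u v = u ⬝ᵥ (mat (x - y)).mulVec v := fun u v => Matrix.toBilin'_apply' _ _ _
  have hW : ∀ u, ∀ w ∈ W, B u w = 0 := by
    intro u w hw
    have a1 : (mat x).mulVec w = 0 := by simpa using hx hw
    have a2 : (mat y).mulVec w = 0 := by simpa using hy hw
    rw [hB, mat_sub, Matrix.sub_mulVec, a1, a2]; simp
  have hW' : ∀ u, ∀ w ∈ W, B w u = 0 := fun u w hw => by rw [hB, hsym, ← hB]; exact hW u w hw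
  have hCC : B.restrict C = 0 := by
    refine LinearMap.BilinForm.ext_basis c fun a b => ?_
    have := congrFun hxy s(a, b)
    simp only [f, Sym2.lift_mk] at this
    change B (c a) (c b) = 0
    rw [hB, mat_sub, Matrix.sub_mulVec, dotProduct_sub, this, sub_self]
  have hB0 : B = 0 := by
    refine LinearMap.ext₂ fun u v => ?_
    obtain ⟨u1, hu1, u2, hu2, rfl⟩ := Submodule.mem_sup.1 (hC.sup_eq_top ▸ Submodule.mem_top (x := u))
    obtain ⟨v1, hv1, v2, hv2, rfl⟩ := Submodule.mem_sup.1 (hC.sup_eq_top ▸ Submodule.mem_top (x := v))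
    have : B u2 v2 = 0 := congrArg (fun D : LinearMap.BilinForm F C => D ⟨u2, hu2⟩ ⟨v2, hv2⟩) hCC
    simp [hW _ _ hv1, hW' _ _ hu1, this]
  have h3 : mat (x - y) = mat 0 := by
    rw [mat_zero]
    exact (LinearEquiv.map_eq_zero_iff Matrix.toBilin').1 hB0
  exact sub_eq_zero.1 (mat_injective h3)

end Vale.Agent.P050
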