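import Vale.Agent.P050.Chain
import Vale.Agent.P050.SymBasic
import Vale.Agent.P050.SZ

/-! Sharp counts for generic pairs and triples, and the sign factorisation. -/

namespace Vale.Agent.P050

open scoped BigOperators
open Finset Module Matrix

set_option linter.unusedSectionVars false

variable {F : Type} [Field F] [Fintype F] [DecidableEq F]

theorem dK_eq_zero_iff {x y : X F} : dK x y = 0 ↔ (mat (x - y)).det ≠ 0 := by
  rw [dK, Submodule.finrank_eq_zero, Ne, ← Matrix.exists_mulVec_eq_zero_iff, K,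
    LinearMap.ker_eq_bot']
  simp only [Matrix.toLin'_apply]
  constructor
  · rintro h ⟨v, hv, h0⟩
    exact hv (h v h0)
  · intro h v hv
    by_contra hv0
    exact h ⟨v, hv0, hv⟩

theorem eq_zero_of_gen {x y : X F} (h : dK x y = 0) {v : Ix → F}
    (hv : mat x *ᵥ v = mat y *ᵥ v) : v = 0 := by
  have := mem_K.mpr hv
  rwa [Submodule.finrank_eq_zero.mp h, Submodule.mem_bot] at this

theorem surj_of_gen {x y : X F} (h : dK x y = 0) (v : Ix → F) :
    ∃ w, mat x *ᵥ w - mat y *ᵥ w = v := by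
  have hu : IsUnit (mat (x - y)) :=
    (Matrix.isUnit_iff_isUnit_det _).mpr (isUnit_iff_ne_zero.mpr (dK_eq_zero_iff.mp h))
  obtain ⟨w, hw⟩ := Matrix.mulVec_surjective_iff_isUnit.mpr hu v
  exact ⟨w, by rw [← hw, mat_sub, Matrix.sub_mulVec]⟩

theorem dot_mat_comm (x : X F) (a b : Ix → F) : a ⬝ᵥ mat x *ᵥ b = b ⬝ᵥ mat x *ᵥ a := by
  rw [Matrix.dotProduct_mulVec, ← Matrix.mulVec_transpose, (mat_isSymm x).eq, dotProduct_comm]

theorem inO_of_rep {u : X F} (V : Matrix Ix (Fin 4) F) (D : Matrix (Fin 4) (Fin 4) F)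
    (L : Matrix (Fin 4) Ix F) (hL : L * V = 1) (hD : D.det ≠ 0) (h : mat u = V * D * Vᵀ) :
    inO u := by
  have hk : LinearMap.ker (Matrix.toLin' (mat u)) = LinearMap.ker (Matrix.toLin' Vᵀ) := by
    ext v
    simp only [LinearMap.mem_ker, Matrix.toLin'_apply, h, ← Matrix.mulVec_mulVec]
    constructor
    · intro hv
      have h1 := congrArg (fun w => L *ᵥ w) hv
      simp only [Matrix.mulVec_mulVec, ← Matrix.mul_assoc, hL, Matrix.one_mul,
        Matrix.mulVec_zero] at h1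
      rw [← Matrix.mulVec_mulVec] at h1
      by_contra h0
      exact hD (Matrix.exists_mulVec_eq_zero_iff.mp ⟨_, h0, h1⟩)
    · intro hv
      rw [hv, Matrix.mulVec_zero, Matrix.mulVec_zero]
  have hr : LinearMap.range (Matrix.toLin' Vᵀ) = ⊤ := by
    rw [LinearMap.range_eq_top]
    intro w
    refine ⟨Lᵀ *ᵥ w, ?_⟩
    rw [Matrix.toLin'_apply, Matrix.mulVec_mulVec, ← Matrix.transpose_mul, hL,
      Matrix.transpose_one, Matrix.one_mulVec]
  have := (Matrix.toLin' Vᵀ).finrank_range_add_finrank_ker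
  rw [hr, finrank_top, finrank_E, Module.finrank_fin_fun] at this
  rw [inO, hk]
  omega

/-- TASK E1. -/
theorem cO_ge : (Fintype.card F : ℝ) ^ 25 * ((Fintype.card F : ℝ) - 4) ≤ (cO F : ℝ) := by
  classical
  have hq : (0 : ℝ) < Fintype.card F := by exact_mod_cast Fintype.card_pos
  obtain ⟨sm, hsm⟩ : ∃ sm : (Sym2 (Fin 4) → F) → Matrix (Fin 4) (Fin 4) F,
      ∀ s, sm s = Matrix.of fun i j => s s(i, j) := ⟨_, fun _ => rfl⟩
  have hsym : ∀ s, (sm s)ᵀ = sm s := fun s => by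
    ext i j
    simp [hsm, Sym2.eq_swap]
  have hex : ∀ p : (Sym2 (Fin 4) → F) × Matrix (Fin 4) (Fin 4) F, ∃ u : X F,
      mat u = Matrix.fromRows 1 p.2ᵀ * sm p.1 * (Matrix.fromRows 1 p.2ᵀ)ᵀ := fun p => by
    refine exists_mat_eq _ ?_
    rw [Matrix.IsSymm, Matrix.transpose_mul, Matrix.transpose_mul, Matrix.transpose_transpose,
      hsym, Matrix.mul_assoc]
  choose φ hφ using hex
  have hφ' : ∀ p, mat (φ p) =
      Matrix.fromBlocks (sm p.1) (sm p.1 * p.2) (p.2ᵀ * sm p.1) (p.2ᵀ * sm p.1 * p.2) := fun p => by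
    rw [hφ, Matrix.transpose_fromRows, Matrix.fromRows_mul, Matrix.fromRows_mul_fromCols]
    simp
  have h1 : ((univ.filter fun s => (sm s).det ≠ 0) ×ˢ
      (univ : Finset (Matrix (Fin 4) (Fin 4) F))).card ≤ cO F := by
    refine Finset.card_le_card_of_injOn φ ?_ ?_
    · intro p hp
      simp only [coe_product, coe_filter, mem_univ, true_and, coe_univ, Set.mem_prod,
        Set.mem_ofPred_eq, Set.mem_univ, and_true] at hp
      simp only [coe_filter, mem_univ, true_and, Set.mem_ofPred_eq]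
      refine inO_of_rep _ _ (Matrix.fromCols 1 0) ?_ hp (hφ p)
      rw [Matrix.fromCols_mul_fromRows]
      simp
    · intro p hp p' _ hpp
      simp only [coe_product, coe_filter, mem_univ, true_and, coe_univ, Set.mem_prod,
        Set.mem_ofPred_eq, Set.mem_univ, and_true] at hp
      have h2 := hφ' p
      rw [hpp, hφ', Matrix.fromBlocks_inj] at h2
      obtain ⟨e1, e2, -, -⟩ := h2
      refine Prod.ext ?_ ?_
      · funext e
        induction e using Sym2.ind with
        | _ i j =>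
          have := congrFun (congrFun e1 i) j
          simpa [hsm] using this.symm
      · rw [e1] at e2
        have hu : IsUnit (sm p.1) :=
          (Matrix.isUnit_iff_isUnit_det _).mpr (isUnit_iff_ne_zero.mpr hp)
        exact (hu.mul_left_cancel e2).symm
  have h2 := sz_symm (F := F) (n := Fin 4)
  simp only [← hsm] at h2
  rw [Fintype.expect_eq_sum_div_card, sum_boole, Fintype.card_fun, Sym2.card, Fintype.card_fin,
    div_le_div_iff₀ (by positivity) hq] at h2
  have h3 := Finset.card_filter_add_card_filter_not (s := (univ : Finset (Sym2 (Fin 4) → F)))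
    fun s => (sm s).det = 0
  rw [card_univ, Fintype.card_fun, Sym2.card, Fintype.card_fin] at h3
  have h10 : Nat.choose (4 + 1) 2 = 10 := by decide
  rw [h10] at h2 h3
  have h4 : Fintype.card (Matrix (Fin 4) (Fin 4) F) = Fintype.card F ^ 16 := by
    change Fintype.card (Fin 4 → Fin 4 → F) = _
    rw [Fintype.card_fun, Fintype.card_fun, Fintype.card_fin, ← pow_mul]
  rw [card_product, card_univ, h4] at h1
  have h1' := (Nat.cast_le (α := ℝ)).mpr h1
  have h3' := congrArg (Nat.cast : ℕ → ℝ) h3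
  push_cast at h1' h2 h3'
  refine le_trans ?_ h1'
  obtain ⟨q, hq'⟩ : ∃ q : ℝ, q = Fintype.card F := ⟨_, rfl⟩
  rw [← hq'] at h2 h3' hq ⊢
  obtain ⟨a, ha⟩ : ∃ a : ℝ, a = ((univ.filter fun s => (sm s).det = 0).card : ℝ) := ⟨_, rfl⟩
  rw [← ha] at h2 h3'
  have h5 : a ≤ 4 * q ^ 9 := by
    refine le_of_mul_le_mul_right ?_ hq
    calc a * q ≤ 4 * q ^ 10 := h2
      _ = 4 * q ^ 9 * q := by ring
  calc q ^ 25 * (q - 4) = (q ^ 10 - 4 * q ^ 9) * q ^ 16 := by ring
    _ ≤ _ := by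
      refine mul_le_mul_of_nonneg_right ?_ (by positivity)
      linarith

theorem exists_rep {u : X F} (hu : inO u) :
    ∃ (V : Matrix Ix (Fin 4) F) (D : Matrix (Fin 4) (Fin 4) F), D.IsSymm ∧ mat u = V * D * Vᵀ := by
  have hr : finrank F (LinearMap.range (Matrix.toLin' (mat u))) = 4 := by
    have := (Matrix.toLin' (mat u)).finrank_range_add_finrank_ker
    rw [finrank_E, hu] at this
    omega
  obtain ⟨b⟩ : Nonempty (Basis (Fin 4) F (LinearMap.range (Matrix.toLin' (mat u)))) :=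
    ⟨Module.finBasisOfFinrankEq F _ hr⟩
  let f : (Fin 4 → F) →ₗ[F] (Ix → F) :=
    (LinearMap.range (Matrix.toLin' (mat u))).subtype ∘ₗ b.equivFun.symm.toLinearMap
  have hf : LinearMap.ker f = ⊥ :=
    LinearMap.ker_eq_bot.mpr (Subtype.val_injective.comp b.equivFun.symm.injective)
  obtain ⟨g, hg⟩ := f.exists_leftInverse_of_injective hf
  have h1 : LinearMap.toMatrix' f * LinearMap.toMatrix' g * mat u = mat u := by
    apply Matrix.toLin'.injective
    rw [Matrix.toLin'_mul, Matrix.toLin'_mul, Matrix.toLin'_toMatrix', Matrix.toLin'_toMatrix']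
    refine LinearMap.ext fun v => ?_
    have h2 : Matrix.toLin' (mat u) v = f (b.equivFun ⟨_, LinearMap.mem_range_self _ v⟩) := by
      simp only [f, LinearMap.comp_apply, LinearEquiv.coe_coe, LinearEquiv.symm_apply_apply,
        Submodule.subtype_apply]
    rw [LinearMap.comp_apply, LinearMap.comp_apply, h2, ← LinearMap.comp_apply g, hg,
      LinearMap.id_apply]
  obtain ⟨V, hV⟩ : ∃ V, V = LinearMap.toMatrix' f := ⟨_, rfl⟩
  obtain ⟨L, hL⟩ : ∃ L, L = LinearMap.toMatrix' g := ⟨_, rfl⟩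
  rw [← hV, ← hL] at h1
  have h2 : mat u * Lᵀ * Vᵀ = mat u := by
    have := congrArg Matrix.transpose h1
    rwa [Matrix.transpose_mul, Matrix.transpose_mul, (mat_isSymm u).eq, ← Matrix.mul_assoc] at this
  refine ⟨V, L * mat u * Lᵀ, ?_, ?_⟩
  · rw [Matrix.IsSymm, Matrix.transpose_mul, Matrix.transpose_mul, Matrix.transpose_transpose,
      (mat_isSymm u).eq, Matrix.mul_assoc]
  · rw [← Matrix.mul_assoc, ← Matrix.mul_assoc, h1, h2]

theorem exists_rep_sgn {u : X F} (hu : inO u) :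
    ∃ (V : Matrix Ix (Fin 4) F) (D : Matrix (Fin 4) (Fin 4) F), mat u = V * D * Vᵀ ∧
      (D.det ≠ 0 → sgn u = ((quadraticChar F D.det : ℤ) : ℝ)) := by
  by_cases h : ∃ (V : Matrix Ix (Fin 4) F) (D : Matrix (Fin 4) (Fin 4) F),
      D.IsSymm ∧ quadraticChar F D.det = 1 ∧ mat u = V * D * V.transpose
  · have hs : sgn u = 1 := if_pos h
    obtain ⟨V, D, -, h1, h2⟩ := h
    exact ⟨V, D, h2, fun _ => by rw [hs, h1, Int.cast_one]⟩
  · have hs : sgn u = -1 := if_neg h
    obtain ⟨V, D, h1, h2⟩ := exists_rep hu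
    refine ⟨V, D, h2, fun h0 => ?_⟩
    rcases quadraticChar_dichotomy h0 with h3 | h3
    · exact absurd ⟨V, D, h1, h3, h2⟩ h
    · rw [hs, h3, Int.cast_neg, Int.cast_one]

theorem det_neg_four (D : Matrix (Fin 4) (Fin 4) F) : (-D).det = D.det := by
  rw [Matrix.det_neg, Fintype.card_fin]
  ring

/-- TASK E2. -/
theorem sgn_mul_sgn (hF : ringChar F ≠ 2) {u u' : X F} (hu : inO u) (hu' : inO u')
    (h : dK u u' = 0) : sgn u * sgn u' = sig (u - u') := by
  obtain ⟨V, D, h1, h2⟩ := exists_rep_sgn hu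
  obtain ⟨V', D', h1', h2'⟩ := exists_rep_sgn hu'
  have e : mat (u - u') =
      Matrix.fromCols V V' * Matrix.fromBlocks D 0 0 (-D') * (Matrix.fromCols V V')ᵀ := by
    rw [mat_sub, h1, h1', Matrix.fromCols_mul_fromBlocks, Matrix.transpose_fromCols,
      Matrix.fromCols_mul_fromRows]
    simp [sub_eq_add_neg]
  have e2 : (mat (u - u')).det = (Matrix.fromCols V V').det ^ 2 * (D.det * D'.det) := by
    rw [e, Matrix.det_mul, Matrix.det_mul, Matrix.det_transpose, Matrix.det_fromBlocks_zero₂₁,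
      det_neg_four]
    ring
  have h0 := dK_eq_zero_iff.mp h
  rw [e2] at h0
  have a1 : (Matrix.fromCols V V').det ≠ 0 := fun h => h0 (by rw [h]; ring)
  have a2 : D.det ≠ 0 := fun h => h0 (by rw [h]; ring)
  have a3 : D'.det ≠ 0 := fun h => h0 (by rw [h]; ring)
  rw [sig, e2, map_mul, quadraticChar_sq_one' a1, one_mul, map_mul, h2 a2, h2' a3, Int.cast_mul]

/-- TASK E3. -/
theorem sgn_neg (u : X F) : sgn (-u) = sgn u := by
  have key : ∀ u : X F, (∃ (V : Matrix Ix (Fin 4) F) (D : Matrix (Fin 4) (Fin 4) F),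
      D.IsSymm ∧ quadraticChar F D.det = 1 ∧ mat u = V * D * V.transpose) →
      ∃ (V : Matrix Ix (Fin 4) F) (D : Matrix (Fin 4) (Fin 4) F),
      D.IsSymm ∧ quadraticChar F D.det = 1 ∧ mat (-u) = V * D * V.transpose := by
    rintro u ⟨V, D, h1, h2, h3⟩
    refine ⟨V, -D, h1.neg, by rw [det_neg_four, h2], ?_⟩
    rw [mat_neg, h3, Matrix.mul_neg, Matrix.neg_mul]
  unfold sgn
  refine if_congr ⟨fun h => ?_, key u⟩ rfl rfl
  simpa using key _ h

/-- TASK E4. -/
theorem sig_sq_of_gen {x y : X F} (h : dK x y = 0) : sig (x - y) ^ 2 = 1 := by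
  rw [sig, ← Int.cast_pow, quadraticChar_sq_one (dK_eq_zero_iff.mp h), Int.cast_one]

/-- TASK E5. -/
theorem sig_of_not_gen {x y : X F} (h : dK x y ≠ 0) : sig (x - y) = 0 := by
  rw [Ne, dK_eq_zero_iff, not_not] at h
  rw [sig, h, quadraticChar_zero, Int.cast_zero]

theorem K_eq_orthogonal {x y w : X F} (h : dK x y = 0) (hx : dK x w = 4) (hy : dK y w = 4) :
    K y w = (Matrix.toBilin' (mat (x - y))).orthogonal (K x w) := by
  have hn := LinearMap.BilinForm.nondegenerate_toBilin'_iff_det_ne_zero.mpr (dK_eq_zero_iff.mp h)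
  refine Submodule.eq_of_le_of_finrank_eq (fun b hb => ?_) ?_
  · rw [LinearMap.BilinForm.mem_orthogonal_iff]
    intro a ha
    rw [Matrix.toBilin'_apply', mat_sub, Matrix.sub_mulVec, dotProduct_sub, dot_mat_comm x,
      mem_K.mp ha, mem_K.mp hb, dot_mat_comm w, sub_self]
  · rw [LinearMap.BilinForm.finrank_orthogonal hn, finrank_E]
    change dK y w = 8 - dK x w
    omega

theorem eq_of_K_eq {x y w w' : X F} (h : dK x y = 0) (hx : dK x w = 4) (hy : dK y w = 4)
    (hy' : dK y w' = 4) (hK : K x w = K x w') : w = w' := by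
  have hx' : dK x w' = 4 := by rw [dK, ← hK]; exact hx
  have hK' : K y w = K y w' := by
    rw [K_eq_orthogonal h hx hy, K_eq_orthogonal h hx' hy', hK]
  have hinf : K x w ⊓ K y w = ⊥ := by
    rw [eq_bot_iff]
    rintro v ⟨h1, h2⟩
    exact eq_zero_of_gen h ((mem_K.mp h1).trans (mem_K.mp h2).symm)
  have hsup : K x w ⊔ K y w = ⊤ := by
    apply Submodule.eq_top_of_finrank_eq
    have := Submodule.finrank_sup_add_finrank_inf_eq (K x w) (K y w)
    rw [hinf, finrank_bot] at this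
    rw [finrank_E]
    change _ + 0 = dK x w + dK y w at this
    omega
  apply mat_injective
  apply Matrix.toLin'.injective
  refine LinearMap.ext fun v => ?_
  have hv : v ∈ K x w ⊔ K y w := by
    rw [hsup]
    exact Submodule.mem_top
  obtain ⟨a, ha, b, hb, rfl⟩ := Submodule.mem_sup.mp hv
  have ha' : a ∈ K x w' := by rwa [← hK]
  have hb' : b ∈ K y w' := by rwa [← hK']
  rw [Matrix.toLin'_apply, Matrix.toLin'_apply, Matrix.mulVec_add, Matrix.mulVec_add,
    ← mem_K.mp ha, ← mem_K.mp hb, ← mem_K.mp ha', ← mem_K.mp hb']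

theorem card_le_ncard {α β : Type} [Finite β] (s : Finset α) (T : Set β) (f : α → β)
    (hf : ∀ a ∈ s, f a ∈ T) (hinj : ∀ a ∈ s, ∀ b ∈ s, f a = f b → a = b) : s.card ≤ T.ncard := by
  rw [← Set.ncard_coe_finset]
  exact Set.ncard_le_ncard_of_injOn f hf hinj (Set.toFinite _)

open Classical in
/-- TASK E6. -/
theorem count2 {x y : X F} (h : dK x y = 0) :
    ((univ.filter fun w => dK x w = 4 ∧ dK y w = 4).card : ℝ) * ((Fintype.card F : ℝ) - 1) ^ 4 ≤
      (Fintype.card F : ℝ) ^ 20 := by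
  refine le_trans ?_ (grass48 (F := F) (V := Ix → F) finrank_E)
  refine mul_le_mul_of_nonneg_right (Nat.cast_le.mpr ?_) (by positivity)
  refine card_le_ncard _ _ (fun w => K x w) (fun w hw => (mem_filter.mp hw).2.1) ?_
  intro w hw w' hw' hK
  exact eq_of_K_eq h (mem_filter.mp hw).2.1 (mem_filter.mp hw).2.2 (mem_filter.mp hw').2.2 hK

theorem exists_Y {x y z w : X F} (hyz : dK y z = 0) (hx : dK x w = 4) (hy : dK y w = 4)
    (hz : dK z w = 4) : ∃ Y : Submodule F ((Ix → F) × (Ix → F)), finrank F Y = 4 ∧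
      Y.map (LinearMap.fst F _ _) = K x w ∧
      ∀ p ∈ Y, p.1 ∈ K x w ∧ p.2 ∈ K y w ∧ p.1 + p.2 ∈ K z w := by
  let ι : (K x w × K y w) →ₗ[F] (Ix → F) × (Ix → F) := (K x w).subtype.prodMap (K y w).subtype
  have hι : Function.Injective ι := Subtype.val_injective.prodMap Subtype.val_injective
  let f : (K x w × K y w) →ₗ[F] (Ix → F) ⧸ K z w :=
    (K z w).mkQ ∘ₗ (K x w).subtype.coprod (K y w).subtype
  have hmem : ∀ p ∈ (LinearMap.ker f).map ι, p.1 ∈ K x w ∧ p.2 ∈ K y w ∧ p.1 + p.2 ∈ K z w := by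
    rintro _ ⟨p, hp, rfl⟩
    exact ⟨p.1.2, p.2.2, (Submodule.Quotient.mk_eq_zero _).mp hp⟩
  have h4 : 4 ≤ finrank F ((LinearMap.ker f).map ι) := by
    rw [← (Submodule.equivMapOfInjective ι hι _).finrank_eq]
    have h1 := f.finrank_range_add_finrank_ker
    have h2 := Submodule.finrank_le (LinearMap.range f)
    have h3 := Submodule.finrank_quotient_add_finrank (K z w)
    rw [Module.finrank_prod] at h1
    rw [finrank_E] at h3
    change _ = dK x w + dK y w at h1
    change _ + dK z w = 8 at h3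
    omega
  obtain ⟨Y, hY⟩ : ∃ Y, Y = (LinearMap.ker f).map ι := ⟨_, rfl⟩
  rw [← hY] at hmem h4
  have hle : Y.map (LinearMap.fst F _ _) ≤ K x w := by
    rintro _ ⟨p, hp, rfl⟩
    exact (hmem p hp).1
  have heq : finrank F (Y.map (LinearMap.fst F _ _)) = finrank F Y := by
    have h1 := ((LinearMap.fst F _ _).domRestrict Y).finrank_range_add_finrank_ker
    have h2 : LinearMap.ker ((LinearMap.fst F _ _).domRestrict Y) = ⊥ := by
      rw [LinearMap.ker_eq_bot']
      intro p hp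
      have hp1 : p.1.1 = 0 := hp
      obtain ⟨-, a2, a3⟩ := hmem p.1 p.2
      rw [hp1, zero_add] at a3
      exact Subtype.ext (Prod.ext hp1
        (eq_zero_of_gen hyz ((mem_K.mp a2).trans (mem_K.mp a3).symm)))
    rwa [h2, finrank_bot, add_zero, LinearMap.range_domRestrict] at h1
  have h5 := Submodule.finrank_mono hle
  change _ ≤ dK x w at h5
  refine ⟨Y, by omega, Submodule.eq_of_le_of_finrank_eq hle ?_, hmem⟩
  change _ = dK x w
  omega

open Classical in
/-- TASK E7. -/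
theorem count3 (hF : ringChar F ≠ 2) {x y z : X F} (h : gen3 x y z) :
    ((univ.filter fun w => dK x w = 4 ∧ dK y w = 4 ∧ dK z w = 4).card : ℝ) *
        ((Fintype.card F : ℝ) - 1) ^ 4 ≤
      2 * (Fintype.card F : ℝ) ^ 7 * ((Fintype.card F : ℝ) + 6) ^ 3 := by
  obtain ⟨hxy, hxz, hyz⟩ := h
  obtain ⟨B, hB⟩ : ∃ B : LinearMap.BilinForm F ((Ix → F) × (Ix → F)), ∀ p p',
      B p p' = p.2 ⬝ᵥ mat (y - z) *ᵥ p'.2 - p.1 ⬝ᵥ mat (x - z) *ᵥ p'.1 :=
    ⟨(Matrix.toBilin' (mat (y - z))).comp (LinearMap.snd F _ _) (LinearMap.snd F _ _) -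
      (Matrix.toBilin' (mat (x - z))).comp (LinearMap.fst F _ _) (LinearMap.fst F _ _),
      fun p p' => by simp [Matrix.toBilin'_apply']⟩
  have hBs : B.IsSymm := ⟨fun p p' => by rw [hB, hB, dot_mat_comm (y - z), dot_mat_comm (x - z)]⟩
  obtain ⟨g, hg⟩ : ∃ g : ((Ix → F) × (Ix → F)) →ₗ[F] (Ix → F), ∀ p,
      g p = mat (x - z) *ᵥ p.1 + mat (y - z) *ᵥ p.2 :=
    ⟨(Matrix.toLin' (mat (x - z))).coprod (Matrix.toLin' (mat (y - z))), fun p => by simp⟩
  have hT : finrank F (LinearMap.ker g) = 8 := by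
    have h1 := g.finrank_range_add_finrank_ker
    have h2 : LinearMap.range g = ⊤ := by
      rw [LinearMap.range_eq_top]
      intro v
      obtain ⟨a, ha⟩ := surj_of_gen hxz v
      exact ⟨(a, 0), by rw [hg, Matrix.mulVec_zero, add_zero, mat_sub, Matrix.sub_mulVec, ha]⟩
    rw [h2, finrank_top, Module.finrank_prod, finrank_E] at h1
    omega
  have hnd : LinearMap.ker g ⊓ B.orthogonal (LinearMap.ker g) = ⊥ := by
    rw [eq_bot_iff]
    rintro p ⟨h1, h2⟩
    have h1' : mat (x - z) *ᵥ p.1 = -(mat (y - z) *ᵥ p.2) := by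
      rw [← add_eq_zero_iff_eq_neg, ← hg]
      exact h1
    have h3 : mat (y - z) *ᵥ p.2 = 0 := by
      refine dotProduct_eq_zero _ fun γ => ?_
      obtain ⟨β, hβ⟩ := surj_of_gen hxy (mat (x - z) *ᵥ γ)
      have h4 : (γ - β, β) ∈ LinearMap.ker g := by
        rw [LinearMap.mem_ker, hg, Matrix.mulVec_sub, ← hβ]
        simp only [mat_sub, Matrix.sub_mulVec]
        abel
      have h5 : B (γ - β, β) p = 0 := h2 _ h4
      rw [hB, h1', dotProduct_neg, sub_neg_eq_add, ← add_dotProduct, add_sub_cancel] at h5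
      rw [dotProduct_comm, h5]
    rw [h3, neg_zero] at h1'
    rw [mat_sub, Matrix.sub_mulVec, sub_eq_zero] at h1' h3
    exact Prod.ext (eq_zero_of_gen hxz h1') (eq_zero_of_gen hyz h3)
  refine le_trans ?_ (iso48 hF B hBs (LinearMap.ker g) hT hnd)
  refine mul_le_mul_of_nonneg_right (Nat.cast_le.mpr ?_) (by positivity)
  have hex : ∀ w : X F, ∃ Y : Submodule F ((Ix → F) × (Ix → F)),
      dK x w = 4 ∧ dK y w = 4 ∧ dK z w = 4 → finrank F Y = 4 ∧
      Y.map (LinearMap.fst F _ _) = K x w ∧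
      ∀ p ∈ Y, p.1 ∈ K x w ∧ p.2 ∈ K y w ∧ p.1 + p.2 ∈ K z w := fun w => by
    by_cases hw : dK x w = 4 ∧ dK y w = 4 ∧ dK z w = 4
    · obtain ⟨Y, hY⟩ := exists_Y hyz hw.1 hw.2.1 hw.2.2
      exact ⟨Y, fun _ => hY⟩
    · exact ⟨⊥, fun h => absurd h hw⟩
  choose Y hY using hex
  refine card_le_ncard _ _ Y (fun w hw => ?_) ?_
  · obtain ⟨h1, -, h3⟩ := hY w (mem_filter.mp hw).2
    have e1 : ∀ p ∈ Y w, mat (x - z) *ᵥ p.1 = mat (w - z) *ᵥ p.1 := fun p hp => by
      rw [mat_sub, mat_sub, Matrix.sub_mulVec, Matrix.sub_mulVec, mem_K.mp (h3 p hp).1]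
    have e2 : ∀ p ∈ Y w, mat (y - z) *ᵥ p.2 = mat (w - z) *ᵥ p.2 := fun p hp => by
      rw [mat_sub, mat_sub, Matrix.sub_mulVec, Matrix.sub_mulVec, mem_K.mp (h3 p hp).2.1]
    have e3 : ∀ p ∈ Y w, mat (w - z) *ᵥ (p.1 + p.2) = 0 := fun p hp => by
      rw [mat_sub, Matrix.sub_mulVec, mem_K.mp (h3 p hp).2.2, sub_self]
    refine ⟨fun p hp => ?_, h1, fun p hp p' hp' => ?_⟩
    · rw [LinearMap.mem_ker, hg, e1 p hp, e2 p hp, ← Matrix.mulVec_add, e3 p hp]
    · have e4 := e3 p' hp'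
      rw [Matrix.mulVec_add, add_eq_zero_iff_eq_neg] at e4
      rw [hB, e1 p' hp', e2 p' hp', e4, dotProduct_neg, sub_neg_eq_add, ← add_dotProduct,
        dot_mat_comm, add_comm, e3 p hp, dotProduct_zero]
  · intro w hw w' hw' hYY
    have hw1 := (mem_filter.mp hw).2
    have hw2 := (mem_filter.mp hw').2
    refine eq_of_K_eq hxy hw1.1 hw1.2.1 hw2.2.1 ?_
    rw [← (hY w hw1).2.1, ← (hY w' hw2).2.1, hYY]

end Vale.Agent.P050
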