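import Vale.Agent.P050.Face

/-! Limit of the labelled homomorphism densities. -/

namespace Vale.Agent.P050

open scoped BigOperators
open Finset Module Filter Topology

theorem lim_telescope {ι : Type} (s : Finset ι) (a b : ι → ℝ) {M : ℝ} (hM : 1 ≤ M)
    (ha : ∀ i, |a i| ≤ M) (hb : ∀ i, |b i| ≤ M) :
    |∏ i ∈ s, a i - ∏ i ∈ s, b i| ≤ M ^ s.card * ∑ i ∈ s, |a i - b i| := by
  classical
  induction s using Finset.induction_on with
  | empty => simp
  | insert j s hj ih =>
    rw [prod_insert hj, prod_insert hj, sum_insert hj, card_insert_of_notMem hj]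
    have hA : |∏ i ∈ s, a i| ≤ M ^ (s.card + 1) := by
      rw [abs_prod]
      refine (prod_le_prod (fun _ _ => abs_nonneg _) fun i _ => ha i).trans ?_
      rw [prod_const]
      exact pow_le_pow_right₀ hM (Nat.le_succ _)
    have e : a j * ∏ i ∈ s, a i - b j * ∏ i ∈ s, b i =
        (a j - b j) * ∏ i ∈ s, a i + b j * (∏ i ∈ s, a i - ∏ i ∈ s, b i) := by ring
    rw [e]
    refine (abs_add_le _ _).trans ?_
    rw [abs_mul, abs_mul]
    have h1 := mul_le_mul_of_nonneg_left hA (abs_nonneg (a j - b j))
    have h2 := mul_le_mul (hb j) ih (abs_nonneg _) (by linarith)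
    calc _ ≤ |a j - b j| * M ^ (s.card + 1) + M * (M ^ s.card * ∑ i ∈ s, |a i - b i|) :=
          add_le_add h1 h2
      _ = _ := by ring

theorem tH_eq (F : Type) [Field F] [Fintype F] [DecidableEq F] (g : Fin 10 → Fin 3 → Fin 3) :
    tH F g = 𝔼 x : Fin 7 → Xh F, ∏ f, dF (g f) (fun s => x (face f s)) :=
  expect_congr rfl fun x _ => fa_expect_pi fun f w => ∏ s, kern (g f s) (x (face f s)) w

theorem LL_eq (g : Fin 10 → Fin 3 → Fin 3) :
    ∑ I : Fin 10 → Fin 3 → Bool, (∏ f, ∏ s, mm (g f s) (I f (c1 s)) (I f (c2 s))) *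
      (if ∀ e, I (inc e true).1 (inc e true).2 = I (inc e false).1 (inc e false).2
        then (1 : ℝ) else 0) = LL g := by
  simp only [mul_ite, mul_one, mul_zero]
  rw [← sum_filter]
  symm
  refine sum_nbij' (fun J f k => J (fedge f k)) (fun I e => I (inc e true).1 (inc e true).2)
    (fun J _ => ?_) (fun _ _ => mem_univ _) (fun J _ => ?_) (fun I hI => ?_) fun _ _ => rfl
  · exact mem_filter.2 ⟨mem_univ _, fun e => by simp only [fedge_inc]⟩
  · funext e
    simp only [fedge_inc]
  · funext f k
    beta_reduce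
    rcases inc_fedge f k with h | h
    · rw [h]
    · rw [(mem_filter.1 hI).2, h]

open Classical in
theorem DD_limit (g : Fin 10 → Fin 3 → Fin 3) :
    Tendsto (fun p : Nat.Primes => 𝔼 x : Fin 7 → Xh (ZMod p),
      if allGen (fun v => (x v).1) then
        ∏ f, DD (g f) (fun e => tau (x (face f (e1 e))) (x (face f (e2 e)))) else 0)
      bigP (𝓝 (LL g)) := by
  rw [← LL_eq]
  refine (tendsto_finsetSum _ fun I _ => (tau_mono I).const_mul _).congr fun p => ?_
  simp only [mul_expect]
  rw [← expect_sum_comm]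
  refine expect_congr rfl fun x _ => ?_
  split_ifs
  · unfold DD
    rw [prod_univ_sum, Fintype.piFinset_univ]
    exact sum_congr rfl fun I _ => prod_mul_distrib.symm
  · simp

open Classical in
theorem dF_sub_DD (g : Fin 10 → Fin 3 → Fin 3) :
    Tendsto (fun p : Nat.Primes => 𝔼 x : Fin 7 → Xh (ZMod p),
      if allGen (fun v => (x v).1) then
        ∏ f, dF (g f) (fun s => x (face f s)) -
          ∏ f, DD (g f) (fun e => tau (x (face f (e1 e))) (x (face f (e2 e)))) else 0)
      bigP (𝓝 0) := by
  obtain ⟨C, wt, hC, h0, h1, -⟩ := ui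
  have h := (tendsto_finsetSum univ fun f _ => face_limit f (g f)).const_mul ((C + 8) ^ 10)
  rw [sum_const_zero, mul_zero] at h
  refine squeeze_zero_norm' ?_ h
  filter_upwards [h1] with p hp
  refine (abs_expect_le _ _).trans ?_
  rw [← expect_sum_comm, mul_expect]
  refine expect_le_expect fun x _ => ?_
  split_ifs with hx
  · refine lim_telescope univ _ _ (by linarith) (fun f => ?_) fun f => ?_
    · obtain ⟨a1, a2, a3⟩ := gen3_of_allGen hx f
      have a0 : dK3 (x (face f 0)).1 (x (face f 1)).1 (x (face f 2)).1 = 0 :=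
        Nat.le_zero.1 (a1 ▸ Submodule.finrank_mono inf_le_left)
      have h2 := hp (g f) fun s => x (face f s)
      rw [a0, a1, a2, a3, h0, pow_zero, mul_one] at h2
      linarith
    · have := DD_abs_le (g f) (τ := fun e => tau (x (face f (e1 e))) (x (face f (e2 e))))
        fun e => tau_abs_le _ _
      linarith
  · simp

/-- TASK G2. -/
theorem tH_limit (g : Fin 10 → Fin 3 → Fin 3) :
    Tendsto (fun p : Nat.Primes => tH (ZMod p) g) bigP (𝓝 (LL g)) := by
  classical
  have h1 : Tendsto (fun p : Nat.Primes => 𝔼 x : Fin 7 → Xh (ZMod p),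
      if allGen (fun v => (x v).1) then 0 else ∏ f, dF (g f) (fun s => x (face f s)))
      bigP (𝓝 0) := by
    refine squeeze_zero_norm (fun p => (abs_expect_le _ _).trans (le_of_eq ?_)) (nongen_prod g)
    refine expect_congr rfl fun x _ => ?_
    split_ifs
    · exact abs_zero
    · exact abs_prod _ _
  have h := (h1.add (dF_sub_DD g)).add (DD_limit g)
  rw [add_zero, zero_add] at h
  refine h.congr fun p => ?_
  rw [tH_eq, ← expect_add_distrib, ← expect_add_distrib]
  refine expect_congr rfl fun x _ => ?_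
  split_ifs <;> simp

end Vale.Agent.P050
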