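import Vale.Agent.P050.SymBasic

/-! Linear algebra for the position of a point with respect to a triple. -/

namespace Vale.Agent.P050.Pos

open scoped BigOperators
open Module LinearMap

section General

variable {F : Type} [Field F] {V V' : Type} [AddCommGroup V] [Module F V]
  [AddCommGroup V'] [Module F V']

theorem finrank_map_add [FiniteDimensional F V] (f : V →ₗ[F] V') (W : Submodule F V) :
    finrank F (W.map f) + finrank F ↥(W ⊓ ker f) = finrank F W := by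
  have h := LinearMap.finrank_range_add_finrank_ker (f.domRestrict W)
  rw [LinearMap.range_domRestrict, LinearMap.ker_domRestrict,
    ← Submodule.finrank_map_subtype_eq, Submodule.map_comap_subtype] at h
  exact h

theorem finrank_map_inj [FiniteDimensional F V] (f : V →ₗ[F] V') (hf : Function.Injective f)
    (W : Submodule F V) : finrank F (W.map f) = finrank F W := by
  have h := finrank_map_add f W
  rwa [LinearMap.ker_eq_bot.2 hf, inf_bot_eq, finrank_bot, add_zero] at h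

theorem finrank_prod' [FiniteDimensional F V] [FiniteDimensional F V'] (A : Submodule F V)
    (B : Submodule F V') : finrank F (A.prod B) = finrank F A + finrank F B := by
  have h := finrank_map_add (fst F V V') (A.prod B)
  have e : A.prod B ⊓ ker (fst F V V') = B.map (inr F V V') := by
    ext ⟨x, y⟩
    simp only [Submodule.mem_inf, Submodule.mem_prod, mem_ker, fst_apply, Submodule.mem_map,
      inr_apply, Prod.mk.injEq]
    constructor
    · rintro ⟨⟨-, h2⟩, rfl⟩; exact ⟨y, h2, rfl, rfl⟩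
    · rintro ⟨y, h2, rfl, rfl⟩; exact ⟨⟨A.zero_mem, h2⟩, rfl⟩
  rw [e, Submodule.prod_map_fst, finrank_map_inj _ LinearMap.inr_injective] at h
  exact h.symm

/-- The antidiagonal embedding. -/
def Dn (F V : Type) [Field F] [AddCommGroup V] [Module F V] : V →ₗ[F] V × V :=
  LinearMap.prod LinearMap.id (-LinearMap.id)

@[simp] theorem Dn_apply (v : V) : Dn F V v = (v, -v) := rfl

theorem Dn_inj : Function.Injective (Dn F V) := fun _ _ h => congrArg Prod.fst h

/-- Trivial syzygies. -/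
def D3 (A B C : Submodule F V) : Submodule F (V × V) := A.map (Dn F V) ⊔ B.prod C

theorem finrank_D3 [FiniteDimensional F V] (A B C : Submodule F V) :
    finrank F (D3 A B C) + finrank F ↥(A ⊓ B ⊓ C) = finrank F A + finrank F B + finrank F C := by
  have h := Submodule.finrank_sup_add_finrank_inf_eq (A.map (Dn F V)) (B.prod C)
  have e : A.map (Dn F V) ⊓ B.prod C = (A ⊓ B ⊓ C).map (Dn F V) := by
    ext ⟨x, y⟩
    simp only [Submodule.mem_inf, Submodule.mem_prod, Submodule.mem_map, Dn_apply, Prod.mk.injEq]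
    constructor
    · rintro ⟨⟨v, h1, rfl, rfl⟩, h2, h3⟩
      exact ⟨v, ⟨⟨h1, h2⟩, by simpa using h3⟩, rfl, rfl⟩
    · rintro ⟨v, ⟨⟨h1, h2⟩, h3⟩, rfl, rfl⟩
      exact ⟨⟨v, h1, rfl, rfl⟩, h2, C.neg_mem h3⟩
  rw [e, finrank_map_inj _ Dn_inj, finrank_map_inj _ Dn_inj, finrank_prod'] at h
  unfold D3
  omega

/-- Pairs with prescribed components and sum. -/
def Y3 (A B C : Submodule F V) : Submodule F (V × V) :=
  A.prod B ⊓ C.comap (fst F V V + snd F V V)

theorem mem_Y3 {A B C : Submodule F V} {x y : V} :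
    (x, y) ∈ Y3 A B C ↔ x ∈ A ∧ y ∈ B ∧ x + y ∈ C := by
  simp [Y3, and_assoc]

theorem Y3_fst [FiniteDimensional F V] (A B C : Submodule F V) :
    finrank F ((Y3 A B C).map (fst F V V)) + finrank F ↥(B ⊓ C) = finrank F (Y3 A B C) := by
  have e : Y3 A B C ⊓ ker (fst F V V) = (B ⊓ C).map (inr F V V) := by
    ext ⟨x, y⟩
    simp only [Submodule.mem_inf, mem_Y3, mem_ker, fst_apply, Submodule.mem_map,
      inr_apply, Prod.mk.injEq]
    constructor
    · rintro ⟨⟨-, h2, h3⟩, rfl⟩; exact ⟨y, ⟨h2, by simpa using h3⟩, rfl, rfl⟩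
    · rintro ⟨y, h2, rfl, rfl⟩; exact ⟨⟨A.zero_mem, h2.1, by simpa using h2.2⟩, rfl⟩
  rw [← finrank_map_add (fst F V V) (Y3 A B C), e,
    finrank_map_inj (inr F V V) LinearMap.inr_injective]

theorem Y3_snd [FiniteDimensional F V] (A B C : Submodule F V) :
    finrank F ((Y3 A B C).map (snd F V V)) + finrank F ↥(A ⊓ C) = finrank F (Y3 A B C) := by
  have e : Y3 A B C ⊓ ker (snd F V V) = (A ⊓ C).map (inl F V V) := by
    ext ⟨x, y⟩
    simp only [Submodule.mem_inf, mem_Y3, mem_ker, snd_apply, Submodule.mem_map,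
      inl_apply, Prod.mk.injEq]
    constructor
    · rintro ⟨⟨h1, -, h3⟩, rfl⟩; exact ⟨x, ⟨h1, by simpa using h3⟩, rfl, rfl⟩
    · rintro ⟨y, h2, rfl, rfl⟩; exact ⟨⟨h2.1, B.zero_mem, by simpa using h2.2⟩, rfl⟩
  rw [← finrank_map_add (snd F V V) (Y3 A B C), e,
    finrank_map_inj (inl F V V) LinearMap.inl_injective]

theorem Y3_add [FiniteDimensional F V] (A B C : Submodule F V) :
    finrank F ((Y3 A B C).map (fst F V V + snd F V V)) + finrank F ↥(A ⊓ B) =
      finrank F (Y3 A B C) := by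
  have e : Y3 A B C ⊓ ker (fst F V V + snd F V V) = (A ⊓ B).map (Dn F V) := by
    ext ⟨x, y⟩
    simp only [Submodule.mem_inf, mem_Y3, mem_ker, LinearMap.add_apply, fst_apply, snd_apply,
      Submodule.mem_map, Dn_apply, Prod.mk.injEq]
    constructor
    · rintro ⟨⟨h1, h2, -⟩, h4⟩
      obtain rfl : y = -x := eq_neg_of_add_eq_zero_right h4
      exact ⟨x, ⟨h1, by simpa using h2⟩, rfl, rfl⟩
    · rintro ⟨y, h2, rfl, rfl⟩
      exact ⟨⟨h2.1, B.neg_mem h2.2, by simp⟩, by simp⟩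
  rw [← finrank_map_add (fst F V V + snd F V V) (Y3 A B C), e, finrank_map_inj (Dn F V) Dn_inj]

theorem Y3_map_add (A B C : Submodule F V) :
    (Y3 A B C).map (fst F V V + snd F V V) = (A ⊔ B) ⊓ C := by
  ext v
  simp only [Submodule.mem_map, Submodule.mem_inf, Submodule.mem_sup]
  constructor
  · rintro ⟨⟨x, y⟩, h, rfl⟩
    rw [mem_Y3] at h
    exact ⟨⟨x, h.1, y, h.2.1, rfl⟩, h.2.2⟩
  · rintro ⟨⟨x, hx, y, hy, rfl⟩, h⟩
    exact ⟨(x, y), mem_Y3.2 ⟨hx, hy, h⟩, rfl⟩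

theorem Y3_fst_le (A B C : Submodule F V) : (Y3 A B C).map (fst F V V) ≤ A := by
  rintro _ ⟨⟨x, y⟩, h, rfl⟩; exact (mem_Y3.1 h).1

theorem Y3_snd_le (A B C : Submodule F V) : (Y3 A B C).map (snd F V V) ≤ B := by
  rintro _ ⟨⟨x, y⟩, h, rfl⟩; exact (mem_Y3.1 h).2.1

theorem D3_le_Y3 (A B C : Submodule F V) : D3 (A ⊓ B) (A ⊓ C) (B ⊓ C) ≤ Y3 A B C := by
  refine sup_le ?_ ?_
  · rintro _ ⟨v, h, rfl⟩
    exact mem_Y3.2 ⟨h.1, B.neg_mem h.2, by simp⟩
  · rintro ⟨x, y⟩ ⟨h1, h2⟩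
    exact mem_Y3.2 ⟨h1.1, h2.1, C.add_mem h1.2 h2.2⟩

theorem D3_mono {A B C A' B' C' : Submodule F V} (h1 : A ≤ A') (h2 : B ≤ B') (h3 : C ≤ C') :
    D3 A B C ≤ D3 A' B' C' :=
  sup_le_sup (Submodule.map_mono h1) (Submodule.prod_mono h2 h3)

end General

variable {F : Type} [Field F]

/-- The linear map of a symmetric matrix. -/
def L (x : X F) : (Ix → F) →ₗ[F] (Ix → F) := Matrix.toLin' (mat x)

theorem L_sub (x y : X F) (v : Ix → F) : L (x - y) v = L x v - L y v := by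
  simp [L, mat_sub]

theorem memK {x y : X F} {v : Ix → F} : v ∈ K x y ↔ L x v = L y v := mem_K

theorem ker_L (x y : X F) : ker (L (x - y)) = K x y := rfl

theorem L_symm (x : X F) (u v : Ix → F) : u ⬝ᵥ L x v = L x u ⬝ᵥ v := by
  simp only [L, Matrix.toLin'_apply]
  rw [Matrix.dotProduct_mulVec, ← Matrix.mulVec_transpose, (mat_isSymm x).eq]

/-- Orthogonal complement for the dot product. -/
noncomputable def perp (W : Submodule F (Ix → F)) : Submodule F (Ix → F) :=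
  (Matrix.toBilin' (1 : Matrix Ix Ix F)).orthogonal W

theorem mem_perp {W : Submodule F (Ix → F)} {v : Ix → F} :
    v ∈ perp W ↔ ∀ w ∈ W, w ⬝ᵥ v = 0 := by
  simp [perp, LinearMap.BilinForm.mem_orthogonal_iff, Matrix.toBilin'_apply']

theorem dot_nondeg : (Matrix.toBilin' (1 : Matrix Ix Ix F)).Nondegenerate :=
  Matrix.Nondegenerate.toBilin' (Matrix.nondegenerate_of_det_ne_zero (by simp))

theorem finrank_perp (W : Submodule F (Ix → F)) : finrank F (perp W) + finrank F W = 8 := by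
  have h1 := LinearMap.BilinForm.finrank_orthogonal dot_nondeg W
  have h2 := Submodule.finrank_le W
  rw [finrank_E] at h1 h2
  unfold perp
  omega

theorem perp_perp (W : Submodule F (Ix → F)) : perp (perp W) = W := by
  symm
  refine Submodule.eq_of_le_of_finrank_eq ?_ ?_
  · intro w hw
    rw [mem_perp]
    intro v hv
    rw [dotProduct_comm]
    exact mem_perp.1 hv w hw
  · have := finrank_perp W
    have := finrank_perp (perp W)
    omega

theorem perp_range (x : X F) : perp (range (L x)) = ker (L x) := by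
  ext v
  rw [mem_perp, mem_ker]
  constructor
  · intro h
    funext i
    have := h (L x (Pi.single i 1)) ⟨_, rfl⟩
    rw [← L_symm] at this
    simpa using this
  · rintro h _ ⟨u, rfl⟩
    rw [← L_symm, h, dotProduct_zero]

theorem perp_sup (A B : Submodule F (Ix → F)) : perp (A ⊔ B) = perp A ⊓ perp B := by
  ext v
  simp only [Submodule.mem_inf, mem_perp]
  constructor
  · intro h
    exact ⟨fun w hw => h w (Submodule.mem_sup_left hw), fun w hw => h w (Submodule.mem_sup_right hw)⟩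
  · rintro ⟨h1, h2⟩ w hw
    obtain ⟨a, ha, b, hb, rfl⟩ := Submodule.mem_sup.1 hw
    rw [add_dotProduct, h1 a ha, h2 b hb, add_zero]

theorem K_inf (x y z : X F) : K x y ⊓ K x z = K x y ⊓ K y z := by
  ext v
  simp only [Submodule.mem_inf, memK]
  constructor
  · rintro ⟨h1, h2⟩; exact ⟨h1, h1.symm.trans h2⟩
  · rintro ⟨h1, h2⟩; exact ⟨h1, h1.trans h2⟩

theorem K_inf' (x y z : X F) : K x z ⊓ K y z = K x y ⊓ K x z := by
  ext v
  simp only [Submodule.mem_inf, memK]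
  constructor
  · rintro ⟨h1, h2⟩; exact ⟨h1.trans h2.symm, h1⟩
  · rintro ⟨h1, h2⟩; exact ⟨h2, h1.symm.trans h2⟩

theorem K_inf_le (x y z : X F) : K x y ⊓ K x z ≤ K y z := by
  rw [K_inf]; exact inf_le_right

/-- Syzygies. -/
def Syz (u1 u2 u3 : X F) : Submodule F ((Ix → F) × (Ix → F)) :=
  ker ((L (u1 - u3)).coprod (L (u2 - u3)))

theorem mem_Syz {u1 u2 u3 : X F} {x y : Ix → F} :
    (x, y) ∈ Syz u1 u2 u3 ↔ L (u1 - u3) x + L (u2 - u3) y = 0 := by
  simp [Syz]

theorem finrank_Syz (u1 u2 u3 : X F) : finrank F (Syz u1 u2 u3) = 8 + dK3 u1 u2 u3 := by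
  have h1 := LinearMap.finrank_range_add_finrank_ker ((L (u1 - u3)).coprod (L (u2 - u3)))
  have h2 := finrank_perp (range (L (u1 - u3)) ⊔ range (L (u2 - u3)))
  rw [perp_sup, perp_range, perp_range, ker_L, ker_L, K_inf'] at h2
  rw [LinearMap.range_coprod, Module.finrank_prod, finrank_E] at h1
  unfold Syz dK3
  omega

/-- The symmetric form on pairs. -/
noncomputable def BB (u1 u2 u3 : X F) : LinearMap.BilinForm F ((Ix → F) × (Ix → F)) :=
  (Matrix.toBilin' (mat (u2 - u3))).compl₁₂ (snd F _ _) (snd F _ _) -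
    (Matrix.toBilin' (mat (u1 - u3))).compl₁₂ (fst F _ _) (fst F _ _)

theorem BB_apply (u1 u2 u3 : X F) (x y x' y' : Ix → F) :
    BB u1 u2 u3 (x, y) (x', y') = y ⬝ᵥ L (u2 - u3) y' - x ⬝ᵥ L (u1 - u3) x' := by
  simp [BB, L, Matrix.toBilin'_apply']

theorem BB_symm (u1 u2 u3 : X F) : (BB u1 u2 u3).IsSymm := by
  refine ⟨fun ⟨x, y⟩ ⟨x', y'⟩ => ?_⟩
  rw [BB_apply, BB_apply, L_symm _ y, L_symm _ x, dotProduct_comm _ y', dotProduct_comm _ x']

theorem L_of_K {z u u3 : X F} {x : Ix → F} (h : x ∈ K z u) : L (u - u3) x = L (z - u3) x := by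
  rw [L_sub, L_sub, memK.1 h]

theorem Y_le_Syz (u1 u2 u3 z : X F) : Y3 (K z u1) (K z u2) (K z u3) ≤ Syz u1 u2 u3 := by
  rintro ⟨x, y⟩ h
  obtain ⟨h1, h2, h3⟩ := mem_Y3.1 h
  rw [mem_Syz, L_of_K h1, L_of_K h2, ← map_add]
  exact h3

theorem Y_iso (u1 u2 u3 z : X F) : ∀ p ∈ Y3 (K z u1) (K z u2) (K z u3),
    ∀ p' ∈ Y3 (K z u1) (K z u2) (K z u3), BB u1 u2 u3 p p' = 0 := by
  rintro ⟨x, y⟩ h ⟨x', y'⟩ h'
  obtain ⟨-, -, h3⟩ := mem_Y3.1 h
  obtain ⟨h1', h2', h3'⟩ := mem_Y3.1 h'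
  have e : L (z - u3) (x + y) = 0 := h3
  have e' : L (z - u3) (x' + y') = 0 := h3'
  rw [map_add] at e'
  rw [BB_apply, L_of_K h1', L_of_K h2', eq_neg_of_add_eq_zero_right e', dotProduct_neg,
    ← neg_add', ← add_dotProduct, L_symm, add_comm, e, zero_dotProduct, neg_zero]

theorem D3_le_orth (u1 u2 u3 : X F) :
    D3 (K u1 u2) (K u1 u3) (K u2 u3) ≤ (BB u1 u2 u3).orthogonal (Syz u1 u2 u3) := by
  refine sup_le ?_ ?_
  · rintro _ ⟨v, -, rfl⟩ ⟨x, y⟩ h
    rw [mem_Syz] at h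
    change BB u1 u2 u3 (x, y) (v, -v) = 0
    rw [(BB_symm u1 u2 u3).eq, BB_apply, neg_dotProduct, ← neg_add', ← dotProduct_add, add_comm,
      h, dotProduct_zero, neg_zero]
  · rintro ⟨v, w⟩ ⟨h1, h2⟩ ⟨x, y⟩ _
    change BB u1 u2 u3 (x, y) (v, w) = 0
    have e1 : L (u1 - u3) v = 0 := h1
    have e2 : L (u2 - u3) w = 0 := h2
    rw [BB_apply, e1, e2]; simp

theorem rad_le_D3 (u1 u2 u3 : X F) :
    Syz u1 u2 u3 ⊓ (BB u1 u2 u3).orthogonal (Syz u1 u2 u3) ≤
      D3 (K u1 u2) (K u1 u3) (K u2 u3) := by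
  rintro ⟨x, y⟩ ⟨h1, h2⟩
  have h1' := mem_Syz.1 h1
  have h3 : L (u2 - u3) x - L (u1 - u3) x ∈ perp (perp ((K u1 u3).map (L (u2 - u3)))) := by
    rw [mem_perp]
    intro y' hy'
    have h4 : -L (u2 - u3) y' ∈ range (L (u1 - u3)) := by
      rw [← perp_perp (range _), perp_range, ker_L, mem_perp]
      intro w hw
      rw [dotProduct_neg, L_symm, mem_perp.1 hy' _ ⟨w, hw, rfl⟩, neg_zero]
    obtain ⟨x', hx'⟩ := h4
    have h5 : BB u1 u2 u3 (x', y') (x, y) = 0 := h2 (x', y') (mem_Syz.2 (by rw [hx']; simp))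
    rw [BB_apply, eq_neg_of_add_eq_zero_right h1', L_symm _ x', hx', neg_dotProduct,
      ← L_symm, dotProduct_neg] at h5
    rw [dotProduct_sub]
    linear_combination h5
  rw [perp_perp] at h3
  obtain ⟨v, hv, hv'⟩ := h3
  have e1 : L (u1 - u3) v = 0 := hv
  have h6 : x - v ∈ K u1 u2 := by
    rw [memK, map_sub, map_sub]
    simp only [L_sub] at hv' e1
    linear_combination (exp := 1) hv' - e1
  have h7 : y + (x - v) ∈ K u2 u3 := by
    change L (u2 - u3) (y + (x - v)) = 0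
    rw [map_add, map_sub]
    linear_combination (exp := 1) h1' - hv'
  refine Submodule.mem_sup.2 ⟨Dn F _ (x - v), ⟨_, h6, rfl⟩, (v, y + (x - v)), ⟨hv, h7⟩, ?_⟩
  rw [Dn_apply, Prod.mk_add_mk, Prod.mk.injEq]
  constructor <;> abel

theorem le_perp_map {u1 u2 z : X F} {A B : Submodule F (Ix → F)} (hA : A ≤ K z u1)
    (hB : B ≤ K z u2) : A ≤ perp (B.map (L (u1 - u2))) ∧ B ≤ perp (A.map (L (u1 - u2))) := by
  have key : ∀ x ∈ A, ∀ y ∈ B, x ⬝ᵥ L (u1 - u2) y = 0 := by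
    intro x hx y hy
    rw [L_sub, dotProduct_sub, L_symm u1, ← memK.1 (hA hx), ← memK.1 (hB hy), L_symm, sub_self]
  constructor
  · intro x hx
    rw [mem_perp]
    rintro _ ⟨y, hy, rfl⟩
    rw [dotProduct_comm]; exact key x hx y hy
  · intro y hy
    rw [mem_perp]
    rintro _ ⟨x, hx, rfl⟩
    rw [← L_symm]; exact key x hx y hy

theorem snd_inf (u1 u2 u3 z : X F) :
    (Y3 (K z u1) (K z u2) (K z u3)).map (snd F _ _) ⊓ K u1 u2 = K z u1 ⊓ K z u2 := by
  refine le_antisymm ?_ (le_inf ?_ (K_inf_le _ _ _))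
  · rintro y ⟨h1, h2⟩
    have h3 := Y3_snd_le _ _ _ h1
    exact ⟨memK.2 ((memK.1 h3).trans (memK.1 h2).symm), h3⟩
  · rintro y ⟨h1, h2⟩
    exact ⟨(-y, y), mem_Y3.2 ⟨Submodule.neg_mem _ h1, h2, by simp⟩, rfl⟩

theorem map_sup_eq (u1 u2 u3 z : X F) :
    (K z u1).map (L (u1 - u3)) ⊔ (K z u2).map (L (u2 - u3)) =
      (K z u1 ⊔ K z u2).map (L (z - u3)) := by
  have key : ∀ u : X F, (K z u).map (L (u - u3)) = (K z u).map (L (z - u3)) := by
    intro u
    ext v
    constructor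
    · rintro ⟨x, hx, rfl⟩; exact ⟨x, hx, (L_of_K hx).symm⟩
    · rintro ⟨x, hx, rfl⟩; exact ⟨x, hx, L_of_K hx⟩
  rw [key, key, Submodule.map_sup]

theorem K_le_perp (z u : X F) (W : Submodule F (Ix → F)) : K z u ≤ perp (W.map (L (z - u))) := by
  intro v hv
  rw [mem_perp]
  rintro _ ⟨w, -, rfl⟩
  have : L (z - u) v = 0 := hv
  rw [← L_symm, this, dotProduct_zero]

end Vale.Agent.P050.Pos
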