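import Vale.Agent.P050.Chain
import Vale.Agent.P050.SymBasic
import Vale.Agent.P050.PositionAux

/-! Position of a point with respect to a triple of symmetric matrices. -/

namespace Vale.Agent.P050

open scoped BigOperators
open Finset Module

set_option linter.unusedSectionVars false

namespace Pos

open LinearMap

/-- A function is constant on a set. -/
def Cst {α β : Type} (Z : Set α) (f : α → β) : Prop := ∀ z ∈ Z, ∀ z' ∈ Z, f z = f z'

theorem Cst.mono {α β : Type} {Z Z' : Set α} {f : α → β} (h : Cst Z f) (hZ : Z' ⊆ Z) :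
    Cst Z' f := fun z hz z' hz' => h z (hZ hz) z' (hZ hz')

theorem fibre {α β : Type} [Finite α] [Finite β] (Z : Set α) (f : α → β) (t : Set β) (w M : ℕ)
    (h1 : ∀ z ∈ Z, f z ∈ t) (h2 : ∀ Z' ⊆ Z, Cst Z' f → Z'.ncard * w ≤ M) :
    Z.ncard * w ≤ t.ncard * M := by
  have key := dcount Z t (fun z b => f z = b) 1 M w
    (fun z hz => (Set.ncard_pos (Set.toFinite _)).2 ⟨f z, h1 z hz, rfl⟩)
    (fun b _ => h2 _ (fun z hz => hz.1) fun z hz z' hz' => hz.2.trans hz'.2.symm)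
  rwa [mul_one] at key

variable {F : Type} [Field F] [Fintype F] [DecidableEq F]

theorem gstep {α V : Type} [Finite α] [AddCommGroup V] [Module F V] [FiniteDimensional F V]
    (hV : finrank F V ≤ 16) (Z : Set α) (f S T : α → Submodule F V) (m e w M : ℕ)
    (h : ∀ z ∈ Z, S z ≤ f z ∧ f z ≤ T z ∧ finrank F (f z) = m ∧
      (m - finrank F (S z)) * (finrank F (T z) - m) = e)
    (hS : Cst Z S) (hT : Cst Z T) (h2 : ∀ Z' ⊆ Z, Cst Z' f → Z'.ncard * w ≤ M) :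
    Z.ncard * w ≤ 2 ^ 16 * Fintype.card F ^ e * M := by
  have := finite_sub (F := F) (V := V)
  rcases Z.eq_empty_or_nonempty with rfl | ⟨z0, hz0⟩
  · simp
  refine (fibre Z f {N | S z0 ≤ N ∧ N ≤ T z0 ∧ finrank F N = m} w M (fun z hz => ?_) h2).trans
    (Nat.mul_le_mul_right _ ((grass_le _ _ _).trans ?_))
  · rw [hS z0 hz0 z hz, hT z0 hz0 z hz]
    exact ⟨(h z hz).1, (h z hz).2.1, (h z hz).2.2.1⟩
  · rw [(h z0 hz0).2.2.2]
    have h3 := Submodule.finrank_le (f z0)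
    rw [(h z0 hz0).2.2.1] at h3
    exact Nat.mul_le_mul_right _ (Nat.pow_le_pow_right (by norm_num) (by omega))

variable (u1 u2 u3 : X F)

/-- Common kernel. -/
def fI (z : X F) : Submodule F (Ix → F) :=
  (K z u1 ⊓ K z u2) ⊓ (K z u1 ⊓ K z u3) ⊓ (K z u2 ⊓ K z u3)

/-- The isotropic subspace attached to a point. -/
def fY (z : X F) : Submodule F ((Ix → F) × (Ix → F)) := Y3 (K z u1) (K z u2) (K z u3)

/-- Its part in the radical. -/
noncomputable def fY0 (z : X F) : Submodule F ((Ix → F) × (Ix → F)) :=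
  fY u1 u2 u3 z ⊓ (BB u1 u2 u3).orthogonal (Syz u1 u2 u3)

/-- The parameters of a point. -/
noncomputable def par (z : X F) : Par :=
  ⟨finrank F (fI u1 u2 u3 z), dK3 z u1 u2, dK3 z u1 u3, dK3 z u2 u3, finrank F (fY0 u1 u2 u3 z),
    finrank F (fY u1 u2 u3 z), dK z u1, dK z u2, dK z u3⟩

theorem fact_S0 (z : X F) :
    finrank F (D3 (K z u1 ⊓ K z u2) (K z u1 ⊓ K z u3) (K z u2 ⊓ K z u3)) + (par u1 u2 u3 z).i =
      (par u1 u2 u3 z).i12 + (par u1 u2 u3 z).i13 + (par u1 u2 u3 z).i23 := finrank_D3 _ _ _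

theorem fact_R : finrank F (D3 (K u1 u2) (K u1 u3) (K u2 u3)) + dK3 u1 u2 u3 =
    dK u1 u2 + dK u1 u3 + dK u2 u3 := by
  have h := finrank_D3 (K u1 u2) (K u1 u3) (K u2 u3)
  rwa [inf_eq_left.2 (K_inf_le u1 u2 u3)] at h

theorem S0_le (z : X F) :
    D3 (K z u1 ⊓ K z u2) (K z u1 ⊓ K z u3) (K z u2 ⊓ K z u3) ≤ fY0 u1 u2 u3 z :=
  le_inf (D3_le_Y3 _ _ _) ((D3_mono (K_inf_le _ _ _) (K_inf_le _ _ _) (K_inf_le _ _ _)).trans
    (D3_le_orth u1 u2 u3))

theorem Y0_le (z : X F) : fY0 u1 u2 u3 z ≤ D3 (K u1 u2) (K u1 u3) (K u2 u3) :=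
  (inf_le_inf_right _ (Y_le_Syz u1 u2 u3 z)).trans (rad_le_D3 u1 u2 u3)

theorem fact_fst (z : X F) : finrank F ((fY u1 u2 u3 z).map (fst F _ _)) + (par u1 u2 u3 z).i23 =
    (par u1 u2 u3 z).y := Y3_fst _ _ _

theorem fact_snd (z : X F) : finrank F ((fY u1 u2 u3 z).map (snd F _ _)) + (par u1 u2 u3 z).i13 =
    (par u1 u2 u3 z).y := Y3_snd _ _ _

theorem fact_add (z : X F) : finrank F ((fY u1 u2 u3 z).map (fst F _ _ + snd F _ _)) +
    (par u1 u2 u3 z).i12 = (par u1 u2 u3 z).y := Y3_add _ _ _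

theorem fact_T1 (z : X F) :
    finrank F (perp (((fY u1 u2 u3 z).map (snd F _ _)).map (L (u1 - u2)))) + (par u1 u2 u3 z).y =
      8 + (par u1 u2 u3 z).i12 + (par u1 u2 u3 z).i13 := by
  have h1 := finrank_perp (((fY u1 u2 u3 z).map (snd F _ _)).map (L (u1 - u2)))
  have h2 := finrank_map_add (L (u1 - u2)) ((fY u1 u2 u3 z).map (snd F _ _))
  have h3 := fact_snd u1 u2 u3 z
  have h4 : finrank F ↥((fY u1 u2 u3 z).map (snd F _ _) ⊓ ker (L (u1 - u2))) =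
      (par u1 u2 u3 z).i12 := by rw [ker_L, fY, snd_inf]; rfl
  omega

theorem fact_T2 (z : X F) :
    finrank F (perp ((K z u1).map (L (u1 - u2)))) + (par u1 u2 u3 z).j1 =
      8 + (par u1 u2 u3 z).i12 := by
  have h1 := finrank_perp ((K z u1).map (L (u1 - u2)))
  have h2 := finrank_map_add (L (u1 - u2)) (K z u1)
  have h4 : finrank F ↥(K z u1 ⊓ ker (L (u1 - u2))) = (par u1 u2 u3 z).i12 := by
    rw [ker_L, ← K_inf]; rfl
  have h5 : finrank F (K z u1) = (par u1 u2 u3 z).j1 := rfl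
  omega

theorem fact_sup (z : X F) : finrank F ↥(K z u1 ⊔ K z u2) + (par u1 u2 u3 z).i12 =
    (par u1 u2 u3 z).j1 + (par u1 u2 u3 z).j2 := Submodule.finrank_sup_add_finrank_inf_eq _ _

theorem fact_T3 (z : X F) :
    finrank F (perp ((K z u1).map (L (u1 - u3)) ⊔ (K z u2).map (L (u2 - u3)))) +
      (par u1 u2 u3 z).j1 + (par u1 u2 u3 z).j2 = 8 + (par u1 u2 u3 z).y := by
  rw [map_sup_eq]
  have h1 := finrank_perp ((K z u1 ⊔ K z u2).map (L (z - u3)))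
  have h2 := finrank_map_add (L (z - u3)) (K z u1 ⊔ K z u2)
  have h3 := fact_sup u1 u2 u3 z
  have h4 := fact_add u1 u2 u3 z
  rw [fY, Y3_map_add] at h4
  rw [ker_L] at h2
  omega

theorem fact_W (z : X F) : finrank F ↥(K z u1 ⊔ K z u2 ⊔ K z u3) + (par u1 u2 u3 z).y =
    (par u1 u2 u3 z).j1 + (par u1 u2 u3 z).j2 + (par u1 u2 u3 z).j3 := by
  have h1 := Submodule.finrank_sup_add_finrank_inf_eq (K z u1 ⊔ K z u2) (K z u3)
  have h3 := fact_sup u1 u2 u3 z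
  have h4 := fact_add u1 u2 u3 z
  rw [fY, Y3_map_add] at h4
  have h5 : finrank F (K z u3) = (par u1 u2 u3 z).j3 := rfl
  omega

theorem I_le (z : X F) : fI u1 u2 u3 z ≤ K u1 u2 ⊓ K u1 u3 :=
  le_inf ((inf_le_left.trans inf_le_left).trans (K_inf_le _ _ _))
    ((inf_le_left.trans inf_le_right).trans (K_inf_le _ _ _))

theorem A1_le (z : X F) :
    K z u1 ≤ perp (((fY u1 u2 u3 z).map (snd F _ _)).map (L (u1 - u2))) :=
  (le_perp_map le_rfl (Y3_snd_le _ _ _)).1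

theorem A2_le (z : X F) : K z u2 ≤ perp ((K z u1).map (L (u1 - u2))) :=
  (le_perp_map le_rfl le_rfl).2

theorem A3_le (z : X F) :
    K z u3 ≤ perp ((K z u1).map (L (u1 - u3)) ⊔ (K z u2).map (L (u2 - u3))) := by
  rw [map_sup_eq]; exact K_le_perp _ _ _

theorem add_le (z : X F) : (fY u1 u2 u3 z).map (fst F _ _ + snd F _ _) ≤ K z u3 := by
  rw [fY, Y3_map_add]; exact inf_le_right

end Pos

open Pos

variable {F : Type} [Field F] [Fintype F] [DecidableEq F]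

/-- TASK C1. -/
theorem tvalid_ty (x y z : X F) : tvalid (dK3 x y z) (dK x y) (dK x z) (dK y z) := by
  refine ⟨Submodule.finrank_mono inf_le_left, Submodule.finrank_mono inf_le_right,
    Submodule.finrank_mono (K_inf_le x y z), ?_⟩
  have h1 : K x y ⊔ K x z ≤ perp ((K y z).map (L (x - y))) := by
    refine sup_le (K_le_perp _ _ _) fun v hv => ?_
    rw [mem_perp]
    rintro _ ⟨w, hw, rfl⟩
    have e : L (x - z) v = 0 := hv
    rw [L_sub, memK.1 hw, ← L_sub, ← L_symm, e, dotProduct_zero]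
  have h2 := Submodule.finrank_mono h1
  have h3 := finrank_perp ((K y z).map (L (x - y)))
  have h4 := finrank_map_add (L (x - y)) (K y z)
  rw [ker_L, inf_comm, ← K_inf] at h4
  have h5 := Submodule.finrank_sup_add_finrank_inf_eq (K x y) (K x z)
  unfold dK3 dK
  omega

theorem par_valid (u1 u2 u3 z : X F) :
    pvalid (dK3 u1 u2 u3) (dK u1 u2) (dK u1 u3) (dK u2 u3) (par u1 u2 u3 z) := by
  have a1 := fact_S0 u1 u2 u3 z
  have a2 := fact_R u1 u2 u3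
  have a3 := fact_fst u1 u2 u3 z
  have a4 := fact_snd u1 u2 u3 z
  have a5 := fact_add u1 u2 u3 z
  have a6 := fact_T1 u1 u2 u3 z
  have a7 := fact_T2 u1 u2 u3 z
  have a8 := fact_T3 u1 u2 u3 z
  have b1 : _ ≤ (par u1 u2 u3 z).y0 := Submodule.finrank_mono (S0_le u1 u2 u3 z)
  have b2 : (par u1 u2 u3 z).y0 ≤ _ := Submodule.finrank_mono (Y0_le u1 u2 u3 z)
  have b3 : (par u1 u2 u3 z).y ≤ _ := Submodule.finrank_mono (Y_le_Syz u1 u2 u3 z)
  rw [finrank_Syz] at b3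
  have b4 : finrank F ((fY u1 u2 u3 z).map (LinearMap.fst F _ _)) ≤ (par u1 u2 u3 z).j1 :=
    Submodule.finrank_mono (Y3_fst_le _ _ _)
  have b5 : finrank F ((fY u1 u2 u3 z).map (LinearMap.snd F _ _)) ≤ (par u1 u2 u3 z).j2 :=
    Submodule.finrank_mono (Y3_snd_le _ _ _)
  have b6 : _ ≤ (par u1 u2 u3 z).j3 := Submodule.finrank_mono (add_le u1 u2 u3 z)
  have b7 : (par u1 u2 u3 z).j1 ≤ _ := Submodule.finrank_mono (A1_le u1 u2 u3 z)
  have b8 : (par u1 u2 u3 z).j2 ≤ _ := Submodule.finrank_mono (A2_le u1 u2 z)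
  have b9 : (par u1 u2 u3 z).j3 ≤ _ := Submodule.finrank_mono (A3_le u1 u2 u3 z)
  refine ⟨Submodule.finrank_mono (I_le u1 u2 u3 z),
    Submodule.finrank_mono (inf_le_left.trans inf_le_left),
    Submodule.finrank_mono (K_inf_le _ _ _),
    Submodule.finrank_mono (inf_le_left.trans inf_le_right),
    Submodule.finrank_mono (K_inf_le _ _ _), Submodule.finrank_mono inf_le_right,
    Submodule.finrank_mono (K_inf_le _ _ _), by omega, by omega,
    Submodule.finrank_mono inf_le_left, b3, by omega, by omega, by omega, by omega, by omega,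
    by omega, tvalid_ty z u1 u2, tvalid_ty z u1 u3, tvalid_ty z u2 u3⟩

/-- TASK C2. -/
theorem position (hF : ringChar F ≠ 2) (u1 u2 u3 : X F) :
    ∃ par : X F → Par,
      (∀ z, pvalid (dK3 u1 u2 u3) (dK u1 u2) (dK u1 u3) (dK u2 u3) (par z) ∧
        (par z).j1 = dK z u1 ∧ (par z).j2 = dK z u2 ∧ (par z).j3 = dK z u3 ∧
        (par z).i12 = dK3 z u1 u2 ∧ (par z).i13 = dK3 z u1 u3 ∧ (par z).i23 = dK3 z u2 u3) ∧
      ∀ π : Par, (univ.filter fun z => par z = π).card * Fintype.card F ^ expoNeg π ≤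
        2 ^ 200 * Fintype.card F ^
          expoPos (dK3 u1 u2 u3) (dK u1 u2) (dK u1 u3) (dK u2 u3) π := by
  refine ⟨par u1 u2 u3, fun z => ⟨par_valid u1 u2 u3 z, rfl, rfl, rfl, rfl, rfl, rfl⟩, fun π => ?_⟩
  have hE : finrank F (Ix → F) ≤ 16 := by rw [finrank_E]; norm_num
  have hE2 : finrank F ((Ix → F) × (Ix → F)) ≤ 16 := by rw [Module.finrank_prod, finrank_E]
  have s10 : ∀ Z : Set (X F), (∀ z ∈ Z, par u1 u2 u3 z = π) → Cst Z (fun z => K z u1) →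
      Cst Z (fun z => K z u2) → Cst Z (fun z => K z u3) → Z.ncard * 1 ≤ Fintype.card F ^
        ((8 + π.y - (π.j1 + π.j2 + π.j3)) * (9 + π.y - (π.j1 + π.j2 + π.j3)) / 2) := by
    intro Z hp h1 h2 h3
    rcases Z.eq_empty_or_nonempty with rfl | ⟨z0, hz0⟩
    · simp
    have k1 := vanish_le (K z0 u1 ⊔ K z0 u2 ⊔ K z0 u3)
    have k2 := fact_W u1 u2 u3 z0
    rw [hp z0 hz0] at k2
    rw [show 8 + π.y - (π.j1 + π.j2 + π.j3) = 8 - finrank F ↥(K z0 u1 ⊔ K z0 u2 ⊔ K z0 u3) by omega,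
      show 9 + π.y - (π.j1 + π.j2 + π.j3) = 9 - finrank F ↥(K z0 u1 ⊔ K z0 u2 ⊔ K z0 u3) by omega,
      mul_one]
    refine le_trans (Set.ncard_le_ncard_of_injOn (fun z => z - z0) ?_ ?_) k1
    · intro z hz
      have key : ∀ u, K z0 u = K z u → K z0 u ≤ K z z0 := fun u h v hv =>
        memK.2 ((memK.1 (h ▸ hv)).trans (memK.1 hv).symm)
      exact sup_le (sup_le (key u1 (h1 z0 hz0 z hz)) (key u2 (h2 z0 hz0 z hz)))
        (key u3 (h3 z0 hz0 z hz))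
    · intro z _ z' _ h
      exact sub_left_injective h
  have s9 := fun (Z : Set (X F)) (hp : ∀ z ∈ Z, par u1 u2 u3 z = π) (hY : Cst Z (fY u1 u2 u3))
      (h1 : Cst Z (fun z => K z u1)) (h2 : Cst Z (fun z => K z u2)) =>
    gstep hE Z (fun z => K z u3)
      (fun z => (fY u1 u2 u3 z).map (LinearMap.fst F _ _ + LinearMap.snd F _ _))
      (fun z => perp ((K z u1).map (L (u1 - u3)) ⊔ (K z u2).map (L (u2 - u3)))) π.j3
      ((π.j3 + π.i12 - π.y) * (8 + π.y - (π.j1 + π.j2 + π.j3))) 1 _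
      (fun z hz => ⟨add_le u1 u2 u3 z, A3_le u1 u2 u3 z, congrArg Par.j3 (hp z hz), by
        have k1 := fact_add u1 u2 u3 z
        have k2 := fact_T3 u1 u2 u3 z
        rw [hp z hz] at k1 k2
        congr 1 <;> omega⟩)
      (fun z hz z' hz' => by simp only [hY z hz z' hz'])
      (fun z hz z' hz' => by
        have k1 : K z u1 = K z' u1 := h1 z hz z' hz'
        have k2 : K z u2 = K z' u2 := h2 z hz z' hz'
        simp only [k1, k2])
      (fun Z' hZ' h3 => s10 Z' (fun z hz => hp z (hZ' hz)) (h1.mono hZ') (h2.mono hZ') h3)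
  have s8 := fun (Z : Set (X F)) (hp : ∀ z ∈ Z, par u1 u2 u3 z = π) (hY : Cst Z (fY u1 u2 u3))
      (h1 : Cst Z (fun z => K z u1)) =>
    gstep hE Z (fun z => K z u2) (fun z => (fY u1 u2 u3 z).map (LinearMap.snd F _ _))
      (fun z => perp ((K z u1).map (L (u1 - u2)))) π.j2
      ((π.j2 + π.i13 - π.y) * (8 + π.i12 - (π.j1 + π.j2))) 1 _
      (fun z hz => ⟨Y3_snd_le _ _ _, A2_le u1 u2 z, congrArg Par.j2 (hp z hz), by
        have k1 := fact_snd u1 u2 u3 z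
        have k2 := fact_T2 u1 u2 u3 z
        rw [hp z hz] at k1 k2
        congr 1 <;> omega⟩)
      (fun z hz z' hz' => by simp only [hY z hz z' hz'])
      (fun z hz z' hz' => by
        have k1 : K z u1 = K z' u1 := h1 z hz z' hz'
        simp only [k1])
      (fun Z' hZ' h2 => s9 Z' (fun z hz => hp z (hZ' hz)) (hY.mono hZ') (h1.mono hZ') h2)
  have s7 := fun (Z : Set (X F)) (hp : ∀ z ∈ Z, par u1 u2 u3 z = π) (hY : Cst Z (fY u1 u2 u3)) =>
    gstep hE Z (fun z => K z u1) (fun z => (fY u1 u2 u3 z).map (LinearMap.fst F _ _))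
      (fun z => perp (((fY u1 u2 u3 z).map (LinearMap.snd F _ _)).map (L (u1 - u2)))) π.j1
      ((π.j1 + π.i23 - π.y) * (8 + π.i12 + π.i13 - (π.j1 + π.y))) 1 _
      (fun z hz => ⟨Y3_fst_le _ _ _, A1_le u1 u2 u3 z, congrArg Par.j1 (hp z hz), by
        have k1 := fact_fst u1 u2 u3 z
        have k2 := fact_T1 u1 u2 u3 z
        rw [hp z hz] at k1 k2
        congr 1 <;> omega⟩)
      (fun z hz z' hz' => by simp only [hY z hz z' hz'])
      (fun z hz z' hz' => by simp only [hY z hz z' hz'])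
      (fun Z' hZ' h1 => s8 Z' (fun z hz => hp z (hZ' hz)) (hY.mono hZ') h1)
  have s6 : ∀ M, (∀ Z : Set (X F), (∀ z ∈ Z, par u1 u2 u3 z = π) → Cst Z (fY u1 u2 u3) →
        Z.ncard * 1 ≤ M) →
      ∀ Z : Set (X F), (∀ z ∈ Z, par u1 u2 u3 z = π) → Cst Z (fY0 u1 u2 u3) →
        Z.ncard * Fintype.card F ^ expoNeg π ≤
          2 ^ 32 * Fintype.card F ^ ((π.y - π.y0) * (8 + dK3 u1 u2 u3 - π.y)) * M := by
    intro M hM Z hp h0
    have := finite_sub (F := F) (V := (Ix → F) × (Ix → F))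
    rcases Z.eq_empty_or_nonempty with rfl | ⟨z0, hz0⟩
    · simp
    have k1 := iso_le hF (BB u1 u2 u3) (BB_symm u1 u2 u3) (fY0 u1 u2 u3 z0) (Syz u1 u2 u3) π.y
    have k2 : finrank F (fY0 u1 u2 u3 z0) = π.y0 := congrArg Par.y0 (hp z0 hz0)
    have k3 : finrank F (fY u1 u2 u3 z0) = π.y := congrArg Par.y (hp z0 hz0)
    have k4 := Submodule.finrank_le (fY u1 u2 u3 z0)
    rw [k2, finrank_Syz] at k1
    have k5 := fibre Z (fY u1 u2 u3) {M : Submodule F ((Ix → F) × (Ix → F)) | M ≤ Syz u1 u2 u3 ∧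
          finrank F M = π.y ∧ (∀ u ∈ M, ∀ v ∈ M, BB u1 u2 u3 u v = 0) ∧
          M ⊓ (BB u1 u2 u3).orthogonal (Syz u1 u2 u3) = fY0 u1 u2 u3 z0} 1 M
      (fun z hz => ⟨Y_le_Syz u1 u2 u3 z, congrArg Par.y (hp z hz), Y_iso u1 u2 u3 z,
        h0 z hz z0 hz0⟩)
      (fun Z' hZ' h => hM Z' (fun z hz => hp z (hZ' hz)) h)
    rw [mul_one] at k5
    refine (Nat.mul_le_mul_right _ k5).trans ?_
    rw [mul_right_comm]
    refine Nat.mul_le_mul_right _ (k1.trans (Nat.mul_le_mul_right _ ?_))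
    calc 4 ^ π.y ≤ 4 ^ 16 := Nat.pow_le_pow_right (by norm_num) (by omega)
      _ = 2 ^ 32 := by norm_num
  have s6' := s6 _ s7
  have s5 := fun (Z : Set (X F)) (hp : ∀ z ∈ Z, par u1 u2 u3 z = π)
      (h1 : Cst Z (fun z => K z u1 ⊓ K z u2)) (h2 : Cst Z (fun z => K z u1 ⊓ K z u3))
      (h3 : Cst Z (fun z => K z u2 ⊓ K z u3)) =>
    gstep hE2 Z (fY0 u1 u2 u3)
      (fun z => D3 (K z u1 ⊓ K z u2) (K z u1 ⊓ K z u3) (K z u2 ⊓ K z u3))
      (fun _ => D3 (K u1 u2) (K u1 u3) (K u2 u3)) π.y0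
      ((π.y0 + π.i - (π.i12 + π.i13 + π.i23)) *
        (dK u1 u2 + dK u1 u3 + dK u2 u3 - (π.y0 + dK3 u1 u2 u3))) _ _
      (fun z hz => ⟨S0_le u1 u2 u3 z, Y0_le u1 u2 u3 z, congrArg Par.y0 (hp z hz), by
        have k1 := fact_S0 u1 u2 u3 z
        have k2 := fact_R u1 u2 u3
        rw [hp z hz] at k1
        congr 1 <;> omega⟩)
      (fun z hz z' hz' => by
        have k1 : K z u1 ⊓ K z u2 = K z' u1 ⊓ K z' u2 := h1 z hz z' hz'
        have k2 : K z u1 ⊓ K z u3 = K z' u1 ⊓ K z' u3 := h2 z hz z' hz'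
        have k3 : K z u2 ⊓ K z u3 = K z' u2 ⊓ K z' u3 := h3 z hz z' hz'
        simp only [k1, k2, k3])
      (fun _ _ _ _ => rfl)
      (fun Z' hZ' h0 => s6' Z' (fun z hz => hp z (hZ' hz)) h0)
  have s4 := fun (Z : Set (X F)) (hp : ∀ z ∈ Z, par u1 u2 u3 z = π) (hI : Cst Z (fI u1 u2 u3))
      (h1 : Cst Z (fun z => K z u1 ⊓ K z u2)) (h2 : Cst Z (fun z => K z u1 ⊓ K z u3)) =>
    gstep hE Z (fun z => K z u2 ⊓ K z u3) (fI u1 u2 u3) (fun _ => K u2 u3) π.i23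
      ((π.i23 - π.i) * (dK u2 u3 - π.i23)) _ _
      (fun z hz => ⟨inf_le_right, K_inf_le _ _ _, congrArg Par.i23 (hp z hz), by
        rw [← hp z hz]; rfl⟩) hI (fun _ _ _ _ => rfl)
      (fun Z' hZ' h3 => s5 Z' (fun z hz => hp z (hZ' hz)) (h1.mono hZ') (h2.mono hZ') h3)
  have s3 := fun (Z : Set (X F)) (hp : ∀ z ∈ Z, par u1 u2 u3 z = π) (hI : Cst Z (fI u1 u2 u3))
      (h1 : Cst Z (fun z => K z u1 ⊓ K z u2)) =>
    gstep hE Z (fun z => K z u1 ⊓ K z u3) (fI u1 u2 u3) (fun _ => K u1 u3) π.i13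
      ((π.i13 - π.i) * (dK u1 u3 - π.i13)) _ _
      (fun z hz => ⟨inf_le_left.trans inf_le_right, K_inf_le _ _ _,
        congrArg Par.i13 (hp z hz), by rw [← hp z hz]; rfl⟩) hI (fun _ _ _ _ => rfl)
      (fun Z' hZ' h2 => s4 Z' (fun z hz => hp z (hZ' hz)) (hI.mono hZ') (h1.mono hZ') h2)
  have s2 := fun (Z : Set (X F)) (hp : ∀ z ∈ Z, par u1 u2 u3 z = π) (hI : Cst Z (fI u1 u2 u3)) =>
    gstep hE Z (fun z => K z u1 ⊓ K z u2) (fI u1 u2 u3) (fun _ => K u1 u2) π.i12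
      ((π.i12 - π.i) * (dK u1 u2 - π.i12)) _ _
      (fun z hz => ⟨inf_le_left.trans inf_le_left, K_inf_le _ _ _,
        congrArg Par.i12 (hp z hz), by rw [← hp z hz]; rfl⟩) hI (fun _ _ _ _ => rfl)
      (fun Z' hZ' h1 => s3 Z' (fun z hz => hp z (hZ' hz)) (hI.mono hZ') h1)
  have s1 := gstep hE {z | par u1 u2 u3 z = π} (fI u1 u2 u3) (fun _ => ⊥)
      (fun _ => K u1 u2 ⊓ K u1 u3) π.i (π.i * (dK3 u1 u2 u3 - π.i)) _ _
      (fun z hz => ⟨bot_le, I_le u1 u2 u3 z, congrArg Par.i hz, by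
        rw [finrank_bot]; rfl⟩) (fun _ _ _ _ => rfl) (fun _ _ _ _ => rfl)
      (fun Z' hZ' hI => s2 Z' (fun z hz => hZ' hz) hI)
  rw [← Set.ncard_coe_finset, Finset.coe_filter]
  simp only [Finset.mem_univ, true_and]
  refine s1.trans ?_
  unfold expoPos
  simp only [pow_add]
  generalize Fintype.card F ^ (π.i * (dK3 u1 u2 u3 - π.i)) = a1
  generalize Fintype.card F ^ ((π.i12 - π.i) * (dK u1 u2 - π.i12)) = a2
  generalize Fintype.card F ^ ((π.i13 - π.i) * (dK u1 u3 - π.i13)) = a3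
  generalize Fintype.card F ^ ((π.i23 - π.i) * (dK u2 u3 - π.i23)) = a4
  generalize Fintype.card F ^ ((π.y0 + π.i - (π.i12 + π.i13 + π.i23)) *
        (dK u1 u2 + dK u1 u3 + dK u2 u3 - (π.y0 + dK3 u1 u2 u3))) = a5
  generalize Fintype.card F ^ ((π.y - π.y0) * (8 + dK3 u1 u2 u3 - π.y)) = a6
  generalize Fintype.card F ^ ((π.j1 + π.i23 - π.y) * (8 + π.i12 + π.i13 - (π.j1 + π.y))) = a7
  generalize Fintype.card F ^ ((π.j2 + π.i13 - π.y) * (8 + π.i12 - (π.j1 + π.j2))) = a8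
  generalize Fintype.card F ^ ((π.j3 + π.i12 - π.y) * (8 + π.y - (π.j1 + π.j2 + π.j3))) = a9
  generalize Fintype.card F ^
    ((8 + π.y - (π.j1 + π.j2 + π.j3)) * (9 + π.y - (π.j1 + π.j2 + π.j3)) / 2) = a10
  calc _ = 2 ^ 160 * (a1 * a2 * a3 * a4 * a5 * a6 * a7 * a8 * a9 * a10) := by ring
    _ ≤ _ := Nat.mul_le_mul_right _ (by norm_num)

end Vale.Agent.P050
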