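import Vale.Agent.P050.Defs

/-! Finite checks for the sign model. -/

namespace Vale.Agent.P050.SignM

open scoped BigOperators
open Finset

/-- Vertex costs `1673, 1947, 2122, 2258, 2122, 1947, 1673`. -/
def aN (v : ℕ) : ℕ := Nat.mod (Nat.shiftRight 7902764461455490741286537 (Nat.mul 12 v)) 4096

/-- Vertex costs. -/
def Ac (v : Fin 7) : ℕ := aN v.val

/-- Face costs. -/
def Bc : Fin 10 → ℕ := ![37, 31, 21, 5, 1, 1, 5, 21, 31, 37]

/-- Corner costs (and `1` off the corners). -/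
def Cc : Fin 7 → Fin 10 → ℕ :=
  ![![130, 133, 139, 1, 1, 1, 1, 1, 1, 1],
    ![62, 67, 1, 69, 72, 1, 1, 1, 1, 1],
    ![30, 1, 34, 28, 1, 36, 29, 1, 1, 1],
    ![1, 4, 1, 1, 6, 6, 1, 1, 4, 1],
    ![1, 1, 1, 29, 36, 1, 28, 34, 1, 30],
    ![1, 1, 1, 1, 1, 72, 69, 1, 67, 62],
    ![1, 1, 1, 1, 1, 1, 1, 139, 133, 130]]

/-- Gadget types (`0` off the corners). -/
def Ty : Fin 7 → Fin 10 → Fin 7 :=
  ![![1, 4, 4, 0, 0, 0, 0, 0, 0, 0],
    ![3, 4, 0, 6, 6, 0, 0, 0, 0, 0],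
    ![4, 0, 4, 6, 0, 6, 6, 0, 0, 0],
    ![0, 6, 6, 0, 6, 6, 0, 6, 6, 0],
    ![0, 0, 0, 6, 6, 0, 6, 5, 0, 5],
    ![0, 0, 0, 0, 0, 6, 6, 0, 5, 5],
    ![0, 0, 0, 0, 0, 0, 0, 5, 5, 2]]

/-- Gadget parameters. -/
def par : Fin 7 → Fin 5 → ℤ :=
  ![![0, 0, 0, 0, 0],
    ![1, 0, 0, 0, 0],
    ![0, 1, 0, 0, 0],
    ![1, 2, 1, -1, 0],
    ![1, 2, 1, 1, 0],
    ![2, 1, 1, 0, 1],
    ![1, 1, 1, 0, 0]]

/-- Spin matrix of a gadget. -/
def gz (t : Fin 7) : Bool → Bool → Bool → Bool → ℤ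
  | true, false, true, false => par t 0
  | false, true, false, true => par t 1
  | true, true, true, true => par t 2
  | true, false, true, true => par t 3
  | true, true, true, false => par t 3
  | false, true, true, true => par t 4
  | true, true, false, true => par t 4
  | _, _, _, _ => 0

/-- Table of minimal face costs. -/
def mN (i j l : ℕ) : ℕ :=
  Nat.mod (Nat.shiftRight 14235403831553406793925228568131590794109438703059222924576966338382446370402516421183619323239501049730797915528643397500704470487087588349339945438667262263505892983093120875208316328962842560848071623859964043112308439168590017528216517847348064310068169585173013292965376404670921035605768728118254676619397346582727906077803566473898369953692520006221725011136721266407357643620672785519649726088932690498179955574998600725270648024332849378483749860679237426119698004035938606852385735205661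63735075082574930065551799542458568055323573719897256658064805676088637472271275390776119234875708793815353057624617883023814824590473724085559795815128775241147255982007512992343573682133229620798092444015074454592908560666563491805503066238613639783770641985560809802622641138723886765979268682599777930493674104771807990325011933424329562289101183201424403852424604466955862459185805366220371549172883710042072991880724839865290922798221551887075378531728532162745858993222882417169432745277642246035464002895177662219317761652661675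
    (Nat.add (Nat.add (Nat.mul 490 i) (Nat.mul 70 j)) (Nat.mul 10 l))) 1024

/-- Table of minimal face costs. -/
def mt (i j l : Fin 7) : ℕ := mN i.val j.val l.val

theorem mt_le : ∀ b : Fin 10, ∀ i : Fin 7, Ty i b ≠ 0 → ∀ j : Fin 7, Ty j b ≠ 0 →
    ∀ l : Fin 7, Ty l b ≠ 0 →
    (mt i j l ≤ Bc b + (Cc i b + Cc j b + Cc l b) ∧ mt i j l < 1023) := by
  decide +kernel

/-- Conjunction over seven values. -/
def all7 (p : ℕ → Bool) : Bool := p 0 && (p 1 && (p 2 && (p 3 && (p 4 && (p 5 && p 6)))))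

theorem all7_spec {p : ℕ → Bool} (h : all7 p = true) (i : Fin 7) : p i.val = true := by
  simp only [all7, Bool.and_eq_true] at h
  obtain ⟨h0, h1, h2, h3, h4, h5, h6⟩ := h
  fin_cases i
  exacts [h0, h1, h2, h3, h4, h5, h6]

/-- The checker. -/
def chkB : Bool :=
  all7 fun a0 => all7 fun a1 => all7 fun a2 => Nat.ble 1023 (mN a0 a1 a2) ||
  all7 fun a3 => Nat.ble 1023 (mN a0 a1 a3) || (Nat.ble 1023 (mN a0 a2 a3) ||
  all7 fun a4 => Nat.ble 1023 (mN a1 a2 a4) || (Nat.ble 1023 (mN a1 a3 a4) ||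
  all7 fun a5 => Nat.ble 1023 (mN a2 a3 a5) || (Nat.ble 1023 (mN a2 a4 a5) ||
  all7 fun a6 => Nat.ble 15613
    (Nat.add (Nat.add (Nat.add (Nat.add
      (Nat.add (Nat.add (Nat.add (aN a0) (aN a1)) (aN a2)) (mN a0 a1 a2))
      (Nat.add (Nat.add (aN a3) (mN a0 a1 a3)) (mN a0 a2 a3)))
      (Nat.add (Nat.add (aN a4) (mN a1 a2 a4)) (mN a1 a3 a4)))
      (Nat.add (Nat.add (aN a5) (mN a2 a3 a5)) (mN a2 a4 a5)))
      (Nat.add (Nat.add (Nat.add (aN a6) (mN a3 a4 a6)) (mN a3 a5 a6)) (mN a4 a5 a6))) ||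
    (Nat.ble 1023 (mN a3 a4 a6) || (Nat.ble 1023 (mN a3 a5 a6) || (Nat.ble 1023 (mN a4 a5 a6) ||
    (([a0, a1, a2, a3, a4, a5, a6] == [0, 1, 2, 3, 4, 5, 6]) ||
      ([a0, a1, a2, a3, a4, a5, a6] == [6, 5, 4, 3, 2, 1, 0]))))))))

theorem chkB_true : chkB = true := by decide +kernel

theorem drop {x : ℕ} {q : Bool} (h : (Nat.ble 1023 x || q) = true) (hx : x < 1023) :
    q = true := by
  rw [Bool.or_eq_true, Nat.ble_eq] at h
  exact h.resolve_left (by omega)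

theorem chk : ∀ a0 a1 a2 : Fin 7, mt a0 a1 a2 < 1023 →
    ∀ a3 : Fin 7, mt a0 a1 a3 < 1023 → mt a0 a2 a3 < 1023 →
    ∀ a4 : Fin 7, mt a1 a2 a4 < 1023 → mt a1 a3 a4 < 1023 →
    ∀ a5 : Fin 7, mt a2 a3 a5 < 1023 → mt a2 a4 a5 < 1023 →
    ∀ a6 : Fin 7, mt a3 a4 a6 < 1023 → mt a3 a5 a6 < 1023 → mt a4 a5 a6 < 1023 →
    (15613 ≤ (Ac a0 + Ac a1 + Ac a2 + Ac a3 + Ac a4 + Ac a5 + Ac a6) +
      (mt a0 a1 a2 + mt a0 a1 a3 + mt a0 a2 a3 + mt a1 a2 a4 + mt a1 a3 a4 + mt a2 a3 a5 +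
        mt a2 a4 a5 + mt a3 a4 a6 + mt a3 a5 a6 + mt a4 a5 a6) ∨
    (a0 = 0 ∧ a1 = 1 ∧ a2 = 2 ∧ a3 = 3 ∧ a4 = 4 ∧ a5 = 5 ∧ a6 = 6) ∨
    (a0 = 6 ∧ a1 = 5 ∧ a2 = 4 ∧ a3 = 3 ∧ a4 = 2 ∧ a5 = 1 ∧ a6 = 0)) := by
  intro a0 a1 a2 h0 a3 h1 h2 a4 h3 h4 a5 h5 h6 a6 h7 h8 h9
  have k2 := drop (all7_spec (all7_spec (all7_spec chkB_true a0) a1) a2) h0
  have k3 := drop (drop (all7_spec k2 a3) h1) h2
  have k4 := drop (drop (all7_spec k3 a4) h3) h4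
  have k5 := drop (drop (all7_spec k4 a5) h5) h6
  have k6 := all7_spec k5 a6
  rw [Bool.or_eq_true, Nat.ble_eq] at k6
  rcases k6 with k | k
  · left
    simp only [Nat.add_eq] at k
    unfold mt Ac
    omega
  · right
    have k7 := drop (drop (drop k h7) h8) h9
    simp only [Bool.or_eq_true, beq_iff_eq, List.cons.injEq, and_true] at k7
    simp only [Fin.ext_iff]
    exact k7

theorem Ac_ge : ∀ v : Fin 7, 1673 ≤ Ac v := by decide +kernel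

theorem id_face : ∀ f b : Fin 10, (∀ s, Ty (face f s) b ≠ 0) → b = f := by decide +kernel

theorem rev_face : ∀ f b : Fin 10, (∀ s, Ty (Fin.rev (face f s)) b ≠ 0) → b = Fin.rev f := by
  decide +kernel

theorem cost_id : ∑ v, Ac v + ∑ f, Bc f + ∑ f, ∑ s, Cc (face f s) f = 15612 := by
  decide +kernel

theorem Cc_pos : ∀ v b, 1 ≤ Cc v b := by decide +kernel

theorem gz_bound : ∀ t a b c d, |gz t a b c d| ≤ 2 := by decide +kernel

theorem gz_zero : ∀ a b c d, gz 0 a b c d = 0 := by decide +kernel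

theorem gz_ff : ∀ t c d, gz t false false c d = 0 ∧ gz t c d false false = 0 := by
  decide +kernel

set_option synthInstance.maxSize 4000 in
set_option synthInstance.maxHeartbeats 400000 in
set_option maxRecDepth 4000 in
theorem forcedId_aux :
    ∀ p0 q0 : Bool,
    ∀ p1 q1 : Bool, gz 1 p0 q0 p1 q1 ≠ 0 →
    ∀ p2 q2 : Bool, gz 4 p0 q0 p2 q2 ≠ 0 → gz 4 p1 q1 p2 q2 ≠ 0 →
    ∀ p3 q3 : Bool, gz 3 p0 q0 p3 q3 ≠ 0 → gz 4 p1 q1 p3 q3 ≠ 0 →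
    ∀ p4 q4 : Bool, gz 4 p0 q0 p4 q4 ≠ 0 → gz 6 p2 q2 p4 q4 ≠ 0 →
    ∀ p5 q5 : Bool, gz 6 p3 q3 p5 q5 ≠ 0 → gz 6 p4 q4 p5 q5 ≠ 0 →
    ∀ p6 q6 : Bool, gz 4 p1 q1 p6 q6 ≠ 0 → gz 6 p2 q2 p6 q6 ≠ 0 →
    ∀ p7 q7 : Bool, gz 6 p3 q3 p7 q7 ≠ 0 → gz 6 p5 q5 p7 q7 ≠ 0 →
    ∀ p8 q8 : Bool, gz 6 p6 q6 p8 q8 ≠ 0 → gz 6 p7 q7 p8 q8 ≠ 0 →
    ∀ p9 q9 : Bool, gz 6 p4 q4 p9 q9 ≠ 0 → gz 6 p5 q5 p9 q9 ≠ 0 →
    ∀ p10 q10 : Bool, gz 6 p6 q6 p10 q10 ≠ 0 → gz 6 p8 q8 p10 q10 ≠ 0 →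
    ∀ p11 q11 : Bool, gz 6 p9 q9 p11 q11 ≠ 0 → gz 6 p10 q10 p11 q11 ≠ 0 →
    ∀ p12 q12 : Bool, gz 6 p7 q7 p12 q12 ≠ 0 → gz 6 p8 q8 p12 q12 ≠ 0 →
    ∀ p13 q13 : Bool, gz 5 p9 q9 p13 q13 ≠ 0 → gz 5 p11 q11 p13 q13 ≠ 0 → gz 5 p12 q12 p13 q13 ≠ 0 →
    ∀ p14 q14 : Bool, gz 5 p10 q10 p14 q14 ≠ 0 → gz 5 p11 q11 p14 q14 ≠ 0 → gz 5 p12 q12 p14 q14 ≠ 0 → gz 2 p13 q13 p14 q14 ≠ 0 →
    ([p0, p1, p2, p3, p4, p5, p6, p7, p8, p9, p10, p11, p12, p13, p14] = [true, true, true, true, true, true, true, true, true, true, true, true, true, false, false] ∧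
      [q0, q1, q2, q3, q4, q5, q6, q7, q8, q9, q10, q11, q12, q13, q14] = [false, false, true, true, true, true, true, true, true, true, true, true, true, true, true]) := by
  decide +kernel

set_option synthInstance.maxSize 4000 in
set_option synthInstance.maxHeartbeats 400000 in
set_option maxRecDepth 4000 in
theorem forcedRev_aux :
    ∀ p0 q0 : Bool,
    ∀ p1 q1 : Bool, gz 2 p0 q0 p1 q1 ≠ 0 →
    ∀ p2 q2 : Bool, gz 5 p0 q0 p2 q2 ≠ 0 → gz 5 p1 q1 p2 q2 ≠ 0 →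
    ∀ p3 q3 : Bool, gz 5 p0 q0 p3 q3 ≠ 0 → gz 5 p1 q1 p3 q3 ≠ 0 →
    ∀ p4 q4 : Bool, gz 5 p0 q0 p4 q4 ≠ 0 → gz 6 p2 q2 p4 q4 ≠ 0 →
    ∀ p5 q5 : Bool, gz 6 p3 q3 p5 q5 ≠ 0 → gz 6 p4 q4 p5 q5 ≠ 0 →
    ∀ p6 q6 : Bool, gz 5 p1 q1 p6 q6 ≠ 0 → gz 6 p2 q2 p6 q6 ≠ 0 →
    ∀ p7 q7 : Bool, gz 6 p3 q3 p7 q7 ≠ 0 → gz 6 p5 q5 p7 q7 ≠ 0 →
    ∀ p8 q8 : Bool, gz 6 p6 q6 p8 q8 ≠ 0 → gz 6 p7 q7 p8 q8 ≠ 0 →
    ∀ p9 q9 : Bool, gz 6 p4 q4 p9 q9 ≠ 0 → gz 6 p5 q5 p9 q9 ≠ 0 →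
    ∀ p10 q10 : Bool, gz 6 p6 q6 p10 q10 ≠ 0 → gz 6 p8 q8 p10 q10 ≠ 0 →
    ∀ p11 q11 : Bool, gz 6 p9 q9 p11 q11 ≠ 0 → gz 6 p10 q10 p11 q11 ≠ 0 →
    ∀ p12 q12 : Bool, gz 6 p7 q7 p12 q12 ≠ 0 → gz 6 p8 q8 p12 q12 ≠ 0 →
    ∀ p13 q13 : Bool, gz 4 p9 q9 p13 q13 ≠ 0 → gz 4 p11 q11 p13 q13 ≠ 0 → gz 4 p12 q12 p13 q13 ≠ 0 →
    ∀ p14 q14 : Bool, gz 4 p10 q10 p14 q14 ≠ 0 → gz 4 p11 q11 p14 q14 ≠ 0 → gz 3 p12 q12 p14 q14 ≠ 0 → gz 1 p13 q13 p14 q14 ≠ 0 →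
    ([p0, p1, p2, p3, p4, p5, p6, p7, p8, p9, p10, p11, p12, p13, p14] = [false, false, true, true, true, true, true, true, true, true, true, true, true, true, true] ∧
      [q0, q1, q2, q3, q4, q5, q6, q7, q8, q9, q10, q11, q12, q13, q14] = [true, true, true, true, true, true, true, true, true, true, true, true, true, false, false]) := by
  decide +kernel

/-- Weight of a spin configuration. -/
def wt (T : Fin 10 → Fin 3 → Fin 7) (I J : Fin 15 → Bool) : ℤ :=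
  ∏ f, ∏ s, gz (T f s) (I (fedge f (c1 s))) (J (fedge f (c1 s))) (I (fedge f (c2 s)))
    (J (fedge f (c2 s)))

theorem wt_ne {T : Fin 10 → Fin 3 → Fin 7} {I J : Fin 15 → Bool} (h : wt T I J ≠ 0) (f s) :
    gz (T f s) (I (fedge f (c1 s))) (J (fedge f (c1 s))) (I (fedge f (c2 s)))
      (J (fedge f (c2 s))) ≠ 0 :=
  prod_ne_zero_iff.mp (prod_ne_zero_iff.mp h f (mem_univ _)) s (mem_univ _)

theorem ext15 (I I' : Fin 15 → Bool)
    (h : [I 0, I 1, I 2, I 3, I 4, I 5, I 6, I 7, I 8, I 9, I 10, I 11, I 12, I 13, I 14] =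
      [I' 0, I' 1, I' 2, I' 3, I' 4, I' 5, I' 6, I' 7, I' 8, I' 9, I' 10, I' 11, I' 12, I' 13, I' 14]) : I = I' := by
  simp only [List.cons.injEq, and_true] at h
  obtain ⟨h0, h1, h2, h3, h4, h5, h6, h7, h8, h9, h10, h11, h12, h13, h14⟩ := h
  funext e
  fin_cases e
  exacts [h0, h1, h2, h3, h4, h5, h6, h7, h8, h9, h10, h11, h12, h13, h14]

/-- The spins `1, …, 1, 0, 0`. -/
def PP : Fin 15 → Bool := ![true, true, true, true, true, true, true, true, true, true, true, true, true, false, false]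

/-- The spins `0, 0, 1, …, 1`. -/
def QQ : Fin 15 → Bool := ![false, false, true, true, true, true, true, true, true, true, true, true, true, true, true]

theorem forcedId (I J : Fin 15 → Bool) (h0 : wt (fun f s => Ty (face f s) f) I J ≠ 0) :
    I = PP ∧ J = QQ := by
  have h := wt_ne h0
  have k := forcedId_aux (I 0) (J 0)
      (I 1) (J 1) (h 0 0)
      (I 2) (J 2) (h 1 0) (h 2 0)
      (I 3) (J 3) (h 0 1) (h 0 2)
      (I 4) (J 4) (h 1 1) (h 1 2)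
      (I 5) (J 5) (h 3 0) (h 4 0)
      (I 6) (J 6) (h 2 1) (h 2 2)
      (I 7) (J 7) (h 3 1) (h 3 2)
      (I 8) (J 8) (h 5 0) (h 6 0)
      (I 9) (J 9) (h 4 1) (h 4 2)
      (I 10) (J 10) (h 5 1) (h 5 2)
      (I 11) (J 11) (h 7 0) (h 8 0)
      (I 12) (J 12) (h 6 1) (h 6 2)
      (I 13) (J 13) (h 7 1) (h 7 2) (h 9 0)
      (I 14) (J 14) (h 8 1) (h 8 2) (h 9 1) (h 9 2)
  exact ⟨ext15 _ _ k.1, ext15 _ _ k.2⟩

theorem forcedRev (I J : Fin 15 → Bool)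
    (h0 : wt (fun f s => Ty (Fin.rev (face f s)) (Fin.rev f)) I J ≠ 0) : I = QQ ∧ J = PP := by
  have h := wt_ne h0
  have k := forcedRev_aux (I 0) (J 0)
      (I 1) (J 1) (h 0 0)
      (I 2) (J 2) (h 1 0) (h 2 0)
      (I 3) (J 3) (h 0 1) (h 0 2)
      (I 4) (J 4) (h 1 1) (h 1 2)
      (I 5) (J 5) (h 3 0) (h 4 0)
      (I 6) (J 6) (h 2 1) (h 2 2)
      (I 7) (J 7) (h 3 1) (h 3 2)
      (I 8) (J 8) (h 5 0) (h 6 0)
      (I 9) (J 9) (h 4 1) (h 4 2)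
      (I 10) (J 10) (h 5 1) (h 5 2)
      (I 11) (J 11) (h 7 0) (h 8 0)
      (I 12) (J 12) (h 6 1) (h 6 2)
      (I 13) (J 13) (h 7 1) (h 7 2) (h 9 0)
      (I 14) (J 14) (h 8 1) (h 8 2) (h 9 1) (h 9 2)
  exact ⟨ext15 _ _ k.1, ext15 _ _ k.2⟩

theorem wtId : wt (fun f s => Ty (face f s) f) PP QQ = -1 := by decide +kernel

theorem wtRev : wt (fun f s => Ty (Fin.rev (face f s)) (Fin.rev f)) QQ PP = -1 := by
  decide +kernel

theorem connected (u : Fin 15 → Bool) (h : ∀ f s, u (fedge f (c1 s)) = u (fedge f (c2 s))) (e) :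
    u e = u 0 := by
  have h1 : u 0 = u 1 := h 0 0
  have h3 : u 0 = u 3 := h 0 1
  have h2 : u 0 = u 2 := h 1 0
  have h4 : u 0 = u 4 := h 1 1
  have h6 : u 1 = u 6 := h 2 1
  have h5 : u 3 = u 5 := h 3 0
  have h7 : u 3 = u 7 := h 3 1
  have h9 : u 4 = u 9 := h 4 1
  have h8 : u 6 = u 8 := h 5 0
  have h10 : u 6 = u 10 := h 5 1
  have h12 : u 7 = u 12 := h 6 1
  have h11 : u 9 = u 11 := h 7 0
  have h13 : u 9 = u 13 := h 7 1
  have h14 : u 10 = u 14 := h 8 1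
  fin_cases e
  exacts [rfl, h1.symm, h2.symm, h3.symm, h4.symm, (h3.trans h5).symm, (h1.trans h6).symm,
    (h3.trans h7).symm, ((h1.trans h6).trans h8).symm, (h4.trans h9).symm,
    ((h1.trans h6).trans h10).symm, ((h4.trans h9).trans h11).symm,
    ((h3.trans h7).trans h12).symm, ((h4.trans h9).trans h13).symm,
    (((h1.trans h6).trans h10).trans h14).symm]

end Vale.Agent.P050.SignM
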