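import Vale.Agent.P050.Position
import Vale.Agent.P050.Mixing
import Vale.Agent.P050.FaceAux
import Vale.Agent.P050.DPSound

/-! Uniform integrability: degenerate configurations are negligible. -/

namespace Vale.Agent.P050

open scoped BigOperators
open Finset Module Filter Topology

section
variable {F : Type} [Field F] [Fintype F] [DecidableEq F]

/-- The absolute constant of one step. -/
noncomputable def C0 : ℝ := 25 ^ 9 * 2 ^ 200

theorem C0_pos : 0 < C0 := by unfold C0; positivity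

theorem one_le_C0 : 1 ≤ C0 := by
  unfold C0
  exact one_le_mul_of_one_le_of_one_le (one_le_pow₀ (by norm_num)) (one_le_pow₀ (by norm_num))

theorem card_valid_le {a J12 J13 J23 : ℕ} (ht : tvalid a J12 J13 J23) (S : Finset Par)
    (hS : ∀ π ∈ S, pvalid a J12 J13 J23 π) : S.card ≤ 25 ^ 9 := by
  have h : S.card ≤ (Fintype.piFinset fun _ : Fin 9 => range 25).card := by
    refine card_le_card_of_injOn
      (fun π => ![π.i, π.i12, π.i13, π.i23, π.y0, π.y, π.j1, π.j2, π.j3]) ?_ ?_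
    · intro π hπ
      have hv := hS π (mem_coe.1 hπ)
      simp only [pvalid, tvalid] at hv ht
      rw [mem_coe, Fintype.mem_piFinset]
      intro k
      fin_cases k <;> simp <;> omega
    · intro π _ π' _ h
      have h0 := congrFun h 0
      have h1 := congrFun h 1
      have h2 := congrFun h 2
      have h3 := congrFun h 3
      have h4 := congrFun h 4
      have h5 := congrFun h 5
      have h6 := congrFun h 6
      have h7 := congrFun h 7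
      have h8 := congrFun h 8
      cases π; cases π'
      simp at h0 h1 h2 h3 h4 h5 h6 h7 h8
      simp [h0, h1, h2, h3, h4, h5, h6, h7, h8]
  simpa using h

theorem step_bound (hF : ringChar F ≠ 2) (u1 u2 u3 : X F)
    (Ψ : ℕ → ℕ → ℕ → ℕ → ℕ → ℕ → ℝ) (B : ℝ) (hB : 0 ≤ B)
    (hΨ : ∀ a b c d e f, 0 ≤ Ψ a b c d e f)
    (h : ∀ π, pvalid (dK3 u1 u2 u3) (dK u1 u2) (dK u1 u3) (dK u2 u3) π →
      Ψ π.j1 π.j2 π.j3 π.i12 π.i13 π.i23 *
        (Fintype.card F : ℝ) ^ expoPos (dK3 u1 u2 u3) (dK u1 u2) (dK u1 u3) (dK u2 u3) π ≤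
      B * (Fintype.card F : ℝ) ^ (36 + expoNeg π)) :
    𝔼 z : X F, Ψ (dK z u1) (dK z u2) (dK z u3) (dK3 z u1 u2) (dK3 z u1 u3) (dK3 z u2 u3) ≤
      C0 * B := by
  obtain ⟨par, hpar, hcard⟩ := position hF u1 u2 u3
  have hq : (0 : ℝ) < Fintype.card F := by exact_mod_cast Fintype.card_pos
  have e : ∀ z, Ψ (dK z u1) (dK z u2) (dK z u3) (dK3 z u1 u2) (dK3 z u1 u3) (dK3 z u2 u3) =
      (fun π : Par => Ψ π.j1 π.j2 π.j3 π.i12 π.i13 π.i23) (par z) := by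
    intro z
    obtain ⟨_, h1, h2, h3, h4, h5, h6⟩ := hpar z
    simp only [h1, h2, h3, h4, h5, h6]
  simp only [e]
  rw [Fintype.expect_eq_sum_div_card, card_X, Nat.cast_pow, div_le_iff₀ (by positivity),
    sum_comp (fun π : Par => Ψ π.j1 π.j2 π.j3 π.i12 π.i13 π.i23) par]
  have hv : ∀ π ∈ univ.image par, pvalid (dK3 u1 u2 u3) (dK u1 u2) (dK u1 u3) (dK u2 u3) π := by
    intro π hπ
    obtain ⟨z, _, rfl⟩ := mem_image.1 hπ
    exact (hpar z).1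
  have hterm : ∀ π ∈ univ.image par,
      (univ.filter fun z => par z = π).card • Ψ π.j1 π.j2 π.j3 π.i12 π.i13 π.i23 ≤
        2 ^ 200 * B * (Fintype.card F : ℝ) ^ 36 := by
    intro π hπ
    have h1 : ((univ.filter fun z => par z = π).card : ℝ) * (Fintype.card F : ℝ) ^ expoNeg π ≤
        2 ^ 200 * (Fintype.card F : ℝ) ^
          expoPos (dK3 u1 u2 u3) (dK u1 u2) (dK u1 u3) (dK u2 u3) π := by
      exact_mod_cast hcard π
    have h2 := h π (hv π hπ)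
    have h3 := hΨ π.j1 π.j2 π.j3 π.i12 π.i13 π.i23
    rw [nsmul_eq_mul]
    refine le_of_mul_le_mul_right ?_ (pow_pos hq (expoNeg π))
    calc ((univ.filter fun z => par z = π).card : ℝ) * Ψ π.j1 π.j2 π.j3 π.i12 π.i13 π.i23 *
          (Fintype.card F : ℝ) ^ expoNeg π
        = (((univ.filter fun z => par z = π).card : ℝ) * (Fintype.card F : ℝ) ^ expoNeg π) *
          Ψ π.j1 π.j2 π.j3 π.i12 π.i13 π.i23 := by ring
      _ ≤ (2 ^ 200 * (Fintype.card F : ℝ) ^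
          expoPos (dK3 u1 u2 u3) (dK u1 u2) (dK u1 u3) (dK u2 u3) π) *
          Ψ π.j1 π.j2 π.j3 π.i12 π.i13 π.i23 := mul_le_mul_of_nonneg_right h1 h3
      _ = 2 ^ 200 * (Ψ π.j1 π.j2 π.j3 π.i12 π.i13 π.i23 * (Fintype.card F : ℝ) ^
          expoPos (dK3 u1 u2 u3) (dK u1 u2) (dK u1 u3) (dK u2 u3) π) := by ring
      _ ≤ 2 ^ 200 * (B * (Fintype.card F : ℝ) ^ (36 + expoNeg π)) :=
          mul_le_mul_of_nonneg_left h2 (by positivity)
      _ = 2 ^ 200 * B * (Fintype.card F : ℝ) ^ 36 * (Fintype.card F : ℝ) ^ expoNeg π := by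
          rw [pow_add]; ring
  have hc : ((univ.image par).card : ℝ) ≤ 25 ^ 9 := by
    exact_mod_cast card_valid_le (tvalid_ty u1 u2 u3) _ hv
  calc _ ≤ (univ.image par).card • (2 ^ 200 * B * (Fintype.card F : ℝ) ^ 36) :=
        sum_le_card_nsmul _ _ _ hterm
    _ ≤ 25 ^ 9 * (2 ^ 200 * B * (Fintype.card F : ℝ) ^ 36) := by
        rw [nsmul_eq_mul]
        exact mul_le_mul_of_nonneg_right hc (by positivity)
    _ = C0 * B * (Fintype.card F : ℝ) ^ 36 := by unfold C0; ring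

/-- Potential number `s` of a triple. -/
noncomputable def pot (ρ : ℝ) (s : ℕ) (x y z : X F) : ℝ :=
  ρ ^ tb s (dK3 x y z) (dK x y) (dK x z) (dK y z)

theorem pot_nonneg {ρ : ℝ} (hρ : 1 ≤ ρ) (s : ℕ) (x y z : X F) : 0 ≤ pot ρ s x y z := by
  unfold pot; positivity

theorem pow_step {ρ q : ℝ} (hρ : 1 ≤ ρ) (hq : ρ ^ 10 = q) {a b P N : ℕ}
    (h : 10 * P + a ≤ b + (360 + 10 * N)) : ρ ^ a * q ^ P ≤ ρ ^ b * q ^ (36 + N) := by
  rw [← hq, ← pow_mul, ← pow_mul, ← pow_add, ← pow_add]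
  exact pow_le_pow_right₀ hρ (by omega)

theorem transfer (hF : ringChar F ≠ 2) {ρ : ℝ} (hρ : 1 ≤ ρ) (hq : ρ ^ 10 = Fintype.card F)
    (s : ℕ) (hs : s < 4) (u1 u2 u3 : X F) :
    𝔼 z : X F, pot ρ s z u1 u2 * pot ρ 0 z u1 u3 * pot ρ 0 z u2 u3 ≤
      C0 * pot ρ (s + 1) u1 u2 u3 := by
  refine step_bound hF u1 u2 u3 (fun j1 j2 j3 i12 i13 i23 =>
    ρ ^ tb s i12 j1 j2 (dK u1 u2) * ρ ^ tb 0 i13 j1 j3 (dK u1 u3) *
      ρ ^ tb 0 i23 j2 j3 (dK u2 u3)) _ (pot_nonneg hρ _ _ _ _) (fun _ _ _ _ _ _ => by positivity) ?_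
  intro π hπ
  have h := (dp_sound (tvalid_ty u1 u2 u3) hπ).1 s hs
  rw [← pow_add, ← pow_add]
  exact pow_step hρ hq (by omega)

theorem K_self (v : X F) : K v v = ⊤ := by
  ext w; simp [mem_K]

theorem dK_self (v : X F) : dK v v = 8 := by
  rw [dK, K_self, finrank_top, finrank_E]

theorem dK3_self (u v : X F) : dK3 u v v = dK u v := by
  rw [dK3, dK, inf_idem]

theorem last1 (hF : ringChar F ≠ 2) {ρ : ℝ} (hρ : 1 ≤ ρ) (hq : ρ ^ 10 = Fintype.card F)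
    (u v : X F) :
    𝔼 z : X F, pot ρ 4 z u v * pot ρ 0 z u v ≤ C0 * ρ ^ hh (dK u v) := by
  refine step_bound hF u v v (fun j1 j2 _ i12 _ _ =>
    ρ ^ tb 4 i12 j1 j2 (dK u v) * ρ ^ tb 0 i12 j1 j2 (dK u v)) _ (by positivity)
      (fun _ _ _ _ _ _ => by positivity) ?_
  intro π hπ
  have h := (dp_sound (tvalid_ty u v v) hπ).2.1 (dK_self v)
  rw [← pow_add]
  refine pow_step hρ hq ?_
  have e := dK3_self u v
  have e' : hh (dK3 u v v) = hh (dK u v) := by rw [e]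
  omega

theorem last2 (hF : ringChar F ≠ 2) {ρ : ℝ} (hρ : 1 ≤ ρ) (hq : ρ ^ 10 = Fintype.card F)
    (v : X F) : 𝔼 z : X F, ρ ^ hh (dK z v) ≤ C0 * ρ ^ 0 := by
  refine step_bound hF v v v (fun j1 _ _ _ _ _ => ρ ^ hh j1) _ (by positivity)
      (fun _ _ _ _ _ _ => by positivity) ?_
  intro π hπ
  have h := (dp_sound (tvalid_ty v v v) hπ).2.2.1 (by rw [dK3_self, dK_self])
  exact pow_step hρ hq (by omega)

theorem peel {Y : Type} [Fintype Y] [Nonempty Y] (i : Fin 7) (Φ Φ' : (Fin 7 → Y) → ℝ) (C : ℝ)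
    (h : ∀ x, 𝔼 a : Y, Φ (Function.update x i a) ≤ C * Φ' x) :
    𝔼 x, Φ x ≤ C * 𝔼 x, Φ' x := by
  rw [expect_update Φ i, mul_expect]
  exact expect_le_expect fun x _ => h x

theorem peel_aux {Y : Type} [Fintype Y] (A : Y → ℝ) (B R C : ℝ) (hR : 0 ≤ R)
    (h : 𝔼 a, A a ≤ C * B) : 𝔼 a, A a * R ≤ C * (B * R) := by
  rw [← expect_mul, ← mul_assoc]
  exact mul_le_mul_of_nonneg_right h hR

theorem total_bound (hF : ringChar F ≠ 2) {ρ : ℝ} (hρ : 1 ≤ ρ) (hq : ρ ^ 10 = Fintype.card F) :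
    𝔼 x : Fin 7 → X F, ∏ f, pot ρ 0 (x (face f 0)) (x (face f 1)) (x (face f 2)) ≤ C0 ^ 6 := by
  have hp : ∀ s (x y z : X F), 0 ≤ pot ρ s x y z := pot_nonneg hρ
  let R4 : (Fin 7 → X F) → ℝ := fun x => pot ρ 0 (x 4) (x 5) (x 6)
  let R3 : (Fin 7 → X F) → ℝ := fun x =>
    pot ρ 0 (x 3) (x 4) (x 6) * pot ρ 0 (x 3) (x 5) (x 6) * R4 x
  let R2 : (Fin 7 → X F) → ℝ := fun x =>
    pot ρ 0 (x 2) (x 3) (x 5) * pot ρ 0 (x 2) (x 4) (x 5) * R3 x
  let R1 : (Fin 7 → X F) → ℝ := fun x =>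
    pot ρ 0 (x 1) (x 2) (x 4) * pot ρ 0 (x 1) (x 3) (x 4) * R2 x
  have n4 : ∀ x, 0 ≤ R4 x := fun x => hp _ _ _ _
  have n3 : ∀ x, 0 ≤ R3 x := fun x => mul_nonneg (mul_nonneg (hp _ _ _ _) (hp _ _ _ _)) (n4 x)
  have n2 : ∀ x, 0 ≤ R2 x := fun x => mul_nonneg (mul_nonneg (hp _ _ _ _) (hp _ _ _ _)) (n3 x)
  have n1 : ∀ x, 0 ≤ R1 x := fun x => mul_nonneg (mul_nonneg (hp _ _ _ _) (hp _ _ _ _)) (n2 x)
  have e0 : ∀ x : Fin 7 → X F, ∏ f, pot ρ 0 (x (face f 0)) (x (face f 1)) (x (face f 2)) =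
      pot ρ 0 (x 0) (x 1) (x 2) * pot ρ 0 (x 0) (x 1) (x 3) * pot ρ 0 (x 0) (x 2) (x 3) * R1 x := by
    intro x
    simp only [Fin.prod_univ_succ, Fin.prod_univ_zero, R1, R2, R3, R4]
    show pot ρ 0 (x 0) (x 1) (x 2) * (pot ρ 0 (x 0) (x 1) (x 3) * (pot ρ 0 (x 0) (x 2) (x 3) *
      (pot ρ 0 (x 1) (x 2) (x 4) * (pot ρ 0 (x 1) (x 3) (x 4) * (pot ρ 0 (x 2) (x 3) (x 5) *
      (pot ρ 0 (x 2) (x 4) (x 5) * (pot ρ 0 (x 3) (x 4) (x 6) * (pot ρ 0 (x 3) (x 5) (x 6) *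
      (pot ρ 0 (x 4) (x 5) (x 6) * 1))))))))) = _
    ring
  have s0 := peel 0 (fun x : Fin 7 → X F => pot ρ 0 (x 0) (x 1) (x 2) *
      pot ρ 0 (x 0) (x 1) (x 3) * pot ρ 0 (x 0) (x 2) (x 3) * R1 x)
    (fun x => pot ρ 1 (x 1) (x 2) (x 3) * R1 x) C0 fun x =>
      peel_aux _ _ _ _ (n1 x) (transfer hF hρ hq 0 (by norm_num) (x 1) (x 2) (x 3))
  have s1 := peel 1 (fun x : Fin 7 → X F => pot ρ 1 (x 1) (x 2) (x 3) *
      pot ρ 0 (x 1) (x 2) (x 4) * pot ρ 0 (x 1) (x 3) (x 4) * R2 x)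
    (fun x => pot ρ 2 (x 2) (x 3) (x 4) * R2 x) C0 fun x =>
      peel_aux _ _ _ _ (n2 x) (transfer hF hρ hq 1 (by norm_num) (x 2) (x 3) (x 4))
  have s2 := peel 2 (fun x : Fin 7 → X F => pot ρ 2 (x 2) (x 3) (x 4) *
      pot ρ 0 (x 2) (x 3) (x 5) * pot ρ 0 (x 2) (x 4) (x 5) * R3 x)
    (fun x => pot ρ 3 (x 3) (x 4) (x 5) * R3 x) C0 fun x =>
      peel_aux _ _ _ _ (n3 x) (transfer hF hρ hq 2 (by norm_num) (x 3) (x 4) (x 5))
  have s3 := peel 3 (fun x : Fin 7 → X F => pot ρ 3 (x 3) (x 4) (x 5) *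
      pot ρ 0 (x 3) (x 4) (x 6) * pot ρ 0 (x 3) (x 5) (x 6) * R4 x)
    (fun x => pot ρ 4 (x 4) (x 5) (x 6) * R4 x) C0 fun x =>
      peel_aux _ _ _ _ (n4 x) (transfer hF hρ hq 3 (by norm_num) (x 4) (x 5) (x 6))
  have s4 := peel 4 (fun x : Fin 7 → X F => pot ρ 4 (x 4) (x 5) (x 6) * R4 x)
    (fun x => ρ ^ hh (dK (x 5) (x 6))) C0 fun x => last1 hF hρ hq (x 5) (x 6)
  have s5 := peel 5 (fun x : Fin 7 → X F => ρ ^ hh (dK (x 5) (x 6)))
    (fun _ => ρ ^ 0) C0 fun x => last2 hF hρ hq (x 6)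
  have r1 : ∀ x : Fin 7 → X F, pot ρ 1 (x 1) (x 2) (x 3) * R1 x = pot ρ 1 (x 1) (x 2) (x 3) *
      pot ρ 0 (x 1) (x 2) (x 4) * pot ρ 0 (x 1) (x 3) (x 4) * R2 x := fun x => by
    simp only [R1]; ring
  have r2 : ∀ x : Fin 7 → X F, pot ρ 2 (x 2) (x 3) (x 4) * R2 x = pot ρ 2 (x 2) (x 3) (x 4) *
      pot ρ 0 (x 2) (x 3) (x 5) * pot ρ 0 (x 2) (x 4) (x 5) * R3 x := fun x => by
    simp only [R2]; ring
  have r3 : ∀ x : Fin 7 → X F, pot ρ 3 (x 3) (x 4) (x 5) * R3 x = pot ρ 3 (x 3) (x 4) (x 5) *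
      pot ρ 0 (x 3) (x 4) (x 6) * pot ρ 0 (x 3) (x 5) (x 6) * R4 x := fun x => by
    simp only [R3]; ring
  simp only [r1] at s0
  simp only [r2] at s1
  simp only [r3] at s2
  simp only [pow_zero, Fintype.expect_const, mul_one] at s5
  simp only [e0]
  have c := C0_pos.le
  calc _ ≤ _ := s0
    _ ≤ C0 * (C0 * (C0 * (C0 * (C0 * C0)))) := by
      refine mul_le_mul_of_nonneg_left (s1.trans ?_) c
      refine mul_le_mul_of_nonneg_left (s2.trans ?_) c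
      refine mul_le_mul_of_nonneg_left (s3.trans ?_) c
      refine mul_le_mul_of_nonneg_left (s4.trans ?_) c
      exact mul_le_mul_of_nonneg_left s5 c
    _ = C0 ^ 6 := by ring

/-- The integer exponent of a triple. -/
def wt0 (a x y z : ℕ) : ℕ := tb 0 a x y z / 10

theorem edge_in_face : ∀ e : Fin 15, ∃ f : Fin 10,
    ends e = (face f 0, face f 1) ∨ ends e = (face f 0, face f 2) ∨
      ends e = (face f 1, face f 2) := by decide

open Classical in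
theorem nongen_bound (hF : ringChar F ≠ 2) {ρ : ℝ} (hρ : 1 ≤ ρ) (hq : ρ ^ 10 = Fintype.card F) :
    𝔼 x : Fin 7 → X F, (if allGen x then (0 : ℝ) else
      ∏ f, (Fintype.card F : ℝ) ^ wt0 (dK3 (x (face f 0)) (x (face f 1)) (x (face f 2)))
        (dK (x (face f 0)) (x (face f 1))) (dK (x (face f 0)) (x (face f 2)))
        (dK (x (face f 1)) (x (face f 2)))) ≤ C0 ^ 6 / ρ := by
  have hρ0 : 0 < ρ := by linarith
  rw [le_div_iff₀ hρ0, expect_mul]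
  refine le_trans (expect_le_expect fun x _ => ?_) (total_bound hF hρ hq)
  split_ifs with hx
  · rw [zero_mul]
    exact prod_nonneg fun f _ => pot_nonneg hρ _ _ _ _
  · simp only [allGen, not_forall] at hx
    obtain ⟨e, he⟩ := hx
    obtain ⟨f0, hf0⟩ := edge_in_face e
    have hne : dK (x (face f0 0)) (x (face f0 1)) + dK (x (face f0 0)) (x (face f0 2)) +
        dK (x (face f0 1)) (x (face f0 2)) ≠ 0 := by
      rcases hf0 with h | h | h <;> rw [h] at he <;> simp only at he <;> omega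
    simp only [pot, ← hq, ← pow_mul]
    rw [prod_pow_eq_pow_sum, prod_pow_eq_pow_sum, ← pow_succ]
    refine pow_le_pow_right₀ hρ ?_
    rw [Nat.succ_le_iff]
    refine sum_lt_sum (fun f _ => ?_) ⟨f0, mem_univ _, ?_⟩
    · unfold wt0; omega
    · have := tb_zero_eq (tvalid_ty (x (face f0 0)) (x (face f0 1)) (x (face f0 2)))
      rw [if_neg hne] at this
      unfold wt0; omega

theorem abs_kern_le (hq : 5 ≤ (Fintype.card F : ℝ)) (a : Fin 3) (ξ w : Xh F) :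
    |kern a ξ w| ≤ if a = 0 then 1 else
      if dK w.1 ξ.1 = 4 then 5 * (Fintype.card F : ℝ) ^ 10 else 0 := by
  have hR : Rk (ξ.1 - w.1) ≤ if dK w.1 ξ.1 = 4 then 5 * (Fintype.card F : ℝ) ^ 10 else 0 := by
    rw [Rk_sub, dK_comm w.1 ξ.1]
    split_ifs
    · refine (div_cO_le (by linarith)).trans ?_
      rw [div_le_iff₀ (by linarith)]
      have : (0 : ℝ) ≤ (Fintype.card F : ℝ) ^ 10 := by positivity
      nlinarith
    · exact le_rfl
  have h0 := Rk_nonneg (ξ.1 - w.1)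
  rcases fin3_cases a with rfl | rfl | rfl
  · simp [kern_zero]
  · rw [kern_one, abs_of_nonneg h0, if_neg (by decide)]
    exact hR
  · rw [kern_two, if_neg (by decide), abs_mul, abs_mul, abs_mul, abs_osg, abs_osg,
      abs_of_nonneg h0]
    have : |sgn (ξ.1 - w.1)| = 1 := by
      unfold sgn; split_ifs <;> simp
    rw [this]
    simpa using hR

theorem abs_kern_le' (a : Fin 3) (ξ w : Xh F) :
    |kern a ξ w| ≤ if a = 0 then 1 else kern 1 ξ w := by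
  have h0 := Rk_nonneg (ξ.1 - w.1)
  rcases fin3_cases a with rfl | rfl | rfl
  · simp [kern_zero]
  · rw [kern_one, abs_of_nonneg h0, if_neg (by decide)]
  · rw [kern_two, if_neg (by decide), abs_mul, abs_mul, abs_mul, abs_osg, abs_osg,
      abs_of_nonneg h0, kern_one]
    have : |sgn (ξ.1 - w.1)| = 1 := by unfold sgn; split_ifs <;> simp
    rw [this]
    simp

omit [Field F] [Fintype F] [DecidableEq F] in
theorem case_bash (Q : ℝ) (hQ : 1 ≤ Q) (g0 g1 g2 k0 k1 k2 : Prop) [Decidable g0] [Decidable g1]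
    [Decidable g2] [Decidable k0] [Decidable k1] [Decidable k2]
    (h01 : ¬ (g0 ∧ g1)) (h02 : ¬ (g0 ∧ g2)) (h12 : ¬ (g1 ∧ g2)) :
    (if g0 then 1 else if k0 then 5 * Q else 0) * (if g1 then 1 else if k1 then 5 * Q else 0) *
      (if g2 then 1 else if k2 then 5 * Q else 0) ≤
    125 * (if 2 ≤ (if k0 then 1 else 0) + (if k1 then 1 else 0) + (if k2 then 1 else 0) then
      Q ^ ((if k0 then 1 else 0) + (if k1 then 1 else 0) + (if k2 then 1 else 0)) else 0) := by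
  have hQ2 : Q ^ 2 ≤ Q ^ 3 := pow_le_pow_right₀ hQ (by norm_num)
  have hQ0 : 0 ≤ Q ^ 2 := by positivity
  by_cases a0 : g0 <;> by_cases a1 : g1 <;> by_cases a2 : g2 <;>
    first
      | (exfalso; tauto)
      | (by_cases b0 : k0 <;> by_cases b1 : k1 <;> by_cases b2 : k2 <;>
          simp [a0, a1, a2, b0, b1, b2] <;> nlinarith)

theorem dF_bound (hF : ringChar F ≠ 2) (hq5 : 5 ≤ (Fintype.card F : ℝ)) (g : Fin 3 → Fin 3)
    (ξ : Fin 3 → Xh F) :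
    |dF g ξ| ≤ 125 * C0 * (Fintype.card F : ℝ) ^ wt0 (dK3 (ξ 0).1 (ξ 1).1 (ξ 2).1)
      (dK (ξ 0).1 (ξ 1).1) (dK (ξ 0).1 (ξ 2).1) (dK (ξ 1).1 (ξ 2).1) := by
  have hq1 : (1 : ℝ) ≤ Fintype.card F := by linarith
  have hc : cO F ≠ 0 := cO_ne_zero (by linarith)
  have hone : (1 : ℝ) ≤ 125 * C0 * (Fintype.card F : ℝ) ^ wt0 (dK3 (ξ 0).1 (ξ 1).1 (ξ 2).1)
      (dK (ξ 0).1 (ξ 1).1) (dK (ξ 0).1 (ξ 2).1) (dK (ξ 1).1 (ξ 2).1) := by
    have := one_le_C0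
    exact one_le_mul_of_one_le_of_one_le (by linarith) (one_le_pow₀ hq1)
  have habs : |dF g ξ| ≤ 𝔼 w : Xh F,
      |kern (g 0) (ξ 0) w| * |kern (g 1) (ξ 1) w| * |kern (g 2) (ξ 2) w| := by
    unfold dF
    refine (abs_expect_le _ _).trans (le_of_eq ?_)
    simp only [Fin.prod_univ_three, abs_mul]
  refine habs.trans ?_
  have a0 := fun w => abs_nonneg (kern (g 0) (ξ 0) w)
  have a1 := fun w => abs_nonneg (kern (g 1) (ξ 1) w)
  have a2 := fun w => abs_nonneg (kern (g 2) (ξ 2) w)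
  have one_slot : ∀ s : Fin 3, 𝔼 w : Xh F, |kern (g s) (ξ s) w| ≤ 1 := by
    intro s
    refine (expect_le_expect fun w _ => abs_kern_le' (g s) (ξ s) w).trans ?_
    split_ifs
    · rw [Fintype.expect_const]
    · rw [expect_kern_right hc]
  by_cases h01 : g 0 = 0 ∧ g 1 = 0
  · simp only [h01.1, h01.2, kern_zero, abs_one, one_mul]
    exact (one_slot 2).trans hone
  by_cases h02 : g 0 = 0 ∧ g 2 = 0
  · simp only [h02.1, h02.2, kern_zero, abs_one, one_mul, mul_one]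
    exact (one_slot 1).trans hone
  by_cases h12 : g 1 = 0 ∧ g 2 = 0
  · simp only [h12.1, h12.2, kern_zero, abs_one, mul_one]
    exact (one_slot 0).trans hone
  let cnt : ℕ → ℕ → ℕ → ℕ := fun j1 j2 j3 =>
    (if j1 = 4 then 1 else 0) + (if j2 = 4 then 1 else 0) + (if j3 = 4 then 1 else 0)
  let Ψ : ℕ → ℕ → ℕ → ℕ → ℕ → ℕ → ℝ := fun j1 j2 j3 _ _ _ =>
    if 2 ≤ cnt j1 j2 j3 then (Fintype.card F : ℝ) ^ (10 * cnt j1 j2 j3) else 0
  have hΨ : ∀ a b c d e f, 0 ≤ Ψ a b c d e f := by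
    intro a b c d e f
    simp only [Ψ]
    split_ifs <;> positivity
  have hstep := step_bound hF (ξ 0).1 (ξ 1).1 (ξ 2).1 Ψ
    ((Fintype.card F : ℝ) ^ wt0 (dK3 (ξ 0).1 (ξ 1).1 (ξ 2).1)
      (dK (ξ 0).1 (ξ 1).1) (dK (ξ 0).1 (ξ 2).1) (dK (ξ 1).1 (ξ 2).1)) (by positivity) hΨ (by
    intro π hπ
    simp only [Ψ]
    split_ifs with h2
    · have h := (dp_sound (tvalid_ty (ξ 0).1 (ξ 1).1 (ξ 2).1) hπ).2.2.2 _ rfl h2
      rw [← pow_add, ← pow_add]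
      refine pow_le_pow_right₀ hq1 ?_
      simp only [cnt, wt0] at h ⊢
      omega
    · rw [zero_mul]; positivity)
  rw [← fa_expect_fst (B := Bool)] at hstep
  rw [mul_assoc]
  refine le_trans ?_ (mul_le_mul_of_nonneg_left hstep (by norm_num))
  rw [mul_expect]
  refine expect_le_expect fun w _ => ?_
  have b0 := abs_kern_le hq5 (g 0) (ξ 0) w
  have b1 := abs_kern_le hq5 (g 1) (ξ 1) w
  have b2 := abs_kern_le hq5 (g 2) (ξ 2) w
  refine (mul_le_mul (mul_le_mul b0 b1 (a1 w) ((a0 w).trans b0)) b2 (a2 w)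
    (mul_nonneg ((a0 w).trans b0) ((a1 w).trans b1))).trans ?_
  have hQ : (1 : ℝ) ≤ (Fintype.card F : ℝ) ^ 10 := one_le_pow₀ hq1
  simp only [Ψ, cnt, pow_mul]
  exact case_bash _ hQ _ _ _ _ _ _ h01 h02 h12

end

open Classical in
theorem ui : ∃ (C : ℝ) (wt : ℕ → ℕ → ℕ → ℕ → ℕ), 0 < C ∧ wt 0 0 0 0 = 0 ∧
    (∀ᶠ p : Nat.Primes in bigP, ∀ (g : Fin 3 → Fin 3) (ξ : Fin 3 → Xh (ZMod p)),
      |dF g ξ| ≤ C * ((p : ℕ) : ℝ) ^ wt (dK3 (ξ 0).1 (ξ 1).1 (ξ 2).1) (dK (ξ 0).1 (ξ 1).1)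
        (dK (ξ 0).1 (ξ 2).1) (dK (ξ 1).1 (ξ 2).1)) ∧
    Tendsto (fun p : Nat.Primes => 𝔼 x : Fin 7 → X (ZMod p),
        (if allGen x then (0 : ℝ) else
          ∏ f, ((p : ℕ) : ℝ) ^ wt (dK3 (x (face f 0)) (x (face f 1)) (x (face f 2)))
            (dK (x (face f 0)) (x (face f 1))) (dK (x (face f 0)) (x (face f 2)))
            (dK (x (face f 1)) (x (face f 2))))) bigP (𝓝 0) := by
  have h5 : ∀ᶠ p : Nat.Primes in bigP, 5 ≤ (p : ℕ) :=
    tendsto_comap.eventually (eventually_ge_atTop 5)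
  refine ⟨125 * C0, wt0, by have := C0_pos; positivity, by decide +kernel, ?_, ?_⟩
  · filter_upwards [h5, eventually_ne_two] with p hp hF g ξ
    have := dF_bound hF (by rw [ZMod.card]; exact_mod_cast hp) g ξ
    rwa [ZMod.card] at this
  · have hρ : Tendsto (fun p : Nat.Primes => C0 ^ 6 / ((p : ℕ) : ℝ) ^ ((1 : ℝ) / 10)) bigP
        (𝓝 0) := by
      refine Tendsto.div_atTop tendsto_const_nhds ?_
      exact (tendsto_rpow_atTop (by norm_num)).comp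
        (tendsto_natCast_atTop_atTop.comp tendsto_comap)
    refine squeeze_zero' (Eventually.of_forall fun p => expect_nonneg fun x _ => ?_) ?_ hρ
    · split_ifs
      · exact le_rfl
      · positivity
    · filter_upwards [h5, eventually_ne_two] with p hp hF
      have hp1 : (1 : ℝ) ≤ ((p : ℕ) : ℝ) := by exact_mod_cast (by omega : 1 ≤ (p : ℕ))
      have := nongen_bound hF (ρ := ((p : ℕ) : ℝ) ^ ((1 : ℝ) / 10))
        (Real.one_le_rpow hp1 (by norm_num)) (by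
          rw [ZMod.card, ← Real.rpow_natCast, ← Real.rpow_mul (by linarith)]
          norm_num)
      rwa [ZMod.card] at this

end Vale.Agent.P050
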